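import Vale.Agent.P321.Alg

/-!
P321, superpolynomial bound: the centred binomial weights with `h = 2^(3H)` trials change by a
factor `1 + O(2^(-H))` per step in the window of width `2^(2H)` and are at most `2^(-2^(H-3))`
outside.
-/

open Finset

namespace Vale.Agent.P321

/-- Binomial weight at an integer place. -/
noncomputable def bw (h : ℕ) (s : ℤ) : ℝ :=
  if 0 ≤ s then (h.choose s.toNat : ℝ) / 2 ^ h else 0

lemma bw_natCast (h t : ℕ) : bw h t = (h.choose t : ℝ) / 2 ^ h := by simp [bw]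

lemma bw_nonneg (h : ℕ) (s : ℤ) : 0 ≤ bw h s := by
  unfold bw; split_ifs <;> positivity

lemma bw_of_lt (h : ℕ) {s : ℤ} (hs : s < 0) : bw h s = 0 := by simp [bw, hs]

lemma sum_bw (h : ℕ) : ∑ t ∈ range (h + 1), bw h t = 1 := by
  simp only [bw_natCast, ← Finset.sum_div]
  rw [show (∑ t ∈ range (h + 1), (h.choose t : ℝ)) = 2 ^ h by exact_mod_cast Nat.sum_range_choose h,
    div_self (by positivity)]

lemma bw_le_max (h : ℕ) (s : ℤ) : bw h s ≤ 1 / Real.sqrt (h + 1) := by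
  rcases lt_or_ge s 0 with hs | hs
  · rw [bw_of_lt h hs]; positivity
  lift s to ℕ using hs
  rw [bw_natCast, div_le_div_iff₀ (by positivity) (Real.sqrt_pos.2 (by positivity)), one_mul]
  calc (h.choose s : ℝ) * Real.sqrt (h + 1) ≤ (h.choose (h / 2) : ℝ) * Real.sqrt (h + 1) := by
        gcongr; exact_mod_cast Nat.choose_le_middle s h
    _ ≤ 2 ^ h := by
        refine le_of_pow_le_pow_left₀ two_ne_zero (by positivity) ?_
        rw [mul_pow, Real.sq_sqrt (by positivity), ← pow_mul, mul_comm h, pow_mul]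
        norm_num
        exact middle_sq h

/-- The bound outside the central window. -/
noncomputable def bwTail (H : ℕ) : ℝ := (2 ^ 2 ^ (H - 3))⁻¹

lemma bwTail_nonneg (H : ℕ) : 0 ≤ bwTail H := by unfold bwTail; positivity

lemma choose_le_tail {H t : ℕ} (hH : 3 ≤ H) (ht : 2 * t + 2 ^ (2 * H) ≤ 2 ^ (3 * H)) :
    ((2 ^ (3 * H)).choose t : ℝ) / 2 ^ 2 ^ (3 * H) ≤ bwTail H := by
  set h := 2 ^ (3 * H) with hh
  set u := 2 ^ (2 * H - 2) with hu
  have hD : 2 ^ (2 * H) = 4 * u := by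
    rw [hu, show 4 = 2 ^ 2 by norm_num, ← pow_add]; congr 1; omega
  set x : ℝ := 2 * u / h with hx
  have hhpos : (0 : ℝ) < h := by rw [hh]; positivity
  have hx1 : x ≤ 1 := by
    rw [hx, div_le_one hhpos]
    have : 2 * u ≤ h := by omega
    exact_mod_cast this
  have hstep : ∀ j < u, (h.choose (t + j) : ℝ) ≤ (1 - x) * (h.choose (t + j + 1) : ℝ) := by
    intro j hj
    have e : (h.choose (t + j + 1) : ℝ) * (t + j + 1 : ℕ) =
        (h.choose (t + j) : ℝ) * (h - (t + j) : ℕ) := by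
      exact_mod_cast Nat.choose_succ_right_eq h (t + j)
    have hc : ((t + j + 1 : ℕ) : ℝ) ≤ (1 - x) * (h - (t + j) : ℕ) := by
      have i1 : 2 * ((t + j + 1 : ℕ) : ℝ) + 2 * u ≤ h := by
        have : 2 * (t + j + 1) + 2 * u ≤ h := by omega
        exact_mod_cast this
      rw [Nat.cast_sub (by omega), hx, sub_mul, one_mul, div_mul_eq_mul_div]
      have : 2 * (u : ℝ) * ((h : ℝ) - ((t + j : ℕ) : ℝ)) / h ≤ 2 * u := by
        rw [div_le_iff₀ hhpos]
        nlinarith [Nat.cast_nonneg (α := ℝ) (t + j), Nat.cast_nonneg (α := ℝ) u]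
      push_cast at i1 this ⊢
      linarith
    have hpos : (0 : ℝ) < (h - (t + j) : ℕ) := by exact_mod_cast (show 0 < h - (t + j) by omega)
    refine le_of_mul_le_mul_right ?_ hpos
    rw [← e]
    calc (h.choose (t + j + 1) : ℝ) * (t + j + 1 : ℕ)
        ≤ (h.choose (t + j + 1) : ℝ) * ((1 - x) * (h - (t + j) : ℕ)) :=
          mul_le_mul_of_nonneg_left hc (Nat.cast_nonneg _)
      _ = _ := by ring
  have hall : ∀ j ≤ u, (h.choose t : ℝ) ≤ (1 - x) ^ j * (h.choose (t + j) : ℝ) := by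
    intro j
    induction j with
    | zero => simp
    | succ j ih =>
      intro hj
      refine (ih (by omega)).trans ?_
      rw [pow_succ, mul_assoc]
      exact mul_le_mul_of_nonneg_left (hstep j (by omega)) (pow_nonneg (by linarith) _)
  have hb : (h.choose (t + u) : ℝ) ≤ 2 ^ h := by exact_mod_cast Nat.choose_le_two_pow h (t + u)
  rw [div_le_iff₀ (by positivity)]
  refine (hall u le_rfl).trans (mul_le_mul ?_ hb (Nat.cast_nonneg _) (bwTail_nonneg H))
  have hxu : x * u = ((2 ^ (H - 3) : ℕ) : ℝ) := by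
    rw [hx, hu, hh]
    push_cast
    field_simp
    rw [← pow_mul, ← pow_add, mul_comm (2 : ℝ), ← pow_succ]
    congr 1
    omega
  calc (1 - x) ^ u ≤ Real.exp (-x) ^ u :=
        pow_le_pow_left₀ (by linarith) (Real.one_sub_le_exp_neg x) u
    _ = Real.exp (-1) ^ (2 ^ (H - 3)) := by
        rw [← Real.exp_nat_mul, ← Real.exp_nat_mul, ← hxu]; congr 1; ring
    _ ≤ (1 / 2) ^ (2 ^ (H - 3)) := by
        refine pow_le_pow_left₀ (Real.exp_pos _).le ?_ _
        rw [Real.exp_neg, one_div]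
        refine inv_anti₀ (by norm_num) ?_
        have := Real.add_one_le_exp (1 : ℝ)
        linarith
    _ = bwTail H := by rw [bwTail, one_div, inv_pow]

lemma bw_le_tail {H : ℕ} (hH : 3 ≤ H) {s : ℤ}
    (hs : (2 : ℤ) ^ (2 * H) ≤ |2 * s - 2 ^ (3 * H)|) :
    bw (2 ^ (3 * H)) s ≤ bwTail H := by
  rcases lt_or_ge s 0 with h0 | h0
  · rw [bw_of_lt _ h0]; exact bwTail_nonneg H
  lift s to ℕ using h0
  rw [bw_natCast]
  have hc : (2 : ℤ) ^ (2 * H) = ((2 ^ (2 * H) : ℕ) : ℤ) ∧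
      (2 : ℤ) ^ (3 * H) = ((2 ^ (3 * H) : ℕ) : ℤ) := by constructor <;> push_cast <;> rfl
  rw [hc.1, hc.2] at hs
  rcases le_abs.1 hs with h | h
  · rcases lt_or_ge (2 ^ (3 * H)) s with hlt | hle
    · rw [Nat.choose_eq_zero_of_lt hlt, Nat.cast_zero, zero_div]; exact bwTail_nonneg H
    · rw [← Nat.choose_symm hle]
      exact choose_le_tail hH (by omega)
  · exact choose_le_tail hH (by omega)

/-- One step inside the window. -/
lemma bw_step {H : ℕ} (hH : 3 ≤ H) {s : ℤ}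
    (hs : |2 * s - 2 ^ (3 * H)| ≤ 2 * 2 ^ (2 * H)) :
    bw (2 ^ (3 * H)) s ≤ (1 + 9 / 2 ^ H) * bw (2 ^ (3 * H)) (s + 1) ∧
      bw (2 ^ (3 * H)) (s + 1) ≤ (1 + 9 / 2 ^ H) * bw (2 ^ (3 * H)) s := by
  set h := 2 ^ (3 * H) with hh
  have h8 : 8 * 2 ^ (2 * H) ≤ h := by
    rw [hh, show 8 = 2 ^ 3 by norm_num, ← pow_add]
    exact Nat.pow_le_pow_right (by norm_num) (by omega)
  have hc : (2 : ℤ) ^ (2 * H) = ((2 ^ (2 * H) : ℕ) : ℤ) ∧
      (2 : ℤ) ^ (3 * H) = ((h : ℕ) : ℤ) := by constructor <;> simp [hh]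
  rw [hc.1, hc.2] at hs
  obtain ⟨ha, hb⟩ := abs_le.1 hs
  lift s to ℕ using (by omega)
  rw [show (s : ℤ) + 1 = ((s + 1 : ℕ) : ℤ) by push_cast; rfl, bw_natCast, bw_natCast,
    ← mul_div_assoc, ← mul_div_assoc, div_le_div_iff_of_pos_right (by positivity),
    div_le_div_iff_of_pos_right (by positivity)]
  set D : ℕ := 2 ^ (2 * H) with hD
  have hρ : (9 : ℝ) / 2 ^ H * h = 9 * D := by
    rw [hh, hD]; push_cast
    rw [show 3 * H = H + 2 * H by ring, pow_add]
    field_simp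
  have e : (h.choose (s + 1) : ℝ) * (s + 1 : ℕ) = (h.choose s : ℝ) * (h - s : ℕ) := by
    exact_mod_cast Nat.choose_succ_right_eq h s
  have r1 : (h : ℝ) ≤ 2 * s + 2 * D := by exact_mod_cast (show h ≤ 2 * s + 2 * D by omega)
  have r2 : 2 * (s : ℝ) ≤ h + 2 * D := by exact_mod_cast (show 2 * s ≤ h + 2 * D by omega)
  have r3 : 8 * (D : ℝ) ≤ h := by exact_mod_cast h8
  have hρ0 : (0 : ℝ) ≤ 9 / 2 ^ H := by positivity
  have hD1 : (1 : ℝ) ≤ D := by exact_mod_cast (show 1 ≤ D from Nat.one_le_two_pow)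
  have hsub : ((h - s : ℕ) : ℝ) = (h : ℝ) - s := by rw [Nat.cast_sub (by omega)]
  rw [hsub] at e
  push_cast at e
  constructor
  · refine le_of_mul_le_mul_right ?_ (show (0 : ℝ) < (h : ℝ) - s by linarith)
    rw [← e, mul_comm (1 + (9 : ℝ) / 2 ^ H), mul_assoc]
    refine mul_le_mul_of_nonneg_left ?_ (Nat.cast_nonneg _)
    nlinarith
  · refine le_of_mul_le_mul_right ?_ (show (0 : ℝ) < (s : ℝ) + 1 by positivity)
    rw [e, mul_comm (1 + (9 : ℝ) / 2 ^ H), mul_assoc]
    refine mul_le_mul_of_nonneg_left ?_ (Nat.cast_nonneg _)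
    nlinarith

lemma one_add_pow_le {ρ : ℝ} (hρ : 0 ≤ ρ) :
    ∀ k : ℕ, (k : ℝ) * ρ ≤ 1 / 2 → (1 + ρ) ^ k ≤ 1 + 2 * k * ρ
  | 0, _ => by simp
  | k + 1, h => by
    push_cast at h ⊢
    have ih := one_add_pow_le hρ k (by nlinarith)
    rw [pow_succ]
    refine (mul_le_mul_of_nonneg_right ih (by linarith)).trans ?_
    nlinarith [mul_le_mul_of_nonneg_right (show 2 * (k : ℝ) * ρ ≤ 1 by nlinarith) hρ]

/-- Two weights at distance at most `w` differ by a small multiple of their sum, or by the tail. -/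
theorem bw_diff {H w : ℕ} (hH : 3 ≤ H) (hw : 18 * w ≤ 2 ^ H) {s s' : ℤ} (hd : |s - s'| ≤ w) :
    |bw (2 ^ (3 * H)) s - bw (2 ^ (3 * H)) s'| ≤
      18 * w / 2 ^ H * (bw (2 ^ (3 * H)) s + bw (2 ^ (3 * H)) s') + bwTail H := by
  set h := 2 ^ (3 * H)
  wlog hle : s ≤ s' generalizing s s' with Hs
  · rw [abs_sub_comm, add_comm (bw h s)]
    exact Hs (by rwa [abs_sub_comm]) (le_of_not_ge hle)
  have hwD : 4 * (w : ℤ) ≤ 2 ^ (2 * H) := by
    have h2 : 2 ^ H ≤ 2 ^ (2 * H) := Nat.pow_le_pow_right (by norm_num) (by omega)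
    exact_mod_cast (show 4 * w ≤ 2 ^ (2 * H) by omega)
  have hD0 : (0 : ℤ) < 2 ^ (2 * H) := by positivity
  obtain ⟨k, rfl⟩ : ∃ k : ℕ, s' = s + k := ⟨(s' - s).toNat, by omega⟩
  have hk : k ≤ w := by have := abs_le.1 hd; omega
  have n1 := bw_nonneg h s
  have n2 := bw_nonneg h (s + k)
  have hv : (0 : ℝ) ≤ 18 * w / 2 ^ H * (bw h s + bw h (s + k)) := by positivity
  by_cases hin : |2 * s - 2 ^ (3 * H)| + 2 * k ≤ 2 * 2 ^ (2 * H)
  · set ρ : ℝ := 9 / 2 ^ H with hρdef
    have hρ : 0 ≤ ρ := by positivity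
    have path : ∀ j ≤ k, bw h s ≤ (1 + ρ) ^ j * bw h (s + j) ∧
        bw h (s + j) ≤ (1 + ρ) ^ j * bw h s := by
      intro j
      induction j with
      | zero => simp
      | succ j ih =>
        intro hj
        obtain ⟨a1, a2⟩ := ih (by omega)
        have hA1 := le_abs_self (2 * s - 2 ^ (3 * H))
        have hA2 := neg_abs_le (2 * s - 2 ^ (3 * H))
        have st := bw_step hH (s := s + j) (abs_le.2 ⟨by omega, by omega⟩)
        push_cast
        rw [← add_assoc, pow_succ]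
        constructor
        · refine a1.trans ?_
          rw [mul_assoc]
          exact mul_le_mul_of_nonneg_left st.1 (by positivity)
        · refine st.2.trans ?_
          rw [mul_comm ((1 + ρ) ^ j), mul_assoc]
          exact mul_le_mul_of_nonneg_left a2 (by positivity)
    obtain ⟨p1, p2⟩ := path k le_rfl
    have hwR : 18 * (w : ℝ) ≤ 2 ^ H := by exact_mod_cast hw
    have hkw : (k : ℝ) ≤ w := by exact_mod_cast hk
    have hkρ : (k : ℝ) * ρ ≤ 1 / 2 := by
      rw [hρdef, ← mul_div_assoc, div_le_iff₀ (by positivity)]; linarith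
    have hp := one_add_pow_le hρ k hkρ
    have hvk : 2 * (k : ℝ) * ρ ≤ 18 * w / 2 ^ H := by
      rw [hρdef, ← mul_div_assoc, div_le_div_iff_of_pos_right (by positivity)]; linarith
    have t0 := bwTail_nonneg H
    rw [abs_le]
    constructor <;> nlinarith [mul_le_mul_of_nonneg_right hp n1, mul_le_mul_of_nonneg_right hp n2,
      mul_le_mul_of_nonneg_right hvk n1, mul_le_mul_of_nonneg_right hvk n2]
  · rw [not_le] at hin
    have o1 : bw h s ≤ bwTail H := bw_le_tail hH (by omega)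
    have o2 : bw h (s + k) ≤ bwTail H := bw_le_tail hH (by
      rcases abs_choice (2 * s - 2 ^ (3 * H)) with h1 | h1 <;> rw [h1] at hin <;>
        refine le_abs.2 ?_ <;> omega)
    rw [abs_le]
    constructor <;> linarith

/-- Sums of weights over two equally large sets of shifts inside a window. -/
theorem sum_bw_diff {H w : ℕ} (hH : 3 ≤ H) (hw : 18 * w ≤ 2 ^ H) {S T : Finset ℕ}
    (hc : S.card = T.card) (hS : ∀ k ∈ S, k < w) (hT : ∀ k ∈ T, k < w) (i : ℤ) :
    |∑ k ∈ S, bw (2 ^ (3 * H)) (i - k) - ∑ k ∈ T, bw (2 ^ (3 * H)) (i - k)| ≤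
      18 * w / 2 ^ H * (∑ k ∈ S, bw (2 ^ (3 * H)) (i - k) + ∑ k ∈ T, bw (2 ^ (3 * H)) (i - k))
        + w * bwTail H := by
  set f : ℕ → ℝ := fun k => bw (2 ^ (3 * H)) (i - k)
  set v : ℝ := 18 * w / 2 ^ H
  rcases Nat.eq_zero_or_pos S.card with h0 | h0
  · have hT0 : T.card = 0 := by omega
    rw [Finset.card_eq_zero.1 h0, Finset.card_eq_zero.1 hT0]
    simp only [Finset.sum_empty, sub_zero, abs_zero, add_zero, mul_zero, zero_add]
    have := bwTail_nonneg H
    positivity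
  have hN : (0 : ℝ) < S.card := by exact_mod_cast h0
  have hNw : (S.card : ℝ) ≤ w := by
    exact_mod_cast (Finset.card_le_card (fun k hk => Finset.mem_range.2 (hS k hk))).trans_eq
      (Finset.card_range w)
  refine le_trans ?_ (add_le_add le_rfl (mul_le_mul_of_nonneg_right hNw (bwTail_nonneg H)))
  refine le_of_mul_le_mul_left ?_ hN
  rw [← abs_of_nonneg hN.le, ← abs_mul, abs_of_nonneg hN.le]
  calc |(S.card : ℝ) * (∑ k ∈ S, f k - ∑ k ∈ T, f k)|
      = |∑ k ∈ S, ∑ k' ∈ T, (f k - f k')| := by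
        simp only [Finset.sum_sub_distrib, Finset.sum_const, nsmul_eq_mul, ← Finset.mul_sum, ← hc]
        rw [mul_sub]
    _ ≤ ∑ k ∈ S, ∑ k' ∈ T, (v * (f k + f k') + bwTail H) := by
        refine (Finset.abs_sum_le_sum_abs _ _).trans (Finset.sum_le_sum fun k hk => ?_)
        refine (Finset.abs_sum_le_sum_abs _ _).trans (Finset.sum_le_sum fun k' hk' => ?_)
        refine bw_diff hH hw (abs_le.2 ⟨?_, ?_⟩) <;>
          (have := hS k hk; have := hT k' hk'; omega)
    _ = _ := by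
        simp only [Finset.sum_add_distrib, Finset.sum_const, nsmul_eq_mul, ← Finset.mul_sum,
          mul_add, ← hc, f]

end Vale.Agent.P321
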