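import Vale.Agent.P321.Super.Basic

/-!
P321, superpolynomial bound: padding by a smooth cell. When `U^(B+1)` and `U^B` overlap, the
sandwich `F ↦ U^P F U^P` is a mixture of sandwiches of `S^h F`, `S F = (U F + F U)/2`, up to an
exponentially small remainder.
-/

open Finset

namespace Vale.Agent.P321

/-- One symmetrised shift. -/
noncomputable def sh (U F : Alg) : Alg := (1 / 2 : ℝ) • (U * F + F * U)

/-- `S^h F` written out. -/
lemma sh_iterate (U F : Alg) : ∀ h : ℕ, (sh U)^[h] F =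
    ∑ t ∈ range (h + 1), ((h.choose t : ℝ) / 2 ^ h) • (U ^ t * F * U ^ (h - t)) := by
  intro h
  induction h with
  | zero => simp
  | succ h ih =>
    set G : ℕ → Alg := fun t => U ^ t * F * U ^ (h + 1 - t) with hG
    rw [Function.iterate_succ_apply', ih, sh, mul_sum, sum_mul, ← sum_add_distrib, smul_sum,
      sum_range_succ' _ (h + 1)]
    have hsplit : ∀ t ∈ range (h + 1),
        (1 / 2 : ℝ) • (U * (((h.choose t : ℝ) / 2 ^ h) • (U ^ t * F * U ^ (h - t)))
          + (((h.choose t : ℝ) / 2 ^ h) • (U ^ t * F * U ^ (h - t))) * U) =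
        ((h.choose t : ℝ) / 2 ^ (h + 1)) • G (t + 1) + ((h.choose t : ℝ) / 2 ^ (h + 1)) • G t := by
      intro t ht
      rw [mem_range] at ht
      rw [mul_smul_comm, smul_mul_assoc, ← smul_add, smul_smul, smul_add]
      have e1 : U * (U ^ t * F * U ^ (h - t)) = G (t + 1) := by
        simp only [hG, Nat.succ_sub_succ_eq_sub, pow_succ' U t, mul_assoc]
      have e2 : U ^ t * F * U ^ (h - t) * U = G t := by
        simp only [hG, show h + 1 - t = (h - t) + 1 by omega, pow_succ, mul_assoc]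
      rw [e1, e2, show (1 / 2 : ℝ) * ((h.choose t : ℝ) / 2 ^ h) = (h.choose t : ℝ) / 2 ^ (h + 1) by
        rw [pow_succ]; ring]
    rw [sum_congr rfl hsplit, sum_add_distrib]
    have h2 : ∑ t ∈ range (h + 1), ((h.choose t : ℝ) / 2 ^ (h + 1)) • G t =
        ∑ t ∈ range (h + 1), ((h.choose (t + 1) : ℝ) / 2 ^ (h + 1)) • G (t + 1)
          + ((1 : ℝ) / 2 ^ (h + 1)) • G 0 := by
      have e := sum_range_succ (fun t => ((h.choose t : ℝ) / 2 ^ (h + 1)) • G t) (h + 1)
      rw [Nat.choose_succ_self, Nat.cast_zero, zero_div, zero_smul, add_zero] at e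
      rw [← e, sum_range_succ' _ (h + 1), Nat.choose_zero_right, Nat.cast_one]
    rw [h2, ← add_assoc, ← sum_add_distrib]
    refine congrArg₂ (· + ·) (sum_congr rfl fun t _ => ?_) (by simp [hG])
    rw [← add_smul, Nat.choose_succ_succ', Nat.cast_add, add_div]

/-- Relations that survive sandwiching by probability elements and mixing. -/
structure Closed (Rel : Alg → Alg → ℝ → Prop) : Prop where
  mono : ∀ {F G : Alg} {v v' : ℝ}, Rel F G v → v ≤ v' → Rel F G v'
  sandwich : ∀ {F G α β : Alg} {v : ℝ}, IsProb α → IsProb β → Rel F G v →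
    Rel (α * F * β) (α * G * β) v
  mix : ∀ {F G F' G' : Alg} {v v' s : ℝ}, 0 ≤ s → s ≤ 1 → Rel F G v → Rel F' G' v' →
    Rel (s • F + (1 - s) • F') (s • G + (1 - s) • G') (s * v + (1 - s) * v')

lemma Closed.sh {Rel : Alg → Alg → ℝ → Prop} (hR : Closed Rel) {U : Alg} (hU : IsProb U)
    {F G : Alg} {v : ℝ} (h : Rel F G v) : Rel (P321.sh U F) (P321.sh U G) v := by
  have e : ∀ Z : Alg, P321.sh U Z = (1 / 2 : ℝ) • (U * Z * 1) + (1 - 1 / 2 : ℝ) • (1 * Z * U) := by
    intro Z; rw [P321.sh, mul_one, one_mul, smul_add]; norm_num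
  rw [e F, e G]
  exact hR.mono (hR.mix (by norm_num) (by norm_num) (hR.sandwich hU IsProb.one h)
    (hR.sandwich IsProb.one hU h)) (by ring_nf; rfl)

/-- The weight of the mixture components that did not receive `h` shifts after `M` rounds. -/
noncomputable def tau : ℕ → ℕ → ℝ
  | _, 0 => 0
  | 0, _ + 1 => 1
  | M + 1, h + 1 => 1 / 8 * tau M h + 7 / 8 * tau M (h + 1)

lemma tau_le : ∀ M h : ℕ, tau M h ≤ 2 ^ h * (15 / 16) ^ M
  | M, 0 => by rw [tau]; positivity
  | 0, h + 1 => by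
    rw [tau, pow_zero, mul_one]; exact one_le_pow₀ (by norm_num)
  | M + 1, h + 1 => by
    rw [tau]
    have h1 := tau_le M h
    have h2 := tau_le M (h + 1)
    have e : (2 : ℝ) ^ (h + 1) * (15 / 16) ^ (M + 1) =
        1 / 8 * (2 ^ h * (15 / 16) ^ M) + 7 / 8 * (2 ^ (h + 1) * (15 / 16) ^ M) := by ring
    linarith

lemma tau_nonneg : ∀ M h : ℕ, 0 ≤ tau M h
  | M, 0 => by rw [tau]
  | 0, h + 1 => by rw [tau]; norm_num
  | M + 1, h + 1 => by
    rw [tau]; linarith [tau_nonneg M h, tau_nonneg M (h + 1)]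

/-- Both-sided decomposition of a power of `U`. -/
lemma pow_split {U : Alg} (hU : IsProb U) (B : ℕ) (hB : nrm (U ^ (B + 1) - U ^ B) ≤ 1) :
    ∃ μ R R' : Alg, IsProb μ ∧ IsProb R ∧ IsProb R' ∧
      U ^ (B + 1) = (1 / 2 : ℝ) • (((1 / 2 : ℝ) • (1 + U)) * μ) + (1 / 2 : ℝ) • R ∧
      U ^ (B + 1) = (1 / 2 : ℝ) • (μ * ((1 / 2 : ℝ) • (1 + U))) + (1 / 2 : ℝ) • R' := by
  classical
  set K := B + 1 with hK
  set ν : Alg := MonoidAlgebra.ofCoeff
    (Finsupp.zipWith min (min_self 0) (U ^ B).coeff (U ^ K).coeff) with hν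
  have hνw : ∀ w, ν.coeff w = min ((U ^ B).coeff w) ((U ^ K).coeff w) := fun w => by simp [hν]
  have hνpos : Pos ν := fun w => by
    rw [hνw]; exact le_min ((hU.pow B).pos w) ((hU.pow K).pos w)
  set lam := mass ν with hlam
  have hlam0 : 1 / 2 ≤ lam := by
    set s := (U ^ B).coeff.support ∪ (U ^ K).coeff.support
    have h1 : lam = ∑ w ∈ s, ν.coeff w := mass_eq_sum (by
      simpa [hν] using Finsupp.support_zipWith (f := min) (hf := min_self (0 : ℝ))
        (g₁ := (U ^ B).coeff) (g₂ := (U ^ K).coeff))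
    have h2 : nrm (U ^ K - U ^ B) = ∑ w ∈ s, |(U ^ K).coeff w - (U ^ B).coeff w| := by
      rw [nrm_eq_sum (s := s)]
      · simp
      · rw [MonoidAlgebra.coeff_sub]
        exact Finsupp.support_sub.trans (union_subset subset_union_right subset_union_left)
    have h3 : (1 : ℝ) = ∑ w ∈ s, (U ^ K).coeff w := by
      rw [← mass_eq_sum subset_union_right, (hU.pow K).mass_one]
    have h4 : (1 : ℝ) = ∑ w ∈ s, (U ^ B).coeff w := by
      rw [← mass_eq_sum subset_union_left, (hU.pow B).mass_one]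
    have h5 : ∑ w ∈ s, (2 * ν.coeff w + |(U ^ K).coeff w - (U ^ B).coeff w|) =
        ∑ w ∈ s, ((U ^ K).coeff w + (U ^ B).coeff w) := sum_congr rfl fun w _ => by
      rw [hνw]
      rcases le_total ((U ^ B).coeff w) ((U ^ K).coeff w) with h | h
      · rw [min_eq_left h, abs_of_nonneg (sub_nonneg.2 h)]; ring
      · rw [min_eq_right h, abs_of_nonpos (sub_nonpos.2 h)]; ring
    rw [sum_add_distrib, sum_add_distrib, ← mul_sum, ← h1, ← h2, ← h3, ← h4] at h5
    linarith
  set c := 1 / (2 * lam) with hc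
  have hc0 : 0 ≤ c := by rw [hc]; exact div_nonneg zero_le_one (by linarith)
  have hc1 : c ≤ 1 := by rw [hc, div_le_one (by linarith)]; linarith
  set μ : Alg := (2 * c) • ν with hμ
  have hμp : IsProb μ := by
    refine ⟨hνpos.smul (by linarith), ?_⟩
    rw [hμ, map_smul, smul_eq_mul, ← hlam, hc]
    field_simp
  set A : Alg := (1 / 2 : ℝ) • (1 + U) with hA
  have hAp : IsProb A := by
    have := IsProb.mix (s := 1 / 2) (by norm_num) (by norm_num) IsProb.one hU
    rw [hA, smul_add]; convert this using 3; norm_num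
  -- `A ν` and `ν A` are below `U^K`
  have hd : Pos (U ^ B - ν) := fun v => by simp [hνw]
  have hν2 : ∀ w, ν.coeff w ≤ (U ^ K).coeff w := fun w => by rw [hνw]; exact min_le_right _ _
  have hAν : Pos (U ^ K - A * ν) := fun w => by
    have h1 : 0 ≤ (U * (U ^ B - ν)).coeff w := hU.pos.mul hd w
    rw [mul_sub, ← pow_succ'] at h1
    have h2 := hν2 w
    rw [hA, smul_mul_assoc, add_mul, one_mul, smul_add]
    simp only [MonoidAlgebra.coeff_sub, Finsupp.sub_apply, MonoidAlgebra.coeff_add,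
      Finsupp.add_apply, MonoidAlgebra.coeff_smul, Finsupp.smul_apply, smul_eq_mul] at h1 ⊢
    linarith
  have hνA : Pos (U ^ K - ν * A) := fun w => by
    have h1 : 0 ≤ ((U ^ B - ν) * U).coeff w := hd.mul hU.pos w
    rw [sub_mul, ← pow_succ] at h1
    have h2 := hν2 w
    rw [hA, mul_smul_comm, mul_add, mul_one, smul_add]
    simp only [MonoidAlgebra.coeff_sub, Finsupp.sub_apply, MonoidAlgebra.coeff_add,
      Finsupp.add_apply, MonoidAlgebra.coeff_smul, Finsupp.smul_apply, smul_eq_mul] at h1 ⊢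
    linarith
  have rest : ∀ X : Alg, mass X = lam → Pos X → Pos (U ^ K - X) →
      ∃ R : Alg, IsProb R ∧ U ^ K = (1 / 2 : ℝ) • ((2 * c) • X) + (1 / 2 : ℝ) • R := by
    intro X hXm hX hXU
    refine ⟨(2 : ℝ) • (U ^ K - c • X), ⟨Pos.smul (by norm_num) ?_, ?_⟩, ?_⟩
    · have := hXU.add (hX.smul (sub_nonneg.2 hc1))
      convert this using 1
      rw [sub_smul, one_smul]; abel
    · rw [map_smul, map_sub, map_smul, (hU.pow K).mass_one, hXm, smul_eq_mul, smul_eq_mul, hc]
      field_simp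
      norm_num
    · rw [smul_smul, smul_smul, show (1 / 2 : ℝ) * (2 * c) = c by ring,
        show (1 / 2 : ℝ) * 2 = 1 by norm_num, one_smul]
      abel
  obtain ⟨R, hR, eR⟩ := rest (A * ν) (by rw [map_mul, hAp.mass_one, one_mul])
    (hAp.pos.mul hνpos) hAν
  obtain ⟨R', hR', eR'⟩ := rest (ν * A) (by rw [map_mul, hAp.mass_one, mul_one])
    (hνpos.mul hAp.pos) hνA
  refine ⟨μ, R, R', hμp, hR, hR', ?_, ?_⟩
  · rw [hμ, mul_smul_comm]; exact eR
  · rw [hμ, smul_mul_assoc]; exact eR'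

/-- One round: an eighth of the weight receives a shift. -/
lemma pad_round {Rel : Alg → Alg → ℝ → Prop} (hR : Closed Rel) {U μ R R' : Alg} (hU : IsProb U)
    {K : ℕ} (hμ : IsProb μ) (hRp : IsProb R) (hRp' : IsProb R')
    (e : U ^ K = (1 / 2 : ℝ) • (((1 / 2 : ℝ) • (1 + U)) * μ) + (1 / 2 : ℝ) • R)
    (e' : U ^ K = (1 / 2 : ℝ) • (μ * ((1 / 2 : ℝ) • (1 + U))) + (1 / 2 : ℝ) • R')
    (N : ℕ) {F G : Alg} {v₁ v₂ : ℝ}
    (h₁ : Rel (U ^ N * sh U F * U ^ N) (U ^ N * sh U G * U ^ N) v₁)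
    (h₂ : Rel (U ^ N * F * U ^ N) (U ^ N * G * U ^ N) v₂) :
    Rel (U ^ (N + K) * F * U ^ (N + K)) (U ^ (N + K) * G * U ^ (N + K))
      (1 / 8 * v₁ + 7 / 8 * v₂) := by
  have expand : ∀ Z : Alg, U ^ (N + K) * Z * U ^ (N + K) =
      (1 / 8 : ℝ) • (μ * (U ^ N * sh U Z * U ^ N) * μ) + (1 - 1 / 8 : ℝ) •
        ((1 / 14 : ℝ) • (μ * (U ^ N * Z * U ^ N) * μ) + (1 - 1 / 14 : ℝ) •
          ((1 / 13 : ℝ) • ((μ * U) * (U ^ N * Z * U ^ N) * (U * μ)) + (1 - 1 / 13 : ℝ) •
            ((1 / 6 : ℝ) • (μ * (U ^ N * Z * U ^ N) * R) + (1 - 1 / 6 : ℝ) •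
              ((1 / 5 : ℝ) • ((μ * U) * (U ^ N * Z * U ^ N) * R) + (1 - 1 / 5 : ℝ) •
                ((1 / 4 : ℝ) • (R' * (U ^ N * Z * U ^ N) * μ) + (1 - 1 / 4 : ℝ) •
                  ((1 / 3 : ℝ) • (R' * (U ^ N * Z * U ^ N) * (U * μ)) + (1 - 1 / 3 : ℝ) •
                    (R' * (U ^ N * Z * U ^ N) * R))))))) := by
    intro Z
    have cN : U ^ N * U = U * U ^ N := ((Commute.refl U).pow_left N).eq
    have eL : U ^ (N + K) = (1 / 4 : ℝ) • (μ * U ^ N) + (1 / 4 : ℝ) • (μ * (U * U ^ N)) +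
        (1 / 2 : ℝ) • (R' * U ^ N) := by
      rw [add_comm N, pow_add, e']
      simp only [add_mul, smul_mul_assoc, mul_smul_comm, mul_add, mul_one, smul_add, smul_smul,
        mul_assoc]
      norm_num
    have eR : U ^ (N + K) = (1 / 4 : ℝ) • (U ^ N * μ) + (1 / 4 : ℝ) • (U ^ N * (U * μ)) +
        (1 / 2 : ℝ) • (U ^ N * R) := by
      rw [pow_add, e]
      simp only [add_mul, smul_mul_assoc, mul_smul_comm, mul_add, one_mul, smul_add, smul_smul,
        mul_assoc]
      norm_num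
    nth_rw 2 [eR]
    rw [eL, sh]
    have c : ∀ W : Alg, U ^ N * (U * W) = U * (U ^ N * W) := fun W => by
      rw [← mul_assoc, cN, mul_assoc]
    simp only [add_mul, mul_add, smul_mul_assoc, mul_smul_comm, smul_add, smul_smul, mul_assoc, c]
    module
  have s : ∀ {α β : Alg}, IsProb α → IsProb β →
      Rel (α * (U ^ N * F * U ^ N) * β) (α * (U ^ N * G * U ^ N) * β) v₂ :=
    fun ha hb => hR.sandwich ha hb h₂
  have mx : ∀ {F G F' G' : Alg} {r : ℝ}, 0 ≤ r → r ≤ 1 → Rel F G v₂ → Rel F' G' v₂ →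
      Rel (r • F + (1 - r) • F') (r • G + (1 - r) • G') v₂ :=
    fun r0 r1 a b => hR.mono (hR.mix r0 r1 a b) (by ring_nf; rfl)
  rw [expand F, expand G]
  refine hR.mono (hR.mix (s := 1 / 8) (by norm_num) (by norm_num) (hR.sandwich hμ hμ h₁)
    (v' := v₂) ?_) (by ring_nf; rfl)
  exact mx (by norm_num) (by norm_num) (s hμ hμ) (mx (by norm_num) (by norm_num)
    (s (hμ.mul hU) (hU.mul hμ)) (mx (by norm_num) (by norm_num) (s hμ hRp)
    (mx (by norm_num) (by norm_num) (s (hμ.mul hU) hRp) (mx (by norm_num) (by norm_num)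
    (s hRp' hμ) (mx (by norm_num) (by norm_num) (s hRp' (hU.mul hμ)) (s hRp' hRp))))))

/-- Padding by `48 h (B+1)` cells on both sides turns a bound after `h` shifts into a bound. -/
theorem pad {Rel : Alg → Alg → ℝ → Prop} (hR : Closed Rel) {U : Alg} (hU : IsProb U) (B : ℕ)
    (hB : nrm (U ^ (B + 1) - U ^ B) ≤ 1) (h : ℕ) {F G : Alg} {v c : ℝ} (hv : 0 ≤ v) (hc : 0 ≤ c)
    (hsh : Rel ((sh U)^[h] F) ((sh U)^[h] G) v) (hcr : Rel F G c) :
    Rel (U ^ (48 * h * (B + 1)) * F * U ^ (48 * h * (B + 1)))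
      (U ^ (48 * h * (B + 1)) * G * U ^ (48 * h * (B + 1))) (v + (2 ^ (2 * h))⁻¹ * c) := by
  obtain ⟨μ, R, R', hμ, hRp, hRp', e, e'⟩ := pow_split hU B hB
  set K := B + 1
  have key : ∀ M d : ℕ, d ≤ h →
      Rel (U ^ (M * K) * (sh U)^[h - d] F * U ^ (M * K))
        (U ^ (M * K) * (sh U)^[h - d] G * U ^ (M * K)) (v + c * tau M d) := by
    intro M
    induction M with
    | zero =>
      intro d hd
      rcases d with _ | d
      · simpa [tau] using hsh
      · have : ∀ j, Rel ((sh U)^[j] F) ((sh U)^[j] G) c := by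
          intro j
          induction j with
          | zero => exact hcr
          | succ j ih =>
            rw [Function.iterate_succ_apply', Function.iterate_succ_apply']
            exact hR.sh hU ih
        simp only [tau, mul_one, Nat.zero_mul, pow_zero, one_mul]
        exact hR.mono (this _) (by linarith)
    | succ M ih =>
      intro d hd
      rcases d with _ | d
      · rw [tau, mul_zero, add_zero]
        have h0 := ih 0 hd
        rw [tau, mul_zero, add_zero] at h0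
        have eN : (M + 1) * K = K + M * K := by ring
        have ec : U ^ K * U ^ (M * K) = U ^ (M * K) * U ^ K := (Commute.pow_pow_self U _ _).eq
        rw [eN, pow_add]
        nth_rw 2 [ec]
        nth_rw 3 [ec]
        have := hR.sandwich (hU.pow K) (hU.pow K) h0
        simpa only [mul_assoc] using this
      · have h1 := ih d (by omega)
        have h2 := ih (d + 1) hd
        rw [show h - d = h - (d + 1) + 1 by omega, Function.iterate_succ_apply',
          Function.iterate_succ_apply'] at h1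
        rw [Nat.succ_mul, tau]
        exact hR.mono (pad_round hR hU hμ hRp hRp' e e' _ h1 h2) (le_of_eq (by ring))
  have := key (48 * h) h le_rfl
  rw [Nat.sub_self, Function.iterate_zero_apply, Function.iterate_zero_apply] at this
  refine hR.mono this ?_
  rw [mul_comm c]
  refine add_le_add le_rfl (mul_le_mul_of_nonneg_right ((tau_le _ _).trans ?_) hc)
  rw [pow_mul, ← mul_pow, pow_mul, ← inv_pow]
  exact pow_le_pow_left₀ (by norm_num) (by norm_num) h

/-- `Exc` at a fixed ratio is closed. -/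
lemma closed_exc {η : ℝ} : Closed (fun F G e => Exc F G η e) where
  mono := by
    intro F G v v' h hv
    obtain ⟨r, h1, h2, h3⟩ := h
    exact ⟨r, h1, h2.trans hv, h3⟩
  sandwich := fun ha hb h => Exc.sandwich ha hb h
  mix := fun h0 h1 h h' => Exc.mix h0 h1 h h'

end Vale.Agent.P321
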