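import Vale.Agent.P321.Super.Expand
import Vale.Agent.P321.Super.Pad
import Vale.Agent.P321.Super.Binom

/-!
P321, superpolynomial bound: what padding does to the linear part (it cancels the Thue–Morse
commutators) and to a family of masks (Bessel dilutes it by the largest binomial weight).
-/

open Finset

namespace Vale.Agent.P321

/-- `Dev` with the squared value, as a closed relation. -/
def RelDev (F G : Alg) (v : ℝ) : Prop := Pos G ∧ 0 ≤ v ∧ Dev F G (Real.sqrt v)

lemma closed_relDev : Closed RelDev where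
  mono := fun h hv => ⟨h.1, h.2.1.trans hv, h.2.2.mono (Real.sqrt_le_sqrt hv)⟩
  sandwich := by
    intro F G α β v hα hβ h
    refine ⟨(hα.pos.mul h.1).mul hβ.pos, h.2.1, ?_⟩
    simpa using ((Dev.self hα).mul hα.pos h.1 h.2.2).mul (hα.pos.mul h.1) hβ.pos (Dev.self hβ)
  mix := by
    intro F G F' G' v v' s h0 h1 h h'
    have hs : 0 ≤ 1 - s := by linarith
    refine ⟨(h.1.smul h0).add (h'.1.smul hs), ?_, ?_⟩
    · exact add_nonneg (mul_nonneg h0 h.2.1) (mul_nonneg hs h'.2.1)
    · have := h.2.2.mix h.1 h'.1 h0 h1 h'.2.2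
      rwa [Real.sq_sqrt h.2.1, Real.sq_sqrt h'.2.1] at this

lemma sh_pow (P : Alg) (n : ℕ) : ∀ h : ℕ, (sh P)^[h] (P ^ n) = P ^ (h + n)
  | 0 => by simp
  | h + 1 => by
      rw [Function.iterate_succ_apply', sh_pow P n h, sh, show h + 1 + n = h + n + 1 by omega]
      rw [← pow_succ', ← pow_succ, ← two_smul ℝ, smul_smul]
      norm_num

lemma pos_sh {P : Alg} (hP : IsProb P) {F : Alg} (hF : Pos F) : ∀ h : ℕ, Pos ((sh P)^[h] F)
  | 0 => hF
  | h + 1 => by
      rw [Function.iterate_succ_apply']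
      exact ((hP.pos.mul (pos_sh hP hF h)).add ((pos_sh hP hF h).mul hP.pos)).smul (by norm_num)

/-- Padding in `Dev` form. -/
theorem pad_dev {U : Alg} (hU : IsProb U) {B : ℕ} (hB : nrm (U ^ (B + 1) - U ^ B) ≤ 1) (h : ℕ)
    {F : Alg} {N : ℕ} {a c : ℝ} (h1 : Dev ((sh U)^[h] F) (U ^ (h + N)) a)
    (h2 : Dev F (U ^ N) c) :
    Dev (U ^ (48 * h * (B + 1)) * F * U ^ (48 * h * (B + 1)))
      (U ^ (48 * h * (B + 1) + N + 48 * h * (B + 1))) (a + (2 ^ h)⁻¹ * c) := by
  have r1 : RelDev ((sh U)^[h] F) ((sh U)^[h] (U ^ N)) (a ^ 2) :=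
    ⟨pos_sh hU (hU.pow N).pos h, sq_nonneg a, by rwa [Real.sqrt_sq h1.nonneg, sh_pow]⟩
  have r2 : RelDev F (U ^ N) (c ^ 2) :=
    ⟨(hU.pow N).pos, sq_nonneg c, by rwa [Real.sqrt_sq h2.nonneg]⟩
  obtain ⟨-, -, hd⟩ := pad closed_relDev hU B hB h (sq_nonneg a) (sq_nonneg c) r1 r2
  rw [pow_add, pow_add]
  refine hd.mono ?_
  have ht : (0 : ℝ) ≤ (2 ^ h)⁻¹ := by positivity
  rw [Real.sqrt_le_left (add_nonneg h1.nonneg (mul_nonneg ht h2.nonneg)),
    show ((2 : ℝ) ^ (2 * h))⁻¹ = ((2 ^ h)⁻¹) ^ 2 by rw [mul_comm, pow_mul, inv_pow]]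
  nlinarith [mul_nonneg (mul_nonneg h1.nonneg ht) h2.nonneg]

/-! ### The linear part -/

lemma sh_sandwich (P F : Alg) (i k : ℕ) :
    sh P (P ^ i * F * P ^ k) = P ^ i * sh P F * P ^ k := by
  have c1 : P * P ^ i = P ^ i * P := ((Commute.refl P).pow_right i).eq
  have c2 : P ^ k * P = P * P ^ k := ((Commute.refl P).pow_left k).eq
  simp only [sh, mul_smul_comm, smul_mul_assoc, mul_add, add_mul, mul_assoc, c2]
  rw [← mul_assoc P (P ^ i), c1, mul_assoc]

lemma sh_iter_sandwich (P F : Alg) (i k : ℕ) :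
    ∀ h : ℕ, (sh P)^[h] (P ^ i * F * P ^ k) = P ^ i * (sh P)^[h] F * P ^ k
  | 0 => rfl
  | h + 1 => by
      rw [Function.iterate_succ_apply', Function.iterate_succ_apply', sh_iter_sandwich P F i k h,
        sh_sandwich]

lemma sh_iter_sub (P F G : Alg) :
    ∀ h : ℕ, (sh P)^[h] (F - G) = (sh P)^[h] F - (sh P)^[h] G
  | 0 => rfl
  | h + 1 => by
      simp only [Function.iterate_succ_apply', sh_iter_sub P F G h, sh, ← smul_sub, mul_sub,
        sub_mul]
      congr 1
      abel

lemma sh_iter_add (P F G : Alg) :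
    ∀ h : ℕ, (sh P)^[h] (F + G) = (sh P)^[h] F + (sh P)^[h] G
  | 0 => rfl
  | h + 1 => by
      simp only [Function.iterate_succ_apply', sh_iter_add P F G h, sh, ← smul_add, mul_add,
        add_mul]
      congr 1
      abel

lemma dev_sh {P F : Alg} {n : ℕ} {a : ℝ} (hP : IsProb P) (hF : Dev F (P ^ n) a) :
    ∀ h : ℕ, Dev ((sh P)^[h] F) (P ^ (h + n)) a
  | 0 => by simpa using hF
  | h + 1 => by
      have ih := dev_sh hP hF h
      have h1 := (Dev.self hP).mul hP.pos (hP.pow _).pos ih
      have h2 := ih.mul (hP.pow _).pos hP.pos (Dev.self hP)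
      rw [← pow_succ'] at h1
      rw [← pow_succ] at h2
      rw [Function.iterate_succ_apply', sh, show h + 1 + n = h + n + 1 by omega]
      refine ((h1.add h2).smul (1 / 2)).mono (le_of_eq ?_)
      norm_num
      ring

lemma shift_sum {M : Type*} [AddCommGroup M] [Module ℝ M] (b : ℕ → ℝ) (u : ℕ → M) (n : ℕ)
    (hb : b (n + 1) = 0) :
    ∑ t ∈ range (n + 1), b t • (u t - u (t + 1)) =
      ∑ s ∈ range (n + 2), (b s - if s = 0 then 0 else b (s - 1)) • u s := by
  simp only [smul_sub, sub_smul, Finset.sum_sub_distrib]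
  congr 1
  · rw [Finset.sum_range_succ _ (n + 1), hb, zero_smul, add_zero]
  · rw [Finset.sum_range_succ' _ (n + 1)]
    simp

/-- Variation of the binomial weights. -/
lemma sum_abs_choose_diff (h : ℕ) :
    ∑ s ∈ range (h + 2),
      |(h.choose s : ℝ) / 2 ^ h - (if s = 0 then 0 else (h.choose (s - 1) : ℝ) / 2 ^ h)| ≤
      2 / Real.sqrt (h + 1) := by
  classical
  set Z : Alg := MonoidAlgebra.single (FreeMonoid.of false) 1 with hZ
  set d : ℕ → ℝ := fun s =>
    (h.choose s : ℝ) / 2 ^ h - (if s = 0 then 0 else (h.choose (s - 1) : ℝ) / 2 ^ h)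
  refine le_of_eq_of_le ?_ (half_pow_mul_le (isProb_single (FreeMonoid.of false)) h)
  have e : ((1 / 2 : ℝ) • (1 + Z)) ^ h * (1 - Z) = ∑ s ∈ range (h + 2), d s • Z ^ s := by
    rw [← shift_sum (fun t => (h.choose t : ℝ) / 2 ^ h) (fun s => Z ^ s) h (by simp),
      smul_pow, smul_mul_assoc, add_comm (1 : Alg), (Commute.one_right Z).add_pow,
      Finset.sum_mul, Finset.smul_sum]
    refine Finset.sum_congr rfl fun t _ => ?_
    rw [one_pow, mul_one, (Nat.cast_commute (h.choose t) (Z ^ t)).symm.eq, mul_assoc, mul_sub,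
      mul_one, ← pow_succ, ← nsmul_eq_mul, ← Nat.cast_smul_eq_nsmul ℝ, smul_smul, div_pow, one_pow,
      one_div_mul_eq_div]
  rw [e]
  have hpow : ∀ s, Z ^ s = MonoidAlgebra.single (FreeMonoid.of false ^ s) (1 : ℝ) := fun s => by
    rw [hZ, MonoidAlgebra.single_pow, one_pow]
  have inj : Function.Injective fun s : ℕ => (FreeMonoid.of false) ^ s := by
    intro a b hab
    have := congrArg FreeMonoid.length hab
    have hl : ∀ s : ℕ, ((FreeMonoid.of false) ^ s).length = s := fun s => by
      induction s with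
      | zero => simp
      | succ s ih => rw [pow_succ, FreeMonoid.length_mul, ih]; rfl
    simpa [hl] using this
  rw [nrm_eq_sum (s := (range (h + 2)).image fun s => (FreeMonoid.of false) ^ s),
    Finset.sum_image (fun a _ b _ h => inj h)]
  · refine Finset.sum_congr rfl fun s hs => ?_
    congr 1
    simp only [MonoidAlgebra.coeff_sum, Finsupp.finsetSum_apply, hpow, MonoidAlgebra.coeff_smul,
      Finsupp.smul_apply, MonoidAlgebra.coeff_single, Finsupp.single_apply, smul_eq_mul]
    rw [Finset.sum_eq_single s]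
    · simp [d]
    · intro t _ hts
      simp [inj.ne hts]
    · exact fun h => absurd hs h
  · intro w hw
    simp only [MonoidAlgebra.coeff_sum, hpow, MonoidAlgebra.coeff_smul] at hw
    obtain ⟨s, hs, hs'⟩ := Finset.mem_biUnion.1 (Finsupp.support_finsetSum hw)
    exact Finset.mem_image.2 ⟨s, hs, (Finset.mem_singleton.1
      (Finsupp.support_single_subset (Finsupp.support_smul hs'))).symm⟩

/-- A commutator with the cell is small after `h` shifts. -/
lemma dev_sh_comm {P G : Alg} {n : ℕ} {a : ℝ} (hP : IsProb P) (hG : Dev G (P ^ n) a) (h : ℕ) :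
    Dev ((sh P)^[h] (G * P - P * G)) (P ^ (h + n + 1)) (a * (2 / Real.sqrt (h + 1))) := by
  set u : ℕ → Alg := fun s => P ^ s * G * P ^ (h + 1 - s)
  have e : (sh P)^[h] (G * P - P * G) = ∑ s ∈ range (h + 2),
      ((h.choose s : ℝ) / 2 ^ h - (if s = 0 then 0 else (h.choose (s - 1) : ℝ) / 2 ^ h)) • u s := by
    rw [← shift_sum (fun t => (h.choose t : ℝ) / 2 ^ h) u h (by simp), sh_iterate]
    refine Finset.sum_congr rfl fun t ht => ?_
    rw [mem_range] at ht
    congr 1
    simp only [u, show h + 1 - t = (h - t) + 1 by omega, show h + 1 - (t + 1) = h - t by omega,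
      pow_succ', mul_sub, sub_mul, mul_assoc]
    rw [← mul_assoc (P ^ t) P, (Commute.pow_self P t).eq, mul_assoc]
  rw [e]
  have hu : ∀ s ∈ range (h + 2), Dev (u s) (P ^ (h + n + 1)) a := fun s hs => by
    rw [mem_range] at hs
    have := ((Dev.self (hP.pow s)).mul (hP.pow s).pos (hP.pow n).pos hG).mul
      ((hP.pow s).pos.mul (hP.pow n).pos) (hP.pow (h + 1 - s)).pos (Dev.self (hP.pow (h + 1 - s)))
    rw [← pow_add, ← pow_add, show s + n + (h + 1 - s) = h + n + 1 by omega, one_mul, mul_one]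
      at this
    exact this
  refine (Dev.sum _ fun s hs => (hu s hs).smul _).mono ?_
  rw [← Finset.sum_mul, mul_comm a]
  exact mul_le_mul_of_nonneg_right (sum_abs_choose_diff h) hG.nonneg

lemma dev_sh_comm_pow {P G : Alg} {n : ℕ} {a : ℝ} (hP : IsProb P) (hG : Dev G (P ^ n) a) (h : ℕ) :
    ∀ K : ℕ, Dev ((sh P)^[h] (G * P ^ K - P ^ K * G)) (P ^ (h + n + K))
      (K * (a * (2 / Real.sqrt (h + 1))))
  | 0 => by
      rw [pow_zero, mul_one, one_mul, sub_self, Nat.cast_zero, zero_mul, add_zero]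
      have h0 := dev_sh hP (Dev.zero (ρ := P ^ n)) h
      simpa using h0
  | K + 1 => by
      have ih := dev_sh_comm_pow hP hG h K
      have h1 := ih.mul (hP.pow _).pos hP.pos (Dev.self hP)
      have h2 := (Dev.self (hP.pow K)).mul (hP.pow K).pos (hP.pow _).pos (dev_sh_comm hP hG h)
      rw [← pow_succ, add_assoc (h + n), mul_one] at h1
      rw [← pow_add, show K + (h + n + 1) = h + n + (K + 1) by omega, one_mul] at h2
      have e : G * P ^ (K + 1) - P ^ (K + 1) * G =
          P ^ 0 * (G * P ^ K - P ^ K * G) * P ^ 1 + P ^ K * (G * P - P * G) * P ^ 0 := by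
        simp only [pow_zero, mul_one, one_mul, pow_succ, mul_sub, sub_mul, mul_assoc]
        abel
      rw [e, sh_iter_add, sh_iter_sandwich, sh_iter_sandwich, pow_zero, one_mul, pow_one, mul_one]
      refine (h1.add h2).mono (le_of_eq ?_)
      push_cast
      ring

/-- The linear part of the two windows after shifting. -/
theorem dev_tmLin {P D : Alg} {ε : ℝ} (hP : IsProb P) (hD : Dev D P ε) (h₁ : ℕ) :
    ∀ j : ℕ, Dev ((sh P)^[j * h₁] (tmLin P D j)) (P ^ (j * h₁ + 2 ^ j))
      (ε * ((2 : ℝ) ^ j * (2 / Real.sqrt (h₁ + 1))) ^ j)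
  | 0 => by simpa using hD
  | j + 1 => by
      have ih := dev_tmLin hP hD h₁ j
      set G := (sh P)^[j * h₁] (tmLin P D j)
      have e : (sh P)^[(j + 1) * h₁] (tmLin P D (j + 1)) =
          (sh P)^[h₁] (G * P ^ 2 ^ j - P ^ 2 ^ j * G) := by
        rw [show (j + 1) * h₁ = h₁ + j * h₁ by ring, Function.iterate_add_apply, tmLin_succ,
          sh_iter_sub]
        have a := sh_iter_sandwich P (tmLin P D j) 0 (2 ^ j) (j * h₁)
        have b := sh_iter_sandwich P (tmLin P D j) (2 ^ j) 0 (j * h₁)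
        rw [pow_zero, one_mul, one_mul] at a
        rw [pow_zero, mul_one, mul_one] at b
        rw [a, b]
      rw [e, show (j + 1) * h₁ + 2 ^ (j + 1) = h₁ + (j * h₁ + 2 ^ j) + 2 ^ j by ring]
      refine (dev_sh_comm_pow hP ih h₁ (2 ^ j)).mono ?_
      set δ : ℝ := 2 / Real.sqrt (h₁ + 1)
      have hδ : 0 ≤ δ := by positivity
      have h0 : ((2 : ℝ) ^ j * δ) ^ j ≤ ((2 : ℝ) ^ (j + 1) * δ) ^ j := by
        gcongr <;> [norm_num; omega]
      have h1 : (2 : ℝ) ^ j * δ ≤ (2 : ℝ) ^ (j + 1) * δ := by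
        gcongr <;> [norm_num; omega]
      push_cast
      calc (2 : ℝ) ^ j * (ε * ((2 : ℝ) ^ j * δ) ^ j * δ)
          = ε * (((2 : ℝ) ^ j * δ) ^ j * ((2 : ℝ) ^ j * δ)) := by ring
        _ ≤ ε * (((2 : ℝ) ^ (j + 1) * δ) ^ j * ((2 : ℝ) ^ (j + 1) * δ)) :=
            mul_le_mul_of_nonneg_left (mul_le_mul h0 h1 (by positivity) (by positivity)) hD.nonneg
        _ = _ := by rw [← pow_succ]

/-! ### Dilution of a family of masks -/

/-- Shifting a family of masks dilutes it by the largest weight. -/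
theorem dev_sh_comb {P D F : Alg} {N r J : ℕ} {ε : ℝ} (hP : IsProb P) (hD : Dev D P ε)
    (hD0 : mass D = 0) (hr : 1 ≤ r) (hF : Comb P D N r J F) (h : ℕ) :
    Dev ((sh P)^[h] F) (P ^ (h + N)) (J * ε ^ r * Real.sqrt (1 / Real.sqrt (h + 1))) := by
  classical
  obtain ⟨l, hl, hprop, rfl⟩ := hF
  set s : Finset (ℕ × Fin l.length) := range (h + 1) ×ˢ Finset.univ
  set S : ℕ × Fin l.length → List Bool := fun q =>
    List.replicate q.1 false ++ (l.get q.2).2 ++ List.replicate (h - q.1) false
  set c : ℕ × Fin l.length → ℝ := fun q => bw h q.1 * (l.get q.2).1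
  have hk : ∀ k : Fin l.length,
      |(l.get k).1| ≤ 1 ∧ (l.get k).2.length = N ∧ (l.get k).2.count true = r :=
    fun k => hprop _ (List.get_mem l k)
  have hlen : ∀ q ∈ s, (S q).length = h + N := fun q hq => by
    simp only [s, Finset.mem_product, mem_range] at hq
    simp only [S, List.length_append, List.length_replicate, (hk q.2).2.1]
    omega
  have hcnt : ∀ q, (S q).count true = r := fun q => by
    simpa [S, List.count_replicate] using (hk q.2).2.2
  obtain ⟨-, hd⟩ := dev_gram hP hD hD0 (h + N) s c S hlen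
  have e : (sh P)^[h] (l.map fun e => e.1 • wd P D e.2).sum = ∑ q ∈ s, c q • wd P D (S q) := by
    rw [show (l.map fun e => e.1 • wd P D e.2).sum =
      ∑ k : Fin l.length, (l.get k).1 • wd P D (l.get k).2 by
      rw [← List.sum_ofFn]; congr 1; exact List.ext_getElem (by simp) (by simp), sh_iterate,
      Finset.sum_product]
    refine Finset.sum_congr rfl fun t _ => ?_
    rw [Finset.mul_sum, Finset.sum_mul, Finset.smul_sum]
    refine Finset.sum_congr rfl fun k _ => ?_
    simp [c, S, bw_natCast, wd_append, smul_smul, mul_assoc]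
  rw [e]
  refine hd.mono ?_
  have hε := hD.nonneg
  rw [← Real.sqrt_sq (by positivity : (0 : ℝ) ≤ J * ε ^ r),
    ← Real.sqrt_mul (sq_nonneg _)]
  refine Real.sqrt_le_sqrt ?_
  set M := 1 / Real.sqrt ((h : ℝ) + 1)
  have hM : 0 ≤ M := by positivity
  have hfirst : ∀ (k : Fin l.length) (t : ℕ),
      (S (t, k)).idxOf true = t + (l.get k).2.idxOf true := by
    intro k t
    have hm : true ∈ (l.get k).2 := List.count_pos_iff.1 (by rw [(hk k).2.2]; omega)
    simp only [S, List.append_assoc]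
    rw [List.idxOf_append_of_notMem (by simp), List.length_replicate,
      List.idxOf_append_of_mem hm]
  calc gram ε s c S ≤ ∑ q ∈ s, ∑ q' ∈ s,
        if S q = S q' then bw h q.1 * bw h q'.1 * ε ^ (2 * r) else 0 := by
        refine Finset.sum_le_sum fun q _ => Finset.sum_le_sum fun q' _ => ?_
        split_ifs
        · rw [hcnt]
          refine mul_le_mul_of_nonneg_right ?_ (pow_nonneg hε _)
          refine (le_abs_self _).trans ?_
          simp only [c, abs_mul, abs_of_nonneg (bw_nonneg _ _)]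
          exact mul_le_mul (mul_le_of_le_one_right (bw_nonneg _ _) (hk _).1)
            (mul_le_of_le_one_right (bw_nonneg _ _) (hk _).1)
            (mul_nonneg (bw_nonneg _ _) (abs_nonneg _)) (bw_nonneg _ _)
        · exact le_rfl
    _ ≤ ∑ q ∈ s, bw h q.1 * (J * (M * ε ^ (2 * r))) := by
        refine Finset.sum_le_sum fun q _ => ?_
        rw [Finset.sum_product_right]
        refine le_trans (Finset.sum_le_card_nsmul _ _ (bw h q.1 * (M * ε ^ (2 * r))) fun k _ => ?_)
          ?_
        · rw [← Finset.sum_filter]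
          refine (Finset.sum_le_card_nsmul _ _ (bw h q.1 * (M * ε ^ (2 * r))) fun t _ => ?_).trans ?_
          · rw [mul_assoc]
            exact mul_le_mul_of_nonneg_left
              (mul_le_mul_of_nonneg_right (bw_le_max h _) (pow_nonneg hε _)) (bw_nonneg _ _)
          · rw [nsmul_eq_mul]
            refine mul_le_of_le_one_left (mul_nonneg (bw_nonneg _ _) (by positivity)) ?_
            exact_mod_cast Finset.card_le_one.2 fun a ha b hb => by
              simp only [mem_filter] at ha hb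
              have := congrArg (fun x => List.idxOf true x) (ha.2.symm.trans hb.2)
              simp only [hfirst] at this
              omega
        · rw [nsmul_eq_mul, Finset.card_univ, Fintype.card_fin, mul_left_comm]
          exact mul_le_mul_of_nonneg_left
            (mul_le_mul_of_nonneg_right (by exact_mod_cast hl) (by positivity)) (bw_nonneg _ _)
    _ = (l.length : ℝ) * (J * (M * ε ^ (2 * r))) := by
        rw [Finset.sum_product_right]
        simp only [← Finset.sum_mul, sum_bw, one_mul, Finset.sum_const, Finset.card_univ,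
          Fintype.card_fin, nsmul_eq_mul]
        ring
    _ ≤ (J : ℝ) * (J * (M * ε ^ (2 * r))) :=
        mul_le_mul_of_nonneg_right (by exact_mod_cast hl) (by positivity)
    _ = _ := by ring

end Vale.Agent.P321
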