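import Vale.Agent.P321.Super.Basic

/-!
P321, superpolynomial bound: Thue–Morse windows. For an odd number of levels the complement of a
window is its reversal, so both windows have equally many pairs of ones at every gap.
-/

open Finset

namespace Vale.Agent.P321

/-- Mask with `P` pads on each side. -/
def padMask (P : ℕ) (l : List Bool) : List Bool :=
  List.replicate P false ++ l ++ List.replicate P false

/-- The first window. -/
def winA (m : ℕ) : List Bool := tm [true] [false] m

/-- The second window. -/
def winB (m : ℕ) : List Bool := tm [false] [true] m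

lemma length_padMask (P : ℕ) (l : List Bool) : (padMask P l).length = 2 * P + l.length := by
  simp [padMask]; omega

lemma length_winA (m : ℕ) : (winA m).length = 2 ^ m := by
  rw [winA, length_tm m [true] [false] rfl]; simp

lemma length_winB (m : ℕ) : (winB m).length = 2 ^ m := by
  rw [winB, length_tm m [false] [true] rfl]; simp

lemma winA_ne (m : ℕ) : winA m ≠ winB m := tm_ne m [true] [false] rfl (by simp)

lemma wd_padMask (U V : Alg) (P : ℕ) (l : List Bool) :
    wd U V (padMask P l) = U ^ P * wd U V l * U ^ P := by
  simp [padMask, wd_append, mul_assoc]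

lemma map_not_tm : ∀ (m : ℕ) (x y : List Bool),
    (tm x y m).map not = tm (x.map not) (y.map not) m
  | 0, _, _ => rfl
  | m + 1, x, y => by rw [tm, tm, List.map_append, map_not_tm m x y, map_not_tm m y x]

/-- The second window is the complement of the first. -/
lemma winB_eq_map_not (m : ℕ) : winB m = (winA m).map not := by
  rw [winA, map_not_tm]; rfl

lemma reverse_tm : ∀ (m : ℕ) (a b : Bool),
    (tm [a] [b] m).reverse = if Even m then tm [a] [b] m else tm [b] [a] m
  | 0, _, _ => by simp [tm]
  | m + 1, a, b => by
    rw [tm, List.reverse_append, reverse_tm m a b, reverse_tm m b a]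
    by_cases h : Even m <;> simp [h, Nat.even_add_one, tm]

/-- For odd `m` the second window is the reversal of the first. -/
lemma winB_eq_reverse {m : ℕ} (hm : Odd m) : winB m = (winA m).reverse := by
  rw [winA, reverse_tm, if_neg (Nat.not_even_iff_odd.2 hm)]; rfl

/-- The bit at position `k`, `false` outside the word. -/
def bit (l : List Bool) (k : ℕ) : Bool := l.getD k false

lemma bit_of_le {l : List Bool} {k : ℕ} (h : l.length ≤ k) : bit l k = false :=
  List.getD_eq_default _ _ h

lemma bit_reverse {l : List Bool} {k : ℕ} (h : k < l.length) :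
    bit l.reverse k = bit l (l.length - 1 - k) := by
  rw [bit, bit, List.getD_eq_getElem?_getD, List.getD_eq_getElem?_getD,
    List.getElem?_reverse h]

/-- The positions of the ones. -/
def ones (l : List Bool) : Finset ℕ := (range l.length).filter fun k => bit l k = true

lemma mem_ones {l : List Bool} {k : ℕ} : k ∈ ones l ↔ bit l k = true := by
  simp only [ones, mem_filter, mem_range, and_iff_right_iff_imp]
  intro h
  by_contra hk
  simp [bit_of_le (not_lt.1 hk)] at h

lemma lt_of_mem_ones {l : List Bool} {k : ℕ} (h : k ∈ ones l) : k < l.length :=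
  mem_range.1 (mem_filter.1 h).1

/-- The starts of the pairs of ones at gap `g`. -/
def pairs11 (l : List Bool) (g : ℕ) : Finset ℕ := (ones l).filter fun k => bit l (k + g) = true

/-- The starts of the pairs one, zero at gap `g`. -/
def pairs10 (l : List Bool) (g : ℕ) : Finset ℕ :=
  (ones l).filter fun k => ¬bit l (k + g) = true

/-- The ends of the pairs zero, one at gap `g`. -/
def pairs01 (l : List Bool) (g : ℕ) : Finset ℕ :=
  (ones l).filter fun k => ¬(g ≤ k ∧ bit l (k - g) = true)

lemma card_ones_reverse (l : List Bool) : (ones l.reverse).card = (ones l).card := by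
  refine Finset.card_bij' (fun k _ => l.length - 1 - k) (fun k _ => l.length - 1 - k) ?_ ?_ ?_ ?_
  · intro k hk
    have hlt : k < l.length := by simpa using lt_of_mem_ones hk
    rw [mem_ones] at hk ⊢
    rwa [bit_reverse hlt] at hk
  · intro k hk
    have hlt := lt_of_mem_ones hk
    rw [mem_ones] at hk ⊢
    rw [bit_reverse (by omega), show l.length - 1 - (l.length - 1 - k) = k by omega]
    exact hk
  · intro k hk
    have hlt : k < l.length := by simpa using lt_of_mem_ones hk
    omega
  · intro k hk
    have hlt := lt_of_mem_ones hk
    omega

lemma card_pairs11_reverse (l : List Bool) (g : ℕ) :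
    (pairs11 l.reverse g).card = (pairs11 l g).card := by
  have key : ∀ (l : List Bool) k, k ∈ pairs11 l g → k + g < l.length := by
    intro l k hk
    exact lt_of_mem_ones (mem_ones.2 (mem_filter.1 hk).2)
  refine Finset.card_bij' (fun k _ => l.length - 1 - g - k) (fun k _ => l.length - 1 - g - k)
    ?_ ?_ ?_ ?_
  · intro k hk
    have hlt : k + g < l.length := by simpa using key _ _ hk
    simp only [pairs11, mem_filter, mem_ones] at hk ⊢
    rw [bit_reverse (by omega), bit_reverse hlt] at hk
    rw [show l.length - 1 - g - k + g = l.length - 1 - k by omega,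
      show l.length - 1 - g - k = l.length - 1 - (k + g) by omega]
    exact ⟨hk.2, hk.1⟩
  · intro k hk
    have hlt := key _ _ hk
    simp only [pairs11, mem_filter, mem_ones] at hk ⊢
    rw [bit_reverse (by omega), bit_reverse (by omega),
      show l.length - 1 - (l.length - 1 - g - k) = k + g by omega,
      show l.length - 1 - (l.length - 1 - g - k + g) = k by omega]
    exact ⟨hk.2, hk.1⟩
  · intro k hk
    have hlt : k + g < l.length := by simpa using key _ _ hk
    omega
  · intro k hk
    have hlt := key _ _ hk
    omega

lemma card_pairs10 (l : List Bool) (g : ℕ) :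
    (pairs10 l g).card + (pairs11 l g).card = (ones l).card := by
  rw [add_comm]; exact Finset.card_filter_add_card_filter_not _

lemma card_pairs01 (l : List Bool) (g : ℕ) :
    (pairs01 l g).card + (pairs11 l g).card = (ones l).card := by
  have h : ((ones l).filter fun k => g ≤ k ∧ bit l (k - g) = true).card = (pairs11 l g).card := by
    refine Finset.card_bij' (fun k _ => k - g) (fun k _ => k + g) ?_ ?_ ?_ ?_
    · intro k hk
      simp only [mem_filter, mem_ones, pairs11] at hk ⊢
      exact ⟨hk.2.2, by rw [Nat.sub_add_cancel hk.2.1]; exact hk.1⟩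
    · intro k hk
      simp only [mem_filter, mem_ones, pairs11] at hk ⊢
      exact ⟨hk.2, by omega, by rw [Nat.add_sub_cancel]; exact hk.1⟩
    · intro k hk
      simp only [mem_filter] at hk
      omega
    · intro k _
      omega
  rw [← h, add_comm]
  exact Finset.card_filter_add_card_filter_not _

lemma card_ones_winB {m : ℕ} (hm : Odd m) : (ones (winB m)).card = (ones (winA m)).card := by
  rw [winB_eq_reverse hm, card_ones_reverse]

lemma card_pairs11_winB {m : ℕ} (hm : Odd m) (g : ℕ) :
    (pairs11 (winB m) g).card = (pairs11 (winA m) g).card := by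
  rw [winB_eq_reverse hm, card_pairs11_reverse]

lemma card_pairs10_winB {m : ℕ} (hm : Odd m) (g : ℕ) :
    (pairs10 (winB m) g).card = (pairs10 (winA m) g).card := by
  have h1 := card_pairs10 (winA m) g
  have h2 := card_pairs10 (winB m) g
  rw [card_ones_winB hm, card_pairs11_winB hm] at h2
  omega

lemma card_pairs01_winB {m : ℕ} (hm : Odd m) (g : ℕ) :
    (pairs01 (winB m) g).card = (pairs01 (winA m) g).card := by
  have h1 := card_pairs01 (winA m) g
  have h2 := card_pairs01 (winB m) g
  rw [card_ones_winB hm, card_pairs11_winB hm] at h2
  omega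

end Vale.Agent.P321
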