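import Vale.Agent.P321.Super.RatioMix

/-!
P321, superpolynomial bound: the exceptional part improves at both levels. If `|U - V| ≤ η (U+V)`
up to mass `e`, the padded windows of odd order satisfy the same with `η ↦ O(η + 2^(-H))`,
`e ↦ O(L e/η)^3` (level A) and with `η ↦ O(η^2 + 2^(-H))`, `e ↦ O(L e/η)^2` (level B).
-/

open Finset

namespace Vale.Agent.P321

namespace Ratio

/-- A good and an exceptional part from `Exc`. -/
lemma exists_split {U V : Alg} (hU : IsProb U) (hV : IsProb V) {η e : ℝ} (hη : 0 < η)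
    (hη6 : η ≤ 1 / 6) (he : Exc U V η e) :
    ∃ P Vo Ub Vb : Alg, U = P + Ub ∧ V = Vo + Vb ∧ Split P Vo Ub Vb (6 * η) (e / η) := by
  classical
  obtain ⟨r, r0, rm, hr⟩ := he
  set good : FreeMonoid Bool → Prop :=
    fun w => |U.coeff w - V.coeff w| ≤ 2 * η * (U.coeff w + V.coeff w) with hgood
  have bad : ∀ w, ¬good w → U.coeff w + V.coeff w ≤ η⁻¹ * r.coeff w := by
    intro w hw
    have h := hr w
    simp only [MonoidAlgebra.coeff_sub, Finsupp.sub_apply, MonoidAlgebra.coeff_add,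
      Finsupp.add_apply, MonoidAlgebra.coeff_smul, Finsupp.smul_apply, smul_eq_mul] at h
    rw [hgood, not_le] at hw
    rw [le_inv_mul_iff₀ hη]
    nlinarith
  have small : ∀ Z : Alg, Pos Z → (∀ w, ¬good w → Z.coeff w ≤ U.coeff w + V.coeff w) →
      mass (restrict Z fun w => ¬good w) ≤ e / η := by
    intro Z _ hle
    have hp : Pos (η⁻¹ • r - restrict Z fun w => ¬good w) := fun w => by
      simp only [MonoidAlgebra.coeff_sub, Finsupp.sub_apply, MonoidAlgebra.coeff_smul,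
        Finsupp.smul_apply, smul_eq_mul, coeff_restrict, sub_nonneg]
      split_ifs with hw
      · exact mul_nonneg (inv_nonneg.2 hη.le) (r0 w)
      · exact (hle w hw).trans (bad w hw)
    refine hp.mass_mono.trans ?_
    rw [map_smul, smul_eq_mul, div_eq_inv_mul]
    exact mul_le_mul_of_nonneg_left rm (inv_nonneg.2 hη.le)
  have hsplit : ∀ Z : Alg, IsProb Z → mass (restrict Z good) ≤ 1 := by
    intro Z hZ
    have h := congrArg mass (restrict_add_compl Z good)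
    rw [map_add, hZ.mass_one] at h
    linarith [(hZ.pos.restrict fun w => ¬good w).mass_nonneg]
  refine ⟨restrict U good, restrict V good, restrict U (fun w => ¬good w),
    restrict V (fun w => ¬good w), (restrict_add_compl U good).symm,
    (restrict_add_compl V good).symm, ?_⟩
  refine ⟨hU.pos.restrict _, hV.pos.restrict _, hU.pos.restrict _, hV.pos.restrict _,
    hsplit U hU, hsplit V hV, by rw [restrict_add_compl, hU.mass_one],
    by rw [restrict_add_compl, hV.mass_one], small U hU.pos fun w _ => le_add_of_nonneg_right (hV.pos w),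
    small V hV.pos fun w _ => le_add_of_nonneg_left (hU.pos w), by positivity, fun w => ?_⟩
  simp only [MonoidAlgebra.coeff_sub, Finsupp.sub_apply, MonoidAlgebra.coeff_smul,
    Finsupp.smul_apply, smul_eq_mul, coeff_restrict]
  split_ifs with hw
  · have hu := hU.pos w
    have hv := hV.pos w
    obtain ⟨h1, h2⟩ := abs_le.1 hw
    rw [abs_le]
    constructor <;> nlinarith
  · simp

lemma T1_le_of {δ : ℝ} (hδ : 0 ≤ δ) {k N : ℕ} (hk : k ≤ N) (hN : (N : ℝ) * δ ≤ 1 / 2) :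
    T1 δ k ≤ 2 * N * δ := by
  have hkN : (k : ℝ) * δ ≤ N * δ := mul_le_mul_of_nonneg_right (by exact_mod_cast hk) hδ
  have := one_add_pow_le hδ k (hkN.trans hN)
  unfold T1
  linarith

lemma T2_le_sq {δ : ℝ} (hδ : 0 ≤ δ) : ∀ k : ℕ, (k : ℝ) * δ ≤ 1 → T2 δ k ≤ ((k : ℝ) * δ) ^ 2
  | 0, _ => by simp [T2]
  | k + 1, h => by
    have e := T2_step δ true k
    simp only [bn, if_true, Nat.cast_one, one_mul] at e
    push_cast at h ⊢
    rw [add_comm k 1, e]
    have ih := T2_le_sq hδ k (by nlinarith)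
    have hk : (0 : ℝ) ≤ k := Nat.cast_nonneg k
    have h3 : (1 + δ) * T2 δ k ≤ (1 + δ) * ((k : ℝ) * δ) ^ 2 :=
      mul_le_mul_of_nonneg_left ih (by linarith)
    nlinarith [mul_le_mul_of_nonneg_left (show (k : ℝ) * δ ≤ 1 by nlinarith)
      (mul_nonneg hk (mul_nonneg hδ hδ))]

lemma T2_le_of {δ : ℝ} (hδ : 0 ≤ δ) {k N : ℕ} (hk : k ≤ N) (hN : (N : ℝ) * δ ≤ 1) :
    T2 δ k ≤ ((N : ℝ) * δ) ^ 2 := by
  have hkN : (k : ℝ) * δ ≤ N * δ := mul_le_mul_of_nonneg_right (by exact_mod_cast hk) hδ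
  exact (T2_le_sq hδ k (hkN.trans hN)).trans
    (pow_le_pow_left₀ (by positivity) hkN 2)

/-- From the main parts of two mixtures to the mixtures: `F` is `M` up to `t G`, and at least
half of `G`. -/
lemma part {h : ℕ} {a b : List Bool} {F M G : List Bool → Alg} {t c s : ℝ} {R : Alg}
    (hFM : ∀ l, cnt l = cnt a ∨ cnt l = cnt b → Le1 (F l - M l) (t • G l))
    (hFG : ∀ l, cnt l = cnt a ∨ cnt l = cnt b → Le1 (F l - G l) (s • G l)) (hs : s ≤ 1 / 2)
    (hG : ∀ l, Pos (G l)) (ht : 0 ≤ t) (hc : 0 ≤ c)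
    (hM : Le1 (av h a M - av h b M) (c • (av h a G + av h b G) + R)) :
    Le1 (av h a F - av h b F) ((2 * (t + c)) • (av h a F + av h b F) + R) := by
  have half : ∀ a' : List Bool, (a' = a ∨ a' = b) →
      Pos ((2 : ℝ) • av h a' F - av h a' G) ∧
        Le1 (av h a' F - av h a' M) (t • av h a' G) := by
    intro a' ha'
    have hcn : ∀ l, cnt l = cnt a' → cnt l = cnt a ∨ cnt l = cnt b := by
      rcases ha' with rfl | rfl <;> simp +contextual
    refine ⟨?_, ?_⟩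
    · rw [← av_smul, ← av_sub]
      refine Pos.sum _ fun i _ => Pos.smul (bw_nonneg h i) ?_
      have h1 := (hFG _ (hcn _ (cnt_pl h i a'))).pos_add
      have h2 := (hG (pl h a' i)).smul (show 0 ≤ 1 - 2 * s by linarith)
      convert (h1.smul zero_le_two).add h2 using 1
      module
    · rw [← av_sub, ← av_smul]
      exact le1_av fun l _ hl => hFM l (hcn l hl)
  obtain ⟨pa, la⟩ := half a (Or.inl rfl)
  obtain ⟨pb, lb⟩ := half b (Or.inr rfl)
  have key := (la.sub lb).add hM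
  rw [show av h a F - av h a M - (av h b F - av h b M) + (av h a M - av h b M) =
    av h a F - av h b F by abel] at key
  refine key.trans_pos ?_
  convert (pa.add pb).smul (add_nonneg ht hc) using 1
  module

lemma av_pow {h : ℕ} (a : List Bool) (P : Alg) :
    av h a (fun l => P ^ l.length) = P ^ (h + a.length) :=
  (av_congr (G := fun _ => P ^ (h + a.length)) fun l hl _ => by rw [hl]).trans (av_const _ _ _)

variable {P Vo Ub Vb : Alg} {δ β : ℝ} {m H : ℕ}

lemma cnt_win_le {l : List Bool} (h : cnt l = cnt (winA m) ∨ cnt l = cnt (winB m)) :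
    cnt l ≤ 2 ^ m := by
  rcases h with h | h <;> rw [h]
  · exact length_winA m ▸ cnt_le_length (winA m)
  · exact length_winB m ▸ cnt_le_length (winB m)

lemma mass_bc_one (hs : Split P Vo Ub Vb δ β) (b : Bool) : mass (sel Ub Vb b) ≤ 1 := by
  cases b
  · have := hs.massU
    rw [map_add] at this
    simp only [sel, Bool.false_eq_true, if_false]
    linarith [hs.posP.mass_nonneg]
  · have := hs.massV
    rw [map_add] at this
    simp only [sel, if_true]
    linarith [hs.posVo.mass_nonneg]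

/-- Level A after the shifts. -/
theorem smoothA (hs : Split P Vo Ub Vb δ β) (hm : Odd m) (hH : m + 7 ≤ H)
    (hδ : (2 : ℝ) ^ m * δ ≤ 1 / 4) :
    Exc (av (2 ^ (3 * H)) (winA m) (wd (P + Ub) (Vo + Vb)))
      (av (2 ^ (3 * H)) (winB m) (wd (P + Ub) (Vo + Vb))) (2 * (2 * 2 ^ m * δ + var H m))
      (tail H m * (2 * (2 ^ (3 * H) + 2 ^ m : ℕ) + 4 * ((2 ^ (3 * H) + 2 ^ m : ℕ) : ℝ) ^ 2)
        + 2 * (((2 ^ (3 * H) + 2 ^ m : ℕ) : ℝ) * β) ^ 3) := by
  set h := 2 ^ (3 * H)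
  set n := h + 2 ^ m with hn
  set bc := sel Ub Vb
  have hδ0 := hs.delta_nonneg
  have v0 := var_nonneg H m
  have t0 : (0 : ℝ) ≤ 2 * 2 ^ m * δ := by positivity
  have τ0 := tail_nonneg H m
  have hbc : ∀ b, Le1 (bc b) (bc b) := fun b => Le1.of_pos (hs.pos_bc b)
  have hT : ∀ l : List Bool, cnt l = cnt (winA m) ∨ cnt l = cnt (winB m) →
      T1 δ (cnt l) ≤ 2 * 2 ^ m * δ := fun l hl =>
    (T1_le_of hδ0 (cnt_win_le hl) (by push_cast; linarith)).trans (le_of_eq (by push_cast; rfl))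
  have g0 : ∀ l, cnt l = cnt (winA m) ∨ cnt l = cnt (winB m) →
      Le1 (E0 P Vo l - P ^ l.length) ((2 * 2 ^ m * δ) • P ^ l.length) := fun l hl =>
    le1_mono (hs.E0_sub l) (hT l hl) (pos_pow hs.posP _)
  have g1 : ∀ l, cnt l = cnt (winA m) ∨ cnt l = cnt (winB m) →
      Le1 (E1 P Vo Ub Vb l - M1 P bc l) ((2 * 2 ^ m * δ) • M1 P bc l) := fun l hl =>
    le1_mono (hs.E1_sub l) (hT l hl) (pos_M1 hs.posP hs.pos_bc _)
  have g2 : ∀ l, cnt l = cnt (winA m) ∨ cnt l = cnt (winB m) →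
      Le1 (E2 P Vo Ub Vb l - M2 P bc bc l) ((2 * 2 ^ m * δ) • M2 P bc bc l) := fun l hl =>
    le1_mono (hs.E2_sub l) (hT l hl) (pos_M2 hs.posP hs.pos_bc hs.pos_bc _)
  have p0 := part (h := h) (a := winA m) (b := winB m) g0 g0 (by linarith)
    (fun l => pos_pow hs.posP _) t0 v0 (R := 0) (by
      rw [av_pow, av_pow, length_winA, length_winB, sub_self, add_zero]
      exact Le1.zero_left (((pos_pow hs.posP _).add (pos_pow hs.posP _)).smul v0))
  have p1 := part (h := h) g1 g1 (by linarith) (fun l => pos_M1 hs.posP hs.pos_bc l) t0 v0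
    (mix_M1 hm hH hs.posP hbc)
  have p2 := part (h := h) g2 g2 (by linarith) (fun l => pos_M2 hs.posP hs.pos_bc hs.pos_bc l) t0 v0
    (mix_M2 hm hH hs.posP hbc hbc)
  have hR : ∀ a, Pos (av h a (R3 P Vo Ub Vb)) := fun a => pos_av fun l => hs.pos_R3 l
  have key := ((p0.add p1).add p2).add ((Le1.of_pos (hR (winA m))).sub (Le1.of_pos (hR (winB m))))
  obtain ⟨z1p, z1m⟩ := mass_Z1 hs.posP hs.massP hs.pos_bc (mass_bc_one hs) n
  obtain ⟨z2p, z2m⟩ :=
    mass_Z2 hs.posP hs.massP hs.pos_bc (mass_bc_one hs) hs.pos_bc (mass_bc_one hs) n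
  have ewd : ∀ a, av h a (wd (P + Ub) (Vo + Vb)) = av h a (E0 P Vo) + av h a (E1 P Vo Ub Vb) +
      av h a (E2 P Vo Ub Vb) + av h a (R3 P Vo Ub Vb) := fun a => by
    rw [← av_add, ← av_add, ← av_add]
    exact av_congr fun l _ _ => wd_eq_three P Vo Ub Vb l
  refine ⟨tail H m • Z1 P bc n + tail H m • Z2 P bc bc n +
    (av h (winA m) (R3 P Vo Ub Vb) + av h (winB m) (R3 P Vo Ub Vb)),
    ((z1p.smul τ0).add (z2p.smul τ0)).add ((hR _).add (hR _)), ?_, ?_⟩
  · have mR : ∀ a : List Bool, a.length = 2 ^ m →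
        mass (av h a (R3 P Vo Ub Vb)) ≤ ((n : ℝ) * β) ^ 3 := fun a ha =>
      mass_av fun l hl => (hs.mass_R3 l).trans (le_of_eq (by rw [hl, ha, hn]))
    rw [map_add, map_add, map_add, map_smul, map_smul, smul_eq_mul, smul_eq_mul]
    have := mR _ (length_winA m)
    have := mR _ (length_winB m)
    nlinarith [mul_le_mul_of_nonneg_left z1m τ0, mul_le_mul_of_nonneg_left z2m τ0]
  · rw [ewd, ewd]
    convert key.trans_pos (g' := (2 * (2 * 2 ^ m * δ + var H m)) • (av h (winA m) (E0 P Vo) +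
      av h (winA m) (E1 P Vo Ub Vb) + av h (winA m) (E2 P Vo Ub Vb) +
      av h (winA m) (R3 P Vo Ub Vb) + (av h (winB m) (E0 P Vo) + av h (winB m) (E1 P Vo Ub Vb) +
      av h (winB m) (E2 P Vo Ub Vb) + av h (winB m) (R3 P Vo Ub Vb))) +
      (tail H m • Z1 P bc n + tail H m • Z2 P bc bc n +
      (av h (winA m) (R3 P Vo Ub Vb) + av h (winB m) (R3 P Vo Ub Vb)))) ?_ using 1
    · abel
    · convert ((hR (winA m)).add (hR (winB m))).smul
        (show 0 ≤ 2 * (2 * 2 ^ m * δ + var H m) by linarith) using 1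
      module

/-- Level B after the shifts: the first order cancels between equally weighted windows. -/
theorem smoothB (hs : Split P Vo Ub Vb δ β) (hm : Odd m) (hH : m + 7 ≤ H)
    (hδ : (2 : ℝ) ^ m * δ ≤ 1 / 4) :
    Exc (av (2 ^ (3 * H)) (winA m) (wd (P + Ub) (Vo + Vb)))
      (av (2 ^ (3 * H)) (winB m) (wd (P + Ub) (Vo + Vb)))
      (2 * ((2 ^ m * δ) ^ 2 + 2 * var H m))
      (tail H m * (4 * (2 ^ (3 * H) + 2 ^ m : ℕ) + 8 * ((2 ^ (3 * H) + 2 ^ m : ℕ) : ℝ) ^ 2)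
        + 2 * (((2 ^ (3 * H) + 2 ^ m : ℕ) : ℝ) * β) ^ 2) := by
  set h := 2 ^ (3 * H)
  set n := h + 2 ^ m with hn
  set bc := sel Ub Vb
  set db := dcBar P δ
  have hδ0 := hs.delta_nonneg
  have v0 := var_nonneg H m
  have t0 : (0 : ℝ) ≤ (2 ^ m * δ) ^ 2 := sq_nonneg _
  have τ0 := tail_nonneg H m
  have hbc : ∀ b, Le1 (bc b) (bc b) := fun b => Le1.of_pos (hs.pos_bc b)
  have hk : ∀ l : List Bool, cnt l = cnt (winA m) ∨ cnt l = cnt (winB m) →
      T1 δ (cnt l) ≤ 2 * 2 ^ m * δ ∧ T2 δ (cnt l) ≤ (2 ^ m * δ) ^ 2 ∧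
        (cnt l : ℝ) * δ ≤ 1 / 4 := by
    intro l hl
    have h1 := cnt_win_le hl
    have h2 : (cnt l : ℝ) * δ ≤ 2 ^ m * δ :=
      mul_le_mul_of_nonneg_right (by exact_mod_cast h1) hδ0
    exact ⟨(T1_le_of hδ0 h1 (by push_cast; linarith)).trans (le_of_eq (by push_cast; rfl)),
      (T2_le_of hδ0 h1 (by push_cast; linarith)).trans (le_of_eq (by push_cast; rfl)), by linarith⟩
  have g0 : ∀ l, cnt l = cnt (winA m) ∨ cnt l = cnt (winB m) →
      Le1 (E0 P Vo l - (P ^ l.length + M1 P (dc P Vo) l)) ((2 ^ m * δ) ^ 2 • P ^ l.length) :=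
    fun l hl => by
      rw [← sub_sub]
      exact le1_mono (hs.E0_sub2 l) (hk l hl).2.1 (pos_pow hs.posP _)
  have f0 : ∀ l, cnt l = cnt (winA m) ∨ cnt l = cnt (winB m) →
      Le1 (E0 P Vo l - P ^ l.length) ((2 * 2 ^ m * δ) • P ^ l.length) :=
    fun l hl => le1_mono (hs.E0_sub l) (hk l hl).1 (pos_pow hs.posP _)
  have g1 : ∀ l, cnt l = cnt (winA m) ∨ cnt l = cnt (winB m) →
      Le1 (E1 P Vo Ub Vb l - (M1 P bc l + (M2 P bc (dc P Vo) l + M2 P (dc P Vo) bc l)))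
        ((2 ^ m * δ) ^ 2 • M1 P bc l) :=
    fun l hl => by
      rw [← sub_sub]
      exact le1_mono (hs.E1_sub2 l) (hk l hl).2.1 (pos_M1 hs.posP hs.pos_bc _)
  have f1 : ∀ l, cnt l = cnt (winA m) ∨ cnt l = cnt (winB m) →
      Le1 (E1 P Vo Ub Vb l - M1 P bc l) ((2 * 2 ^ m * δ) • M1 P bc l) :=
    fun l hl => le1_mono (hs.E1_sub l) (hk l hl).1 (pos_M1 hs.posP hs.pos_bc _)
  -- the deviation and pair parts are dominated by the undeviated ones
  have dom : ∀ a : List Bool, (a = winA m ∨ a = winB m) →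
      Pos (av h a (fun l => P ^ l.length) - av h a (M1 P db)) ∧
        Pos (av h a (M1 P bc) - (av h a (M2 P bc db) + av h a (M2 P db bc))) := by
    intro a ha
    have hcn : ∀ l, cnt l = cnt a → cnt l = cnt (winA m) ∨ cnt l = cnt (winB m) := by
      rcases ha with rfl | rfl <;> simp +contextual
    have hle : ∀ i, (cnt (pl h a i) : ℝ) * δ ≤ 1 := fun i =>
      ((hk _ (hcn _ (cnt_pl h i a))).2.2).trans (by norm_num)
    refine ⟨?_, ?_⟩
    · rw [← av_sub]
      refine Pos.sum _ fun i _ => Pos.smul (bw_nonneg h i) ?_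
      convert (pos_pow hs.posP (pl h a i).length).smul (sub_nonneg.2 (hle i)) using 1
      rw [sub_smul, one_smul, ← Split.M1_dcBar]
    · rw [← av_add, ← av_sub]
      refine Pos.sum _ fun i _ => Pos.smul (bw_nonneg h i) ?_
      convert (hs.pair_dcBar (pl h a i)).add
        ((pos_M1 hs.posP hs.pos_bc (pl h a i)).smul (sub_nonneg.2 (hle i))) using 1
      module
  obtain ⟨da, qa⟩ := dom _ (Or.inl rfl)
  obtain ⟨db', qb⟩ := dom _ (Or.inr rfl)
  have hd : Le1 (av h (winA m) (fun l => P ^ l.length + M1 P (dc P Vo) l) -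
      av h (winB m) (fun l => P ^ l.length + M1 P (dc P Vo) l))
      ((2 * var H m) • (av h (winA m) (fun l => P ^ l.length) +
        av h (winB m) (fun l => P ^ l.length)) + tail H m • Z1 P db n) := by
    rw [av_add, av_add]
    have e : av h (winA m) (fun l => P ^ l.length) = av h (winB m) (fun l => P ^ l.length) := by
      rw [av_pow, av_pow, length_winA, length_winB]
    rw [show ∀ x y : Alg, av h (winA m) (fun l => P ^ l.length) + x -
      (av h (winB m) (fun l => P ^ l.length) + y) = x - y from fun x y => by rw [e]; abel]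
    refine (mix_M1 hm hH hs.posP hs.le1_dc).trans_pos ?_
    convert ((da.add db').add ((pos_av (h := h) (a := winA m) fun l => pos_pow hs.posP l.length).add
      (pos_av (h := h) (a := winB m) fun l => pos_pow hs.posP l.length))).smul v0 using 1
    module
  have hp : Le1 (av h (winA m) (fun l => M1 P bc l + (M2 P bc (dc P Vo) l + M2 P (dc P Vo) bc l)) -
      av h (winB m) (fun l => M1 P bc l + (M2 P bc (dc P Vo) l + M2 P (dc P Vo) bc l)))
      ((2 * var H m) • (av h (winA m) (M1 P bc) + av h (winB m) (M1 P bc)) +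
        (tail H m • Z1 P bc n + (tail H m • Z2 P bc db n + tail H m • Z2 P db bc n))) := by
    rw [av_add, av_add, av_add, av_add]
    have key := (mix_M1 hm hH hs.posP hbc).add
      ((mix_M2 hm hH hs.posP hbc hs.le1_dc).add (mix_M2 hm hH hs.posP hs.le1_dc hbc))
    convert key.trans_pos (g' := (2 * var H m) • (av h (winA m) (M1 P bc) +
      av h (winB m) (M1 P bc)) + (tail H m • Z1 P bc n + (tail H m • Z2 P bc db n +
      tail H m • Z2 P db bc n))) ?_ using 1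
    · abel
    · convert (qa.add qb).smul v0 using 1
      module
  have c0 : (0 : ℝ) ≤ 2 * var H m := by linarith
  have p0 := part (h := h) g0 f0 (by linarith) (fun l => pos_pow hs.posP _) t0 c0 hd
  have p1 := part (h := h) g1 f1 (by linarith) (fun l => pos_M1 hs.posP hs.pos_bc l) t0 c0 hp
  have hR : ∀ a, Pos (av h a (R2 P Vo Ub Vb)) := fun a => pos_av fun l => hs.pos_R2 l
  have key := (p0.add p1).add ((Le1.of_pos (hR (winA m))).sub (Le1.of_pos (hR (winB m))))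
  have hdb : ∀ b, Pos (db b) := hs.pos_dcBar
  have hdb1 : ∀ b, mass (db b) ≤ 1 := by
    intro b
    cases b
    · simp [db, dcBar]
    · have hm1 : (1 : ℝ) ≤ 2 ^ m := one_le_pow₀ (by norm_num)
      simp only [db, dcBar, if_true, map_smul, smul_eq_mul]
      exact mul_le_one₀ (by nlinarith) hs.posP.mass_nonneg hs.massP
  obtain ⟨z1p, z1m⟩ := mass_Z1 hs.posP hs.massP hdb hdb1 n
  obtain ⟨z2p, z2m⟩ := mass_Z1 hs.posP hs.massP hs.pos_bc (mass_bc_one hs) n
  obtain ⟨z3p, z3m⟩ := mass_Z2 hs.posP hs.massP hs.pos_bc (mass_bc_one hs) hdb hdb1 n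
  obtain ⟨z4p, z4m⟩ := mass_Z2 hs.posP hs.massP hdb hdb1 hs.pos_bc (mass_bc_one hs) n
  have ewd : ∀ a, av h a (wd (P + Ub) (Vo + Vb)) = av h a (E0 P Vo) + av h a (E1 P Vo Ub Vb) +
      av h a (R2 P Vo Ub Vb) := fun a => by
    rw [← av_add, ← av_add]
    exact av_congr fun l _ _ => wd_eq_two P Vo Ub Vb l
  refine ⟨tail H m • Z1 P db n + (tail H m • Z1 P bc n +
    (tail H m • Z2 P bc db n + tail H m • Z2 P db bc n)) +
    (av h (winA m) (R2 P Vo Ub Vb) + av h (winB m) (R2 P Vo Ub Vb)),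
    ((z1p.smul τ0).add ((z2p.smul τ0).add ((z3p.smul τ0).add (z4p.smul τ0)))).add
      ((hR _).add (hR _)), ?_, ?_⟩
  · have mR : ∀ a : List Bool, a.length = 2 ^ m →
        mass (av h a (R2 P Vo Ub Vb)) ≤ ((n : ℝ) * β) ^ 2 := fun a ha =>
      mass_av fun l hl => (hs.mass_R2 l).trans (le_of_eq (by rw [hl, ha, hn]))
    simp only [map_add, map_smul, smul_eq_mul]
    have := mR _ (length_winA m)
    have := mR _ (length_winB m)
    nlinarith [mul_le_mul_of_nonneg_left z1m τ0, mul_le_mul_of_nonneg_left z2m τ0,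
      mul_le_mul_of_nonneg_left z3m τ0, mul_le_mul_of_nonneg_left z4m τ0]
  · rw [ewd, ewd]
    convert key.trans_pos (g' := (2 * ((2 ^ m * δ) ^ 2 + 2 * var H m)) •
      (av h (winA m) (E0 P Vo) + av h (winA m) (E1 P Vo Ub Vb) + av h (winA m) (R2 P Vo Ub Vb) +
      (av h (winB m) (E0 P Vo) + av h (winB m) (E1 P Vo Ub Vb) +
      av h (winB m) (R2 P Vo Ub Vb))) + (tail H m • Z1 P db n + (tail H m • Z1 P bc n +
      (tail H m • Z2 P bc db n + tail H m • Z2 P db bc n)) +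
      (av h (winA m) (R2 P Vo Ub Vb) + av h (winB m) (R2 P Vo Ub Vb)))) ?_ using 1
    · abel
    · convert ((hR (winA m)).add (hR (winB m))).smul
        (show 0 ≤ 2 * ((2 ^ m * δ) ^ 2 + 2 * var H m) by linarith) using 1
      module

lemma exc_trivial {F G : Alg} (hF : Pos F) (hG : Pos G) {η e : ℝ} (hη : 1 ≤ η) (he : 0 ≤ e) :
    Exc F G η e := by
  refine ⟨0, Pos.zero, by simpa using he, ((Le1.of_pos hF).sub (Le1.of_pos hG)).trans_pos ?_⟩
  convert (hF.add hG).smul (sub_nonneg.2 hη) using 1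
  module

/-- Pads turn a bound after the shifts into a bound. -/
lemma lift {U V : Alg} (hU : IsProb U) (hV : IsProb V) {H B : ℕ}
    (hB : nrm (U ^ (B + 1) - U ^ B) ≤ 1) (a b : List Bool) {η η' v e : ℝ} (hη : 0 ≤ η)
    (hv : 0 ≤ v) (h : Exc (av (2 ^ (3 * H)) a (wd U V)) (av (2 ^ (3 * H)) b (wd U V)) η v)
    (hηη : η ≤ η') (he : v + 2 * bwTail H ≤ e) :
    Exc (wd U V (padMask (48 * 2 ^ (3 * H) * (B + 1)) a))
      (wd U V (padMask (48 * 2 ^ (3 * H) * (B + 1)) b)) η' e := by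
  rw [← sh_iterate_wd, ← sh_iterate_wd] at h
  have hF := isProb_wd hU hV a
  have hG := isProb_wd hU hV b
  have crude : Exc (wd U V a) (wd U V b) η 2 := by
    refine ⟨wd U V a + wd U V b, hF.pos.add hG.pos,
      by rw [map_add, hF.mass_one, hG.mass_one]; norm_num,
      ((Le1.of_pos hF.pos).sub (Le1.of_pos hG.pos)).trans_pos ?_⟩
    convert (hF.pos.add hG.pos).smul hη using 1
    module
  have p := pad (closed_exc (η := η)) hU B hB _ hv zero_le_two h crude
  rw [← wd_padMask, ← wd_padMask] at p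
  refine p.mono (isProb_wd hU hV _).pos (isProb_wd hU hV _).pos hηη (le_trans ?_ he)
  rw [mul_comm (2 : ℝ) (bwTail H)]
  refine add_le_add le_rfl (mul_le_mul_of_nonneg_right ?_ zero_le_two)
  refine inv_anti₀ (by positivity) (pow_le_pow_right₀ one_le_two ?_)
  have : 2 ^ (H - 3) ≤ 2 ^ (3 * H) := Nat.pow_le_pow_right (by norm_num) (by omega)
  omega

lemma tail_sum_le {m H L : ℕ} (hL : 2 ^ (3 * H) + 2 ^ m ≤ L) {c d : ℝ} (hc : 0 ≤ c) (hd : 0 ≤ d)
    (hcd : 3 * (c + d) + 2 ≤ 2 ^ 16) :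
    tail H m * (c * (2 ^ (3 * H) + 2 ^ m : ℕ) + d * ((2 ^ (3 * H) + 2 ^ m : ℕ) : ℝ) ^ 2)
      + 2 * bwTail H ≤ (L : ℝ) ^ 4 * 2 ^ 16 * bwTail H := by
  set n : ℕ := 2 ^ (3 * H) + 2 ^ m with hn
  have hm : (2 : ℝ) ^ m ≤ n := by
    exact_mod_cast (show 2 ^ m ≤ n from hn ▸ Nat.le_add_left _ _)
  have hn1 : (1 : ℝ) ≤ n := le_trans (one_le_pow₀ (by norm_num)) hm
  have hnL : (n : ℝ) ≤ L := by exact_mod_cast hL
  have hτ := bwTail_nonneg H
  have h1 : c * (n : ℝ) + d * (n : ℝ) ^ 2 ≤ (c + d) * (n : ℝ) ^ 2 := by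
    nlinarith [mul_le_mul_of_nonneg_left hn1 (mul_nonneg hc (Nat.cast_nonneg (α := ℝ) n))]
  have h4 : (n : ℝ) ^ 4 ≤ (L : ℝ) ^ 4 := pow_le_pow_left₀ (by positivity) hnL 4
  have h3 : (n : ℝ) ^ 3 ≤ (n : ℝ) ^ 4 := pow_le_pow_right₀ hn1 (by norm_num)
  have h2 : (1 : ℝ) ≤ (n : ℝ) ^ 4 := one_le_pow₀ hn1
  rw [tail]
  calc 3 * 2 ^ m * bwTail H * (c * (n : ℝ) + d * (n : ℝ) ^ 2) + 2 * bwTail H
      ≤ 3 * (n : ℝ) * bwTail H * ((c + d) * (n : ℝ) ^ 2) + 2 * bwTail H := by gcongr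
    _ = bwTail H * (3 * (c + d) * (n : ℝ) ^ 3 + 2) := by ring
    _ ≤ bwTail H * ((L : ℝ) ^ 4 * 2 ^ 16) := by
      refine mul_le_mul_of_nonneg_left ?_ hτ
      nlinarith [mul_le_mul_of_nonneg_left h3 (show (0 : ℝ) ≤ 3 * (c + d) by positivity)]
    _ = _ := by ring

end Ratio

open Ratio in
/-- The exceptional part improves cubically at level A. -/
theorem ratioA {U V : Alg} (hU : IsProb U) (hV : IsProb V) {m H B : ℕ} (hm : Odd m)
    (hH : 4 * m + 10 ≤ H) (hB : nrm (U ^ (B + 1) - U ^ B) ≤ 1) {η e : ℝ} (hη : 0 < η)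
    (he : Exc U V η e) :
    Exc (wd U V (padMask (48 * 2 ^ (3 * H) * (B + 1)) (winA m)))
      (wd U V (padMask (48 * 2 ^ (3 * H) * (B + 1)) (winB m)))
      (2 ^ (6 * m + 20) * (η + (2 ^ H)⁻¹))
      ((16 * (2 * (48 * 2 ^ (3 * H) * (B + 1)) + 2 ^ m : ℕ) * e / η) ^ 3 +
        ((2 * (48 * 2 ^ (3 * H) * (B + 1)) + 2 ^ m : ℕ) : ℝ) ^ 4 * 2 ^ 16 * bwTail H) := by
  set N := 48 * 2 ^ (3 * H) * (B + 1)
  set L := 2 * N + 2 ^ m
  have e0 : 0 ≤ e := by obtain ⟨r, h1, h2, -⟩ := he; exact h1.mass_nonneg.trans h2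
  have τ0 := bwTail_nonneg H
  have hM : (1 : ℝ) ≤ 2 ^ m := one_le_pow₀ (by norm_num)
  have hC : (2 : ℝ) ^ 20 * 2 ^ m ≤ 2 ^ (6 * m + 20) := by
    rw [← pow_add]; exact pow_le_pow_right₀ (by norm_num) (by omega)
  have hH0 : (0 : ℝ) ≤ (2 ^ H)⁻¹ := by positivity
  by_cases hsmall : 24 * 2 ^ m * η ≤ 1
  swap
  · exact exc_trivial (isProb_wd hU hV _).pos (isProb_wd hU hV _).pos (by nlinarith)
      (by positivity)
  obtain ⟨P, Vo, Ub, Vb, rfl, rfl, hs⟩ := exists_split hU hV hη (by nlinarith) he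
  have sA := smoothA hs hm (show m + 7 ≤ H by omega) (by nlinarith)
  have hL : 2 ^ (3 * H) + 2 ^ m ≤ L := by
    have : 2 ^ (3 * H) ≤ N :=
      (Nat.le_mul_of_pos_left _ (by norm_num : 0 < 48)).trans (Nat.le_mul_of_pos_right _ (by omega))
    simp only [L]; omega
  have v0 := var_nonneg H m
  refine lift hU hV hB _ _ (by positivity) ?_ sA ?_ ?_
  · have := tail_nonneg H m
    have := hs.beta_nonneg
    positivity
  · rw [var, div_eq_mul_inv]
    nlinarith [mul_le_mul_of_nonneg_right hC (add_nonneg hη.le hH0),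
      mul_nonneg (show (0 : ℝ) ≤ 2 ^ m by positivity) hH0, mul_pos (pow_pos (two_pos (α := ℝ)) m) hη]
  · have t := tail_sum_le (c := 2) (d := 4) hL (by norm_num) (by norm_num) (by norm_num)
    have : 2 * (((2 ^ (3 * H) + 2 ^ m : ℕ) : ℝ) * (e / η)) ^ 3 ≤ (16 * (L : ℝ) * e / η) ^ 3 := by
      rw [show 16 * (L : ℝ) * e / η = 16 * ((L : ℝ) * (e / η)) by ring, mul_pow (16 : ℝ)]
      exact mul_le_mul (by norm_num) (pow_le_pow_left₀ (mul_nonneg (Nat.cast_nonneg _) hs.beta_nonneg)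
        (mul_le_mul_of_nonneg_right (by exact_mod_cast hL) hs.beta_nonneg) 3)
        (pow_nonneg (mul_nonneg (Nat.cast_nonneg _) hs.beta_nonneg) 3) (by norm_num)
    linarith

open Ratio in
/-- The exceptional part improves quadratically at level B, and the ratio squares. -/
theorem ratioB {U V : Alg} (hU : IsProb U) (hV : IsProb V) {m H B : ℕ} (hm : Odd m)
    (hH : 4 * m + 10 ≤ H) (hB : nrm (U ^ (B + 1) - U ^ B) ≤ 1) {η e : ℝ} (hη : 0 < η)
    (he : Exc U V η e) :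
    Exc (wd U V (padMask (48 * 2 ^ (3 * H) * (B + 1)) (winA m)))
      (wd U V (padMask (48 * 2 ^ (3 * H) * (B + 1)) (winB m)))
      (2 ^ (10 * m + 30) * (η ^ 2 + (2 ^ H)⁻¹))
      ((16 * (2 * (48 * 2 ^ (3 * H) * (B + 1)) + 2 ^ m : ℕ) * e / η) ^ 2 +
        ((2 * (48 * 2 ^ (3 * H) * (B + 1)) + 2 ^ m : ℕ) : ℝ) ^ 4 * 2 ^ 16 * bwTail H) := by
  set N := 48 * 2 ^ (3 * H) * (B + 1)
  set L := 2 * N + 2 ^ m
  have τ0 := bwTail_nonneg H
  have hM : (1 : ℝ) ≤ 2 ^ m := one_le_pow₀ (by norm_num)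
  have hC : (2 : ℝ) ^ 30 * (2 ^ m) ^ 2 ≤ 2 ^ (10 * m + 30) := by
    rw [← pow_mul, ← pow_add]; exact pow_le_pow_right₀ (by norm_num) (by omega)
  have hH0 : (0 : ℝ) ≤ (2 ^ H)⁻¹ := by positivity
  by_cases hsmall : 24 * 2 ^ m * η ≤ 1
  swap
  · refine exc_trivial (isProb_wd hU hV _).pos (isProb_wd hU hV _).pos ?_ (by positivity)
    nlinarith [pow_le_pow_left₀ zero_le_one (le_of_not_ge hsmall) 2,
      mul_le_mul_of_nonneg_right hC (sq_nonneg η)]
  obtain ⟨P, Vo, Ub, Vb, rfl, rfl, hs⟩ := exists_split hU hV hη (by nlinarith) he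
  have sB := smoothB hs hm (show m + 7 ≤ H by omega) (by nlinarith)
  have hL : 2 ^ (3 * H) + 2 ^ m ≤ L := by
    have : 2 ^ (3 * H) ≤ N :=
      (Nat.le_mul_of_pos_left _ (by norm_num : 0 < 48)).trans (Nat.le_mul_of_pos_right _ (by omega))
    simp only [L]; omega
  have v0 := var_nonneg H m
  refine lift hU hV hB _ _ (by positivity) ?_ sB ?_ ?_
  · have := tail_nonneg H m
    positivity
  · rw [var, div_eq_mul_inv]
    have hsq : (0 : ℝ) ≤ (2 ^ m) ^ 2 * η ^ 2 := by positivity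
    have hlin : (2 : ℝ) ^ m * (2 ^ H)⁻¹ ≤ (2 ^ m) ^ 2 * (2 ^ H)⁻¹ :=
      mul_le_mul_of_nonneg_right (by nlinarith) hH0
    nlinarith [mul_le_mul_of_nonneg_right hC (add_nonneg (sq_nonneg η) hH0)]
  · have t := tail_sum_le (c := 4) (d := 8) hL (by norm_num) (by norm_num) (by norm_num)
    have : 2 * (((2 ^ (3 * H) + 2 ^ m : ℕ) : ℝ) * (e / η)) ^ 2 ≤ (16 * (L : ℝ) * e / η) ^ 2 := by
      rw [show 16 * (L : ℝ) * e / η = 16 * ((L : ℝ) * (e / η)) by ring, mul_pow (16 : ℝ)]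
      exact mul_le_mul (by norm_num) (pow_le_pow_left₀ (mul_nonneg (Nat.cast_nonneg _) hs.beta_nonneg)
        (mul_le_mul_of_nonneg_right (by exact_mod_cast hL) hs.beta_nonneg) 2)
        (sq_nonneg _) (by norm_num)
    linarith

end Vale.Agent.P321
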