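import Vale.Agent.P321.Super.Gain
import Vale.Agent.P321.Super.Ratio

/-!
P321, superpolynomial bound: one stage. From a pair of words at length `2^β` and distance `2^(-E)`
we get a pair at length `2^(4β+9H+46)` and distance `2^(-(4E+β/2-6m-31))`, with `H = O(E/m + m)`.
-/

open Finset

namespace Vale.Agent.P321

/-- The state: length, squared distance, bounded likelihood ratio off a small set, and overlap. -/
structure Inv (p : ℝ) (x y : List Bool) (E β m : ℕ) : Prop where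
  len : x.length = y.length
  ne : x ≠ y
  short : x.length ≤ 2 ^ β
  dist : Dev (tr p x - tr p y) (tr p x + tr p y) ((2 : ℝ) ^ E)⁻¹
  exc : Exc (tr p x) (tr p y) ((2 : ℝ) ^ (40 * m))⁻¹ ((2 : ℝ) ^ (12 * E))⁻¹
  overlap : nrm (tr p x ^ (2 ^ β + 1) - tr p x ^ (2 ^ β)) ≤ 1 / 2

lemma overlap_mono {U : Alg} (hU : IsProb U) {B B' : ℕ} (h : B ≤ B') :
    nrm (U ^ (B' + 1) - U ^ B') ≤ nrm (U ^ (B + 1) - U ^ B) := by
  obtain ⟨k, rfl⟩ := Nat.exists_eq_add_of_le h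
  rw [show B + k + 1 = k + (B + 1) by omega, show B + k = k + B by omega, pow_add U k (B + 1),
    pow_add U k B, ← mul_sub]
  exact (hU.pow k).nrm_mul_left _

lemma Inv.mono {p : ℝ} {x y : List Bool} {E E' β β' m m' : ℕ} (h0 : 0 ≤ p) (h1 : p ≤ 1)
    (h : Inv p x y E β m) (hE : E' ≤ E) (hβ : β ≤ β') (hm : m' ≤ m) :
    Inv p x y E' β' m' := by
  have hx := isProb_tr h0 h1 x
  have hy := isProb_tr h0 h1 y
  have hpow : (2 : ℕ) ^ β ≤ 2 ^ β' := Nat.pow_le_pow_right (by norm_num) hβ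
  have inv : ∀ {a b : ℕ}, a ≤ b → ((2 : ℝ) ^ b)⁻¹ ≤ ((2 : ℝ) ^ a)⁻¹ := fun hab =>
    inv_anti₀ (by positivity) (pow_le_pow_right₀ (by norm_num) hab)
  exact ⟨h.len, h.ne, h.short.trans hpow, h.dist.mono (inv hE),
    h.exc.mono hx.pos hy.pos (inv (by omega)) (inv (by omega)),
    (overlap_mono hx hpow).trans h.overlap⟩

/-! ### Powers of two -/

lemma two_pow_mul_inv {a d c : ℕ} (h : a + c ≤ d) :
    (2 : ℝ) ^ a * ((2 : ℝ) ^ d)⁻¹ ≤ ((2 : ℝ) ^ c)⁻¹ := by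
  rw [← div_eq_mul_inv, div_le_iff₀ (by positivity), ← div_eq_inv_mul,
    le_div_iff₀ (by positivity), ← pow_add]
  exact pow_le_pow_right₀ (by norm_num) h

lemma inv_le_inv_pow {a b : ℕ} (h : a ≤ b) : ((2 : ℝ) ^ b)⁻¹ ≤ ((2 : ℝ) ^ a)⁻¹ :=
  inv_anti₀ (by positivity) (pow_le_pow_right₀ (by norm_num) h)

lemma cube_le_two_pow : ∀ n : ℕ, 10 ≤ n → n ^ 3 ≤ 2 ^ n := by
  intro n hn
  induction n, hn using Nat.le_induction with
  | base => norm_num
  | succ n hn ih =>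
    have h1 : 10 * n ^ 2 ≤ n ^ 3 := by rw [pow_succ n 2, mul_comm]; exact Nat.mul_le_mul_left _ hn
    have h2 : 10 * n ≤ n ^ 2 := by rw [sq]; exact Nat.mul_le_mul_right _ hn
    have : (n + 1) ^ 3 ≤ 2 * n ^ 3 := by ring_nf; ring_nf at h1 h2; omega
    exact this.trans (by rw [pow_succ 2 n]; omega)

/-! ### Distance to a pure power and overlap -/

lemma nrm_wd_pow {U V : Alg} {d : ℝ} (hU : IsProb U) (hV : IsProb V) (hd : nrm (V - U) ≤ d) :
    ∀ l : List Bool, nrm (wd U V l - U ^ l.length) ≤ l.count true * d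
  | [] => by simp [nrm_zero]
  | b :: l => by
      have ih := nrm_wd_pow hU hV hd l
      rw [wd_cons, List.length_cons, pow_succ']
      cases b
      · simp only [Bool.false_eq_true, if_false, List.count_cons, beq_iff_eq, add_zero]
        rw [← mul_sub]
        exact (hU.nrm_mul_left _).trans ih
      · simp only [if_true, List.count_cons_self]
        rw [show V * wd U V l - U * U ^ l.length =
          (V - U) * wd U V l + U * (wd U V l - U ^ l.length) by noncomm_ring]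
        refine (nrm_add _ _).trans ((add_le_add (((isProb_wd hU hV l).nrm_mul_right _).trans hd)
          ((hU.nrm_mul_left _).trans ih)).trans ?_)
        push_cast
        linarith

lemma overlap_of_near {U W : Alg} (hU : IsProb U) (hW : IsProb W) {B B' K : ℕ} {d : ℝ}
    (hov : nrm (U ^ (B + 1) - U ^ B) ≤ 1) (hn : nrm (W - U ^ K) ≤ d) (hB' : 1 ≤ K * B')
    (hd : (2 * B' + 1 : ℝ) * d ≤ 1 / 4) (hK : 256 * K * (B + 1) ≤ B') :
    nrm (W ^ (B' + 1) - W ^ B') ≤ 1 / 2 := by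
  have hp : ∀ i : ℕ, nrm (W ^ i - U ^ (K * i)) ≤ i * d := by
    intro i
    induction i with
    | zero => simp [nrm_zero]
    | succ i ih =>
      rw [show W ^ (i + 1) - U ^ (K * (i + 1)) =
          (W ^ i - U ^ (K * i)) * W + U ^ (K * i) * (W - U ^ K) by
        rw [pow_succ, Nat.mul_succ, pow_add]; noncomm_ring]
      refine (nrm_add _ _).trans
        ((add_le_add (hW.nrm_mul_right _) ((hU.pow _).nrm_mul_left _)).trans ?_)
      push_cast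
      linarith
  rw [show W ^ (B' + 1) - W ^ B' = (W ^ (B' + 1) - U ^ (K * (B' + 1))) +
      (U ^ (K * B') - W ^ B') - U ^ (K * B') * (1 - U ^ K) by
    rw [Nat.mul_succ, pow_add U]; noncomm_ring]
  have hq : nrm (U ^ (K * B') - W ^ B') ≤ B' * d := by rw [nrm_sub_comm]; exact hp B'
  have hs := (smooth_of_overlap hU B hov).shift hU K hB'
  have hsb : (K : ℝ) * (4 * Real.sqrt (B + 1) / Real.sqrt ((K * B' : ℕ) : ℝ)) ≤ 1 / 4 := by
    rw [mul_div_assoc', div_le_iff₀ (Real.sqrt_pos.2 (by exact_mod_cast hB'))]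
    refine le_of_pow_le_pow_left₀ two_ne_zero (by positivity) ?_
    rw [mul_pow, mul_pow, mul_pow, Real.sq_sqrt (by positivity), Real.sq_sqrt (Nat.cast_nonneg _)]
    have : (256 : ℝ) * K * (B + 1) ≤ B' := by exact_mod_cast hK
    push_cast
    nlinarith [mul_le_mul_of_nonneg_left this (Nat.cast_nonneg (α := ℝ) K)]
  refine (nrm_sub _ _).trans (le_trans (add_le_add ((nrm_add _ _).trans
    (add_le_add (hp (B' + 1)) hq)) hs) ?_)
  push_cast at hsb ⊢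
  linarith

/-! ### Back from the truncated world -/

lemma ev_special {f s : Alg} (hle : Le1 f s) :
    ev s ((fun w => f.coeff (FreeMonoid.ofList w) / s.coeff (FreeMonoid.ofList w)) ^ 2) =
      ev f (fun w => f.coeff (FreeMonoid.ofList w) / s.coeff (FreeMonoid.ofList w)) := by
  classical
  simp only [ev, Pi.pow_apply]
  rw [Finsupp.sum_of_support_subset (s := f.coeff.support ∪ s.coeff.support) _
      Finset.subset_union_right _ (by simp),
    Finsupp.sum_of_support_subset (s := f.coeff.support ∪ s.coeff.support) _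
      Finset.subset_union_left _ (by simp)]
  refine Finset.sum_congr rfl fun w _ => ?_
  simp only [FreeMonoid.ofList_toList]
  rcases eq_or_ne (s.coeff w) 0 with h0 | h0
  · have := hle w
    rw [h0, abs_nonpos_iff] at this
    simp [this, h0]
  · field_simp

/-- A bound in the truncated world gives the weighted distance of the true laws. -/
lemma dev_transfer {x y x' y' : Alg} {a δ bad : ℝ} (hx : IsProb x) (hy : IsProb y)
    (ha : 0 ≤ a) (hbad : 0 ≤ bad) (hδx : nrm (x - x') ≤ δ) (hδy : nrm (y - y') ≤ δ)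
    (h : ∀ φ : List Bool → ℝ, (∀ w, |φ w| ≤ 1) →
      |ev (x' - y') φ| ≤ a * Real.sqrt (ev x' (φ ^ 2) + bad)) {a' : ℝ} (ha' : 0 ≤ a')
    (hb : a ^ 2 + 5 * δ + bad ≤ a' ^ 2) : Dev (x - y) (x + y) a' := by
  have hle : Le1 (x - y) (x + y) := (Le1.of_pos hx.pos).sub (Le1.of_pos hy.pos)
  refine dev_of_special ha' hle ?_
  have e := ev_special hle
  set φ : List Bool → ℝ :=
    fun w => (x - y).coeff (FreeMonoid.ofList w) / (x + y).coeff (FreeMonoid.ofList w) with hφ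
  have h1 : ∀ w, |φ w| ≤ 1 := special_le_one hle
  have h2 : ∀ w, |(φ ^ 2) w| ≤ 1 := fun w => by
    rw [Pi.pow_apply, abs_pow]; exact pow_le_one₀ (abs_nonneg _) (h1 w)
  set X := ev (x - y) φ
  have d1 := abs_le.1 ((abs_ev_le (x - x') φ h1).trans hδx)
  have d2 := abs_le.1 ((abs_ev_le (y - y') φ h1).trans hδy)
  have d3 := abs_le.1 ((abs_ev_le (x - x') (φ ^ 2) h2).trans hδx)
  rw [ev_sub] at d1 d2 d3
  have hy2 := ev_sq_nonneg hy.pos φ
  rw [ev_add] at e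
  have hX : ev x (φ ^ 2) ≤ X := by linarith
  have hz : ev x' (φ ^ 2) + bad ≤ X + δ + bad := by linarith
  have hδ0 : 0 ≤ δ := (nrm_nonneg _).trans hδx
  have hX0 : 0 ≤ X := (ev_sq_nonneg hx.pos φ).trans hX
  have h3 := (le_abs_self _).trans ((h φ h1).trans (mul_le_mul_of_nonneg_left
    (Real.sqrt_le_sqrt hz) ha))
  rw [ev_sub] at h3
  have hXeq : X = ev x φ - ev y φ := ev_sub _ _ _
  have q := Real.sq_sqrt (by linarith : 0 ≤ X + δ + bad)
  nlinarith [sq_nonneg (a - Real.sqrt (X + δ + bad))]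

/-! ### One stage -/

lemma scaled_pow_le {L : ℝ} {l : ℕ} (a b c j : ℕ) (hL0 : 0 ≤ L) (hL : L ≤ 2 ^ l) :
    (16 * L * ((2 : ℝ) ^ a * ((2 : ℝ) ^ b)⁻¹) / ((2 : ℝ) ^ c)⁻¹) ^ j ≤
      2 ^ ((4 + l + a + c) * j) * ((2 : ℝ) ^ (b * j))⁻¹ := by
  rw [pow_mul, pow_mul, ← inv_pow ((2 : ℝ) ^ b) j, ← mul_pow]
  refine pow_le_pow_left₀ (by positivity) ?_ j
  rw [div_inv_eq_mul, pow_add, pow_add, pow_add]
  norm_num
  calc 16 * L * (2 ^ a * ((2 : ℝ) ^ b)⁻¹) * 2 ^ c ≤ 16 * 2 ^ l * (2 ^ a * ((2 : ℝ) ^ b)⁻¹) * 2 ^ c := by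
        gcongr
    _ = _ := by ring

lemma tail_le {L : ℝ} {l T c : ℕ} (hL0 : 0 ≤ L) (hL : L ≤ 2 ^ l) (h : l * 4 + 16 + c ≤ T) :
    L ^ 4 * 2 ^ 16 * ((2 : ℝ) ^ T)⁻¹ ≤ ((2 : ℝ) ^ c)⁻¹ := by
  refine le_trans ?_ (two_pow_mul_inv h)
  rw [pow_add, pow_mul]
  gcongr

/-- Sizes of the masks of a stage. -/
lemma sizes {m H β B BX : ℕ} (hB : B = 2 ^ β) (hBX : BX = 2 ^ (3 * H + 2 * β + 18))
    (hm : m ≤ H) :
    2 * padLen (2 ^ (3 * H)) B + 2 ^ m ≤ 2 ^ (3 * H + β + 9) ∧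
      256 * (2 * padLen (2 ^ (3 * H)) B + 2 ^ m) * (B + 1) ≤ BX ∧
      2 * padLen (2 ^ (3 * H)) BX + 2 ^ m + 1 ≤ 2 ^ (6 * H + 2 * β + 27) ∧
      2 * padLen (2 ^ (2 * β)) B ≤ 2 ^ (3 * β + 8) := by
  have hB1 : B + 1 ≤ 2 ^ (β + 1) := by
    rw [hB, pow_succ]; have := Nat.one_le_two_pow (n := β); omega
  have hX1 : BX + 1 ≤ 2 ^ (3 * H + 2 * β + 19) := by
    rw [hBX, pow_succ 2 (3 * H + 2 * β + 18)]
    have := Nat.one_le_two_pow (n := 3 * H + 2 * β + 18); omega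
  have hp : ∀ a b c : ℕ, b + 1 ≤ 2 ^ c → 2 * padLen (2 ^ a) b ≤ 2 ^ (a + c + 7) := fun a b c hc => by
    rw [padLen, show a + c + 7 = 7 + a + c by ring, pow_add _ (7 + a), pow_add,
      ← mul_assoc, ← mul_assoc]
    refine Nat.mul_le_mul (Nat.mul_le_mul_right _ (by norm_num)) hc
  have hm' : ∀ c, m + 1 ≤ c → 2 ^ m + 1 ≤ 2 ^ c := fun c hc => by
    refine le_trans ?_ (Nat.pow_le_pow_right (by norm_num) hc)
    rw [pow_succ]; have := Nat.one_le_two_pow (n := m); omega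
  have h1 : 2 * padLen (2 ^ (3 * H)) B + 2 ^ m ≤ 2 ^ (3 * H + β + 9) := by
    have := hp (3 * H) B (β + 1) hB1
    have := hm' (3 * H + β + 8) (by omega)
    rw [show 3 * H + (β + 1) + 7 = 3 * H + β + 8 by omega] at *
    rw [show 3 * H + β + 9 = 3 * H + β + 8 + 1 from rfl, pow_succ]
    omega
  refine ⟨h1, ?_, ?_, ?_⟩
  · calc 256 * (2 * padLen (2 ^ (3 * H)) B + 2 ^ m) * (B + 1)
        ≤ 2 ^ 8 * 2 ^ (3 * H + β + 9) * 2 ^ (β + 1) :=
          Nat.mul_le_mul (Nat.mul_le_mul (by norm_num) h1) hB1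
      _ = BX := by rw [hBX, ← pow_add, ← pow_add]; congr 1; omega
  · have := hp (3 * H) BX _ hX1
    have := hm' (6 * H + 2 * β + 26) (by omega)
    rw [show 3 * H + (3 * H + 2 * β + 19) + 7 = 6 * H + 2 * β + 26 by omega] at *
    rw [show 6 * H + 2 * β + 27 = 6 * H + 2 * β + 26 + 1 from rfl, pow_succ]
    omega
  · refine (hp (2 * β) B (β + 1) hB1).trans_eq ?_
    congr 1; omega

/-- The likelihood ratios of the new pair. -/
theorem exc_step {U V : Alg} (hU : IsProb U) (hV : IsProb V) {m m' H β E E' B BX : ℕ}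
    (hm : Odd m) (hB : B = 2 ^ β) (hBX : BX = 2 ^ (3 * H + 2 * β + 18))
    (hov : nrm (U ^ (B + 1) - U ^ B) ≤ 1)
    (hovX : nrm (wd U V (cellMask (2 ^ (3 * H)) B (winA m)) ^ (BX + 1) -
      wd U V (cellMask (2 ^ (3 * H)) B (winA m)) ^ BX) ≤ 1)
    (he : Exc U V ((2 : ℝ) ^ (40 * m))⁻¹ ((2 : ℝ) ^ (12 * E))⁻¹)
    (hm0 : 100 ≤ m) (hH : 70 * m ≤ H) (htail : 200 * E ≤ 2 ^ (H - 3)) (hm' : 40 * m' ≤ 48 * m)
    (hsz : 30 * H + 16 * β + 300 * m + 150 + 12 * E' ≤ 72 * E) :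
    Exc (wd U V (nextMask (2 ^ (3 * H)) B BX β m (winA m)))
      (wd U V (nextMask (2 ^ (3 * H)) B BX β m (winB m)))
      ((2 : ℝ) ^ (40 * m'))⁻¹ ((2 : ℝ) ^ (12 * E'))⁻¹ := by
  obtain ⟨hLA, -, hL2, -⟩ := sizes hB hBX (by omega : m ≤ H)
  set h := 2 ^ (3 * H) with hh
  set X := wd U V (cellMask h B (winA m)) with hX'
  set Y := wd U V (cellMask h B (winB m)) with hY'
  have hX : IsProb X := isProb_wd hU hV _
  have hY : IsProb Y := isProb_wd hU hV _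
  have hA := ratioA hU hV hm (by omega : 4 * m + 10 ≤ H) hov (by positivity) he
  rw [show 48 * 2 ^ (3 * H) * (B + 1) = padLen h B from rfl] at hA
  change Exc X Y _ _ at hA
  set LA := 2 * padLen h B + 2 ^ m
  have hLA' : (LA : ℝ) ≤ 2 ^ (3 * H + β + 9) := by exact_mod_cast hLA
  have hηA : 2 ^ (6 * m + 20) * (((2 : ℝ) ^ (40 * m))⁻¹ + ((2 : ℝ) ^ H)⁻¹) ≤
      ((2 : ℝ) ^ (30 * m))⁻¹ := by
    have := inv_le_inv_pow (a := 40 * m) (b := H) (by omega)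
    refine le_trans ?_ (two_pow_mul_inv (a := 6 * m + 21) (d := 40 * m) (c := 30 * m) (by omega))
    rw [pow_succ (2 : ℝ) (6 * m + 20), mul_assoc]
    refine mul_le_mul_of_nonneg_left ?_ (by positivity)
    linarith
  have heA : (16 * (LA : ℝ) * ((2 : ℝ) ^ (12 * E))⁻¹ / ((2 : ℝ) ^ (40 * m))⁻¹) ^ 3 +
      (LA : ℝ) ^ 4 * 2 ^ 16 * bwTail H ≤
      2 ^ (40 + 9 * H + 3 * β + 120 * m) * ((2 : ℝ) ^ (36 * E))⁻¹ := by
    have a1 := scaled_pow_le 0 (12 * E) (40 * m) 3 (Nat.cast_nonneg LA) hLA'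
    rw [pow_zero, one_mul, show (4 + (3 * H + β + 9) + 0 + 40 * m) * 3 =
      39 + 9 * H + 3 * β + 120 * m by ring, show 12 * E * 3 = 36 * E by ring] at a1
    refine (add_le_add a1 (tail_le (c := 36 * E) (Nat.cast_nonneg LA) hLA' (by omega))).trans ?_
    rw [show 40 + 9 * H + 3 * β + 120 * m = (39 + 9 * H + 3 * β + 120 * m) + 1 by omega,
      pow_succ (2 : ℝ) (39 + 9 * H + 3 * β + 120 * m)]
    have hi : (0 : ℝ) ≤ ((2 : ℝ) ^ (36 * E))⁻¹ := by positivity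
    linarith [le_mul_of_one_le_left hi
      (one_le_pow₀ (M₀ := ℝ) (a := 2) (by norm_num) (n := 39 + 9 * H + 3 * β + 120 * m))]
  have hA' := hA.mono hX.pos hY.pos hηA heA
  have hB' := ratioB hX hY hm (by omega : 4 * m + 10 ≤ H) hovX (by positivity) hA'
  rw [show 48 * 2 ^ (3 * H) * (BX + 1) = padLen h BX from rfl] at hB'
  set L₂ := 2 * padLen h BX + 2 ^ m
  have hL2' : (L₂ : ℝ) ≤ 2 ^ (6 * H + 2 * β + 27) := by
    have : L₂ ≤ 2 ^ (6 * H + 2 * β + 27) := le_trans (Nat.le_succ _) hL2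
    exact_mod_cast this
  have hηB : 2 ^ (10 * m + 30) * ((((2 : ℝ) ^ (30 * m))⁻¹) ^ 2 + ((2 : ℝ) ^ H)⁻¹) ≤
      ((2 : ℝ) ^ (40 * m'))⁻¹ := by
    rw [inv_pow, ← pow_mul]
    have := inv_le_inv_pow (a := 30 * m * 2) (b := H) (by omega)
    calc (2 : ℝ) ^ (10 * m + 30) * (((2 : ℝ) ^ (30 * m * 2))⁻¹ + ((2 : ℝ) ^ H)⁻¹)
        ≤ (2 : ℝ) ^ (10 * m + 30) * (2 * ((2 : ℝ) ^ (30 * m * 2))⁻¹) :=
          mul_le_mul_of_nonneg_left (by linarith) (pow_nonneg zero_le_two _)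
      _ = (2 : ℝ) ^ (10 * m + 30 + 1) * ((2 : ℝ) ^ (30 * m * 2))⁻¹ := by
          rw [pow_succ (2 : ℝ) (10 * m + 30)]; ring
      _ ≤ _ := two_pow_mul_inv (by omega)
  have heB : (16 * (L₂ : ℝ) * (2 ^ (40 + 9 * H + 3 * β + 120 * m) * ((2 : ℝ) ^ (36 * E))⁻¹) /
      ((2 : ℝ) ^ (30 * m))⁻¹) ^ 2 + (L₂ : ℝ) ^ 4 * 2 ^ 16 * bwTail H ≤
      ((2 : ℝ) ^ (12 * E'))⁻¹ := by
    have a1 := (scaled_pow_le (L := (L₂ : ℝ)) (40 + 9 * H + 3 * β + 120 * m) (36 * E) (30 * m) 2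
      (Nat.cast_nonneg L₂) hL2').trans (two_pow_mul_inv (c := 12 * E' + 1) (by omega))
    refine (add_le_add a1 (tail_le (c := 12 * E' + 1) (Nat.cast_nonneg L₂) hL2' (by omega))).trans
      (le_of_eq ?_)
    rw [pow_succ (2 : ℝ) (12 * E'), mul_inv]
    ring
  change Exc (wd X Y (cellMask h BX (winA m))) (wd X Y (cellMask h BX (winB m))) _ _ at hB'
  have hB'' := hB'.mono (isProb_wd hX hY _).pos (isProb_wd hX hY _).pos hηB heB
  rw [nextMask, nextMask, wd_padMask, wd_padMask, wd_wdList, wd_wdList]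
  exact hB''.sandwich (hU.pow _) (hU.pow _)

/-- Length and number of second cells of the new masks. -/
lemma next_sizes {m H β B BX : ℕ} (hB : B = 2 ^ β) (hBX : BX = 2 ^ (3 * H + 2 * β + 18))
    (hm : m ≤ H) {l : List Bool} (hl : l.length = 2 ^ m) :
    (nextMask (2 ^ (3 * H)) B BX β m l).length =
        2 * padLen (2 ^ (2 * β)) B + (2 * padLen (2 ^ (3 * H)) BX + 2 ^ m) *
          (2 * padLen (2 ^ (3 * H)) B + 2 ^ m) ∧
      2 * padLen (2 ^ (2 * β)) B + (2 * padLen (2 ^ (3 * H)) BX + 2 ^ m) *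
          (2 * padLen (2 ^ (3 * H)) B + 2 ^ m) ≤ 2 ^ (9 * H + 3 * β + 37) ∧
      (nextMask (2 ^ (3 * H)) B BX β m l).count true ≤ 2 ^ (6 * H + 2 * β + 27 + m) := by
  obtain ⟨hLA, -, hL2, hN⟩ := sizes hB hBX hm
  set h := 2 ^ (3 * H)
  set L₂ := 2 * padLen h BX + 2 ^ m
  set LA := 2 * padLen h B + 2 ^ m
  set la := cellMask h B (winA m) with hla
  set lb := cellMask h B (winB m) with hlb
  have hlenA : la.length = LA := by rw [hla, cellMask, length_padMask, length_winA]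
  have hlenB : lb.length = LA := by rw [hlb, cellMask, length_padMask, length_winB]
  have hcA : la.count true ≤ 2 ^ m := by
    rw [hla, cellMask, count_padMask]; exact (List.count_le_length).trans (length_winA m).le
  have hcB : lb.count true ≤ 2 ^ m := by
    rw [hlb, cellMask, count_padMask]; exact (List.count_le_length).trans (length_winB m).le
  refine ⟨?_, ?_, ?_⟩
  · rw [nextMask, length_padMask, wdList_length (by rw [← hla, ← hlb, hlenA, hlenB]), ← hla, hlenA,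
      cellMask, length_padMask, hl]
  · have h1 : L₂ * LA ≤ 2 ^ (6 * H + 2 * β + 27) * 2 ^ (3 * H + β + 9) :=
      Nat.mul_le_mul (le_trans (Nat.le_succ _) hL2) hLA
    rw [← pow_add, show 6 * H + 2 * β + 27 + (3 * H + β + 9) = 9 * H + 3 * β + 36 by omega] at h1
    have h2 : 2 * padLen (2 ^ (2 * β)) B ≤ 2 ^ (9 * H + 3 * β + 36) :=
      hN.trans (Nat.pow_le_pow_right (by norm_num) (by omega))
    rw [pow_succ 2 (9 * H + 3 * β + 36)]
    omega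
  · rw [nextMask, count_padMask, pow_add]
    refine (count_wdList hcA hcB _).trans (Nat.mul_le_mul_right _ ?_)
    rw [cellMask, length_padMask, hl]
    exact le_trans (Nat.le_succ _) hL2

/-- Overlap of the first cell. -/
lemma overlap_cell {U' V' : Alg} (hU' : IsProb U') (hV' : IsProb V') {m H β B BX E : ℕ}
    (hov' : nrm (U' ^ (B + 1) - U' ^ B) ≤ 1) (hB : B = 2 ^ β)
    (hBX : BX = 2 ^ (3 * H + 2 * β + 18)) (hm : m ≤ H) (hsize : 3 * H + 2 * β + m + 27 ≤ E)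
    (hd' : nrm (V' - U') ≤ 2 ^ 5 * ((2 : ℝ) ^ E)⁻¹) :
    nrm (wd U' V' (cellMask (2 ^ (3 * H)) B (winA m)) ^ (BX + 1) -
      wd U' V' (cellMask (2 ^ (3 * H)) B (winA m)) ^ BX) ≤ 1 := by
  obtain ⟨-, hBX', -, -⟩ := sizes hB hBX hm
  set h := 2 ^ (3 * H)
  set LA := 2 * padLen h B + 2 ^ m
  set la := cellMask h B (winA m) with hla
  have hlenA : la.length = LA := by rw [hla, cellMask, length_padMask, length_winA]
  have hcA : la.count true ≤ 2 ^ m := by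
    rw [hla, cellMask, count_padMask]; exact (List.count_le_length).trans (length_winA m).le
  set ε := ((2 : ℝ) ^ E)⁻¹ with hεdef
  refine (overlap_of_near hU' (isProb_wd hU' hV' la) (K := LA) (d := 2 ^ (m + 5) * ε) hov' ?_ ?_ ?_
    ?_).trans (by norm_num)
  · have := nrm_wd_pow hU' hV' hd' la
    rw [hlenA] at this
    refine this.trans ?_
    rw [pow_add, mul_assoc]
    exact mul_le_mul_of_nonneg_right (by exact_mod_cast hcA) (by positivity)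
  · refine Nat.mul_pos ?_ (by rw [hBX]; exact Nat.two_pow_pos _)
    exact Nat.lt_of_lt_of_le (Nat.two_pow_pos m) (Nat.le_add_left _ _)
  · have hb : (2 * BX + 1 : ℝ) ≤ 2 ^ (3 * H + 2 * β + 20) := by
      have : 2 * BX + 1 ≤ 2 ^ (3 * H + 2 * β + 20) := by
        rw [hBX, show 3 * H + 2 * β + 20 = (3 * H + 2 * β + 18) + 2 by omega,
          pow_add 2 (3 * H + 2 * β + 18) 2]
        have := Nat.one_le_two_pow (n := 3 * H + 2 * β + 18)
        omega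
      exact_mod_cast this
    refine (mul_le_mul_of_nonneg_right hb (by positivity)).trans ?_
    rw [← mul_assoc, ← pow_add, hεdef]
    exact (two_pow_mul_inv (c := 2) (by omega)).trans (by norm_num)
  · exact hBX'

lemma lin_small {m H E : ℕ} (hH1 : 5 * E ≤ m * H) (hH2 : 70 * m ≤ H) :
    ((2 : ℝ) ^ m * (2 / Real.sqrt (((2 ^ (2 * H) : ℕ) : ℝ) + 1))) ^ m ≤
      (((2 : ℝ) ^ E)⁻¹) ^ 4 := by
  have hsq : (2 : ℝ) ^ H ≤ Real.sqrt (((2 ^ (2 * H) : ℕ) : ℝ) + 1) := by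
    refine Real.le_sqrt_of_sq_le ?_
    push_cast; rw [← pow_mul, mul_comm H]; linarith
  rw [inv_pow, ← pow_mul]
  have h1 : m * m + m ≤ 2 * (m * m) := by nlinarith
  have h2 : 70 * (m * m) ≤ H * m := by rw [← mul_assoc]; exact Nat.mul_le_mul_right _ hH2
  refine le_trans ?_ (two_pow_mul_inv (a := (m + 1) * m) (d := H * m) (c := E * 4) ?_)
  · rw [show (2 : ℝ) ^ ((m + 1) * m) = ((2 : ℝ) ^ (m + 1)) ^ m from pow_mul _ _ _,
      show ((2 : ℝ) ^ (H * m))⁻¹ = (((2 : ℝ) ^ H)⁻¹) ^ m by rw [pow_mul, inv_pow], ← mul_pow]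
    refine pow_le_pow_left₀ (by positivity) ?_ m
    rw [pow_succ, mul_assoc, ← div_eq_mul_inv]
    gcongr
  · rw [Nat.succ_mul]
    rw [Nat.mul_comm H m] at h2 ⊢
    omega

lemma tail_small {m H E : ℕ} (hH1 : 5 * E ≤ m * H) (hH2 : 70 * m ≤ H) :
    ((2 : ℝ) ^ 2 ^ (3 * H))⁻¹ ≤ (((2 : ℝ) ^ E)⁻¹) ^ 6 := by
  rw [inv_pow, ← pow_mul]
  refine inv_le_inv_pow ?_
  rcases Nat.eq_zero_or_pos H with rfl | hpos
  · simp only [mul_zero] at hH1; omega
  have h1 : H * H ≤ 2 ^ H * 2 ^ H := Nat.mul_le_mul Nat.lt_two_pow_self.le Nat.lt_two_pow_self.le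
  have h2 : m * H ≤ H * H := Nat.mul_le_mul_right _ (by omega)
  calc E * 6 ≤ 2 * (m * H) := by omega
    _ ≤ 2 ^ H * (2 ^ H * 2 ^ H) :=
      Nat.mul_le_mul (Nat.le_self_pow hpos.ne' 2) (h2.trans h1)
    _ = 2 ^ (3 * H) := by rw [← pow_add, ← pow_add]; congr 1; omega

lemma hs_small {L : ℕ} {l m E β : ℕ} (hL : L ≤ 2 ^ l) (h : l * 3 + m * 5 + 4 + β ≤ E) :
    ((L : ℝ)) ^ 3 * ((2 : ℝ) ^ m) ^ 5 * (2 ^ 4 * ((2 : ℝ) ^ E)⁻¹) ≤ (Real.sqrt (2 ^ β))⁻¹ := by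
  have h1 : (L : ℝ) ≤ 2 ^ l := by exact_mod_cast hL
  calc (L : ℝ) ^ 3 * ((2 : ℝ) ^ m) ^ 5 * (2 ^ 4 * ((2 : ℝ) ^ E)⁻¹)
      ≤ (2 ^ l) ^ 3 * ((2 : ℝ) ^ m) ^ 5 * (2 ^ 4 * ((2 : ℝ) ^ E)⁻¹) := by gcongr
    _ = 2 ^ (l * 3 + m * 5 + 4) * ((2 : ℝ) ^ E)⁻¹ := by
        rw [← pow_mul, ← pow_mul, pow_add, pow_add]; ring
    _ ≤ ((2 : ℝ) ^ β)⁻¹ := two_pow_mul_inv h
    _ ≤ _ := inv_anti₀ (by positivity) (Real.sqrt_le_iff.2 ⟨by positivity, by
        rw [sq]; exact le_mul_of_one_le_left (by positivity) (one_le_pow₀ (by norm_num))⟩)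

lemma bad_small {L : ℕ} {l m E c : ℕ} (hL : L ≤ 2 ^ l)
    (h : ((l + m) * 3 + 12) * 8 + c ≤ 16 * E) :
    (((L * 2 ^ m : ℕ) : ℝ) ^ 3 * (16 * (2 ^ 4 * ((2 : ℝ) ^ E)⁻¹) ^ 2)) ^ 8 ≤ ((2 : ℝ) ^ c)⁻¹ := by
  refine le_trans ?_ (two_pow_mul_inv h)
  have e : (16 : ℝ) * (2 ^ 4 * ((2 : ℝ) ^ E)⁻¹) ^ 2 = 2 ^ 12 * ((2 : ℝ) ^ (E * 2))⁻¹ := by
    rw [mul_pow, inv_pow, ← pow_mul, ← pow_mul]
    norm_num
    ring
  have h1 : ((L * 2 ^ m : ℕ) : ℝ) ≤ 2 ^ (l + m) := by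
    rw [pow_add]
    exact_mod_cast Nat.mul_le_mul_right (2 ^ m) hL
  rw [e]
  calc (((L * 2 ^ m : ℕ) : ℝ) ^ 3 * ((2 : ℝ) ^ 12 * ((2 : ℝ) ^ (E * 2))⁻¹)) ^ 8
      ≤ (((2 : ℝ) ^ (l + m)) ^ 3 * ((2 : ℝ) ^ 12 * ((2 : ℝ) ^ (E * 2))⁻¹)) ^ 8 := by gcongr
    _ = _ := by
        rw [← pow_mul, ← mul_assoc, ← pow_add, mul_pow, inv_pow, ← pow_mul, ← pow_mul,
          show E * 2 * 8 = 16 * E by omega]

lemma sq_gain (m β E : ℕ) :
    (2 ^ 13 * ((2 : ℝ) ^ m) ^ 6 * (2 ^ 4 * ((2 : ℝ) ^ E)⁻¹) ^ 4 * (Real.sqrt (2 ^ β))⁻¹) ^ 2 =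
      2 ^ ((29 + 6 * m) * 2) * ((2 : ℝ) ^ (8 * E + β))⁻¹ := by
  rw [mul_pow _ _ 2, inv_pow (Real.sqrt _), Real.sq_sqrt (by positivity)]
  rw [pow_add _ (8 * E), mul_inv, ← mul_assoc]
  congr 1
  rw [mul_pow _ _ 4, inv_pow, ← pow_mul, ← pow_mul, ← pow_mul, ← mul_assoc, ← pow_add, ← pow_add,
    mul_pow, inv_pow, ← pow_mul, ← pow_mul, show E * 4 * 2 = 8 * E by omega]
  congr 2
  omega

lemma total_small {E' : ℕ} {x y z : ℝ} (hx : x ≤ ((2 : ℝ) ^ (2 * E' + 2))⁻¹)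
    (hy : y ≤ ((2 : ℝ) ^ (2 * E' + 2))⁻¹) (hz : z ≤ ((2 : ℝ) ^ (2 * E' + 2))⁻¹) :
    x + y + z ≤ (((2 : ℝ) ^ E')⁻¹) ^ 2 := by
  have i4 : ((2 : ℝ) ^ (2 * E' + 2))⁻¹ * 4 = (((2 : ℝ) ^ E')⁻¹) ^ 2 := by
    rw [inv_pow, ← pow_mul, mul_comm E', pow_add]; norm_num; ring
  have i5 : (0 : ℝ) ≤ ((2 : ℝ) ^ (2 * E' + 2))⁻¹ := by positivity
  linarith

lemma delta_small {n a b t : ℕ} (hn : n ≤ 2 ^ a) (ht : a + 2 + b = t) {x : ℝ} (hx : 0 ≤ x) :
    (n : ℝ) * (4 * (2 ^ b * x)) ≤ 2 ^ t * x := by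
  have h : (n : ℝ) ≤ 2 ^ a := by exact_mod_cast hn
  refine (mul_le_mul_of_nonneg_right h (by positivity)).trans_eq ?_
  rw [← ht, pow_add, pow_add]
  ring

/-- The weighted distance of the new pair. -/
theorem dist_step {U V : Alg} (hU : IsProb U) (hV : IsProb V) {E E' γ β m H B BX : ℕ}
    (hβ : β = 2 * γ) (hB : B = 2 ^ β) (hBX : BX = 2 ^ (3 * H + 2 * β + 18))
    (hdist : Dev (U - V) (U + V) ((2 : ℝ) ^ E)⁻¹)
    (hexc : Exc U V ((2 : ℝ) ^ (40 * m))⁻¹ ((2 : ℝ) ^ (12 * E))⁻¹)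
    (hov : nrm (U ^ (B + 1) - U ^ B) ≤ 1 / 2)
    (hm0 : 1000 ≤ m) (hEm : 20000 * m ≤ E) (hγ : 40 * γ ≤ E) (hbig : 6 * E ≤ 2 ^ (4 * γ))
    (hH1 : 5 * E ≤ m * H) (hH2 : 70 * m ≤ H) (hH3 : 100 * H ≤ E)
    (hE' : E' = 4 * E + γ - 6 * m - 31) :
    Dev (wd U V (nextMask (2 ^ (3 * H)) B BX β m (winA m)) -
        wd U V (nextMask (2 ^ (3 * H)) B BX β m (winB m)))
      (wd U V (nextMask (2 ^ (3 * H)) B BX β m (winA m)) +
        wd U V (nextMask (2 ^ (3 * H)) B BX β m (winB m))) ((2 : ℝ) ^ E')⁻¹ := by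
  have hmH : m ≤ H := by omega
  have hovsize : 3 * H + 2 * β + m + 27 ≤ E := by omega
  obtain ⟨-, -, hL2, -⟩ := sizes hB hBX hmH
  obtain ⟨hnA, hn', -⟩ := next_sizes hB hBX hmH (length_winA m)
  obtain ⟨hnB, -, -⟩ := next_sizes hB hBX hmH (length_winB m)
  set h := 2 ^ (3 * H) with hh
  set n := 2 * padLen (2 ^ (2 * β)) B + (2 * padLen h BX + 2 ^ m) * (2 * padLen h B + 2 ^ m)
  set ε := ((2 : ℝ) ^ E)⁻¹ with hεdef
  -- the truncated pair
  set η := ((2 : ℝ) ^ (40 * m))⁻¹ with hη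
  set e := ((2 : ℝ) ^ (12 * E))⁻¹ with he
  have heη : e / η = 2 ^ (40 * m) * ((2 : ℝ) ^ (12 * E))⁻¹ := by
    rw [hη, he, div_inv_eq_mul, mul_comm]
  obtain ⟨U', V', T, hdU, hdV⟩ := exists_til hU hV (B := B) (by positivity)
    (show η ≤ 1 / 16 by
      rw [hη, show (1 : ℝ) / 16 = ((2 : ℝ) ^ 4)⁻¹ by norm_num]; exact inv_le_inv_pow (by omega))
    (show ε ≤ 1 / 16 by
      rw [hεdef, show (1 : ℝ) / 16 = ((2 : ℝ) ^ 4)⁻¹ by norm_num]; exact inv_le_inv_pow (by omega))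
    (show e / η ≤ ε by rw [heη]; exact two_pow_mul_inv (by omega))
    hdist hexc hov (by
      have hb : (2 * B + 1 : ℝ) ≤ 2 ^ (β + 2) := by
        rw [pow_add, hB]; push_cast; linarith [one_le_pow₀ (M₀ := ℝ) (a := 2) (by norm_num) (n := β)]
      rw [mul_div_assoc, heη, show (4 : ℝ) = 2 ^ 2 by norm_num]
      refine (mul_le_mul_of_nonneg_right hb (by positivity)).trans ?_
      rw [← mul_assoc, ← mul_assoc, ← pow_add, ← pow_add]
      exact (two_pow_mul_inv (c := 1) (by omega)).trans (by norm_num))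
  rw [mul_div_assoc, heη] at hdU hdV
  set d := 4 * (2 ^ (40 * m) * ((2 : ℝ) ^ (12 * E))⁻¹) with hd
  set ε' := 16 * ε with hε'
  have hVU' : nrm (V' - U') ≤ ε' := by
    refine T.dev.nrm_le.trans ?_
    rw [T.hU.mass_one, Real.sqrt_one, mul_one]
  have hovX' := overlap_cell T.hU T.hV T.overlap hB hBX hmH hovsize
    (hVU'.trans (mul_le_mul_of_nonneg_right (by norm_num) (by positivity)))
  have hεp : ε' = 2 ^ 4 * ((2 : ℝ) ^ E)⁻¹ := by rw [hε', hεdef]; norm_num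
  have hεlow : ε ≤ ε' := le_mul_of_one_le_left (by positivity) (by norm_num)
  -- gain
  have hg := gain T (h := h) (h₁ := 2 ^ (2 * H)) (BX := BX) (β := β)
    (by rw [hεp]; exact (two_pow_mul_inv (c := 0) (by omega)).trans (by norm_num))
    (by
      rw [hh, show 3 * H = H + 2 * H by ring, pow_add]
      exact Nat.mul_le_mul_right _ (le_trans (by omega) Nat.lt_two_pow_self.le))
    ((lin_small hH1 hH2).trans (pow_le_pow_left₀ (by positivity) hεlow 4))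
    ((tail_small hH1 hH2).trans (pow_le_pow_left₀ (by positivity) hεlow 6))
    (by
      refine le_trans ?_ (pow_le_pow_left₀ (by positivity) hεlow 6)
      rw [hεdef, inv_pow, ← pow_mul]
      exact inv_le_inv_pow (by rw [hβ, show 2 * (2 * γ) = 4 * γ by ring]; omega))
    (by
      rw [hη, show (32 : ℝ) = 2 ^ 5 by norm_num, ← pow_mul,
        show (16 : ℝ) = 2 ^ 4 by norm_num, ← mul_assoc, ← pow_add, ← pow_add]
      exact (two_pow_mul_inv (c := 0) (by omega)).trans (by norm_num))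
    (by positivity) hovX'
    (by rw [hεp]; exact hs_small hL2 (by omega))
  set a := 2 ^ 13 * ((2 : ℝ) ^ m) ^ 6 * ε' ^ 4 * (Real.sqrt (2 ^ β))⁻¹ with ha
  set bad := ((((2 * padLen h BX + 2 ^ m) * 2 ^ m : ℕ) : ℝ) ^ 3 * (16 * ε' ^ 2)) ^ 8 with hbad
  have hnlen : ∀ l : List Bool, l.length = 2 ^ m → (nextMask h B BX β m l).length = n :=
    fun l hl => (next_sizes hB hBX hmH hl).1
  have hδ : ∀ l : List Bool, l.length = 2 ^ m →
      nrm (wd U V (nextMask h B BX β m l) - wd U' V' (nextMask h B BX β m l)) ≤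
        2 ^ (9 * H + 3 * β + 39 + 40 * m) * ((2 : ℝ) ^ (12 * E))⁻¹ := fun l hl => by
    refine (nrm_wd_sub hU hV T.hU T.hV hdU hdV _).trans ?_
    rw [hnlen l hl, hd]
    exact delta_small hn' (by omega) (inv_nonneg.2 (pow_nonneg zero_le_two _))
  have ha0 : 0 ≤ a := mul_nonneg (mul_nonneg (mul_nonneg (pow_nonneg zero_le_two _)
    (pow_nonneg (pow_nonneg zero_le_two _) _)) (pow_nonneg T.dev.nonneg _))
    (inv_nonneg.2 (Real.sqrt_nonneg _))
  have hb0 : 0 ≤ bad := pow_nonneg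
    (mul_nonneg (pow_nonneg (Nat.cast_nonneg _) _) (mul_nonneg (by norm_num) (sq_nonneg _))) _
  refine dev_transfer (a := a) (bad := bad) (isProb_wd hU hV _) (isProb_wd hU hV _) ha0 hb0
    (hδ _ (length_winA m)) (hδ _ (length_winB m)) (fun φ hφ => hg φ hφ) (by positivity) ?_
  refine total_small ?_ ?_ ?_
  · rw [ha, hεp, sq_gain]
    exact two_pow_mul_inv (by omega)
  · refine le_trans (mul_le_mul_of_nonneg_right (show (5 : ℝ) ≤ 2 ^ 3 by norm_num) (by positivity)) ?_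
    rw [← mul_assoc, ← pow_add]
    exact two_pow_mul_inv (by omega)
  · rw [hbad, hεp]
    exact bad_small (le_trans (Nat.le_succ _) hL2) (by omega)

/-- One stage. -/
theorem superStage {p : ℝ} (h0 : 0 ≤ p) (h1 : p ≤ 1) {x y : List Bool} {E γ m m' H : ℕ}
    (hi : Inv p x y E (2 * γ) m) (hm : Odd m) (hm0 : 1000 ≤ m) (hEm : 20000 * m ≤ E)
    (hγ : 40 * γ ≤ E) (hbig : 6 * E ≤ 2 ^ (4 * γ)) (hm' : 40 * m' ≤ 48 * m)
    (hH1 : 5 * E ≤ m * H) (hH2 : 70 * m ≤ H) (hH3 : 100 * H ≤ E) :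
    ∃ x' y', Inv p x' y' (4 * E + γ - 6 * m - 31) (4 * (2 * γ) + 9 * H + 46) m' := by
  obtain ⟨β, hβ⟩ : ∃ β, β = 2 * γ := ⟨_, rfl⟩
  rw [← hβ] at hi ⊢
  obtain ⟨E', hE'⟩ : ∃ E', E' = 4 * E + γ - 6 * m - 31 := ⟨_, rfl⟩
  rw [← hE']
  obtain ⟨B, hB⟩ : ∃ B, B = 2 ^ β := ⟨_, rfl⟩
  obtain ⟨BX, hBX⟩ : ∃ B', B' = 2 ^ (3 * H + 2 * β + 18) := ⟨_, rfl⟩
  set U := tr p x with hUdef
  set V := tr p y with hVdef
  have hU : IsProb U := isProb_tr h0 h1 x
  have hV : IsProb V := isProb_tr h0 h1 y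
  have hmH : m ≤ H := by omega
  obtain ⟨hnA, hn', hcnt⟩ := next_sizes hB hBX hmH (length_winA m)
  obtain ⟨hnB, -, -⟩ := next_sizes hB hBX hmH (length_winB m)
  have hov0 : nrm (U ^ (B + 1) - U ^ B) ≤ 1 / 2 := by rw [hB]; exact hi.overlap
  have hovU : nrm (U ^ (B + 1) - U ^ B) ≤ 1 := hov0.trans (by norm_num)
  set ε := ((2 : ℝ) ^ E)⁻¹ with hεdef
  have hVU : nrm (V - U) ≤ 2 * ε := by
    rw [nrm_sub_comm]
    refine hi.dist.nrm_le.trans ?_
    rw [map_add, hU.mass_one, hV.mass_one, mul_comm 2]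
    exact mul_le_mul_of_nonneg_left (Real.sqrt_le_iff.2 ⟨by norm_num, by norm_num⟩) (by positivity)
  have hovX := overlap_cell hU hV hovU hB hBX hmH (E := E) (by omega)
    (hVU.trans (mul_le_mul_of_nonneg_right (by norm_num) (by positivity)))
  set h := 2 ^ (3 * H) with hh
  set n := 2 * padLen (2 ^ (2 * β)) B + (2 * padLen h BX + 2 ^ m) * (2 * padLen h B + 2 ^ m)
  set mA := nextMask h B BX β m (winA m) with hmA
  set mB := nextMask h B BX β m (winB m) with hmB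
  refine ⟨wdList x y mA, wdList x y mB, ?_, ?_, ?_, ?_, ?_, ?_⟩
  · rw [wdList_length hi.len, wdList_length hi.len, hnA, hnB]
  · intro e'
    have e1 := wdList_inj hi.len hi.ne (by rw [hnA, hnB]) e'
    have hinj : ∀ {P : ℕ} {l l' : List Bool}, padMask P l = padMask P l' → l = l' := fun e =>
      List.append_cancel_left (List.append_cancel_right e)
    rw [hmA, hmB, nextMask, nextMask] at e1
    have e2 := wdList_inj (by simp [cellMask, length_padMask, length_winA, length_winB])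
      (fun e => winA_ne m (hinj e)) (by simp [cellMask, length_padMask, length_winA, length_winB])
      (hinj e1)
    exact winA_ne m (hinj e2)
  · rw [wdList_length hi.len, hnA]
    calc n * x.length ≤ 2 ^ (9 * H + 3 * β + 37) * 2 ^ β := Nat.mul_le_mul hn' hi.short
      _ ≤ _ := by rw [← pow_add]; exact Nat.pow_le_pow_right (by norm_num) (by omega)
  · rw [tr_wdList, tr_wdList]
    exact dist_step hU hV hβ hB hBX hi.dist hi.exc hov0 hm0 hEm hγ hbig hH1 hH2 hH3 hE'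
  · rw [tr_wdList, tr_wdList]
    refine exc_step hU hV hm hB hBX hovU hovX hi.exc (by omega) hH2 ?_ hm' (by omega)
    have h1 := cube_le_two_pow H (by omega)
    have h2 : 70 * 1000 * (m * H) ≤ H ^ 3 := by
      rw [show H ^ 3 = H * (H * H) by ring]
      exact Nat.mul_le_mul (by omega) (Nat.mul_le_mul_right _ (by omega))
    have h3 : 2 ^ H = 2 ^ (H - 3) * 2 ^ 3 := by rw [← pow_add]; congr 1; omega
    rw [h3] at h1
    omega
  · rw [tr_wdList]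
    refine overlap_of_near hU (isProb_wd hU hV mA) (K := n)
      (d := 2 ^ (6 * H + 2 * β + 27 + m + 1) * ε) hovU ?_ ?_ ?_ ?_
    · have := nrm_wd_pow hU hV hVU mA
      rw [hnA] at this
      refine this.trans ?_
      rw [pow_succ (2 : ℝ), mul_assoc _ (2 : ℝ)]
      refine mul_le_mul_of_nonneg_right ?_ (by positivity)
      have hc := hcnt
      exact_mod_cast hc
    · refine Nat.mul_pos ?_ (Nat.two_pow_pos _)
      exact Nat.lt_of_lt_of_le (Nat.mul_pos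
        (Nat.lt_of_lt_of_le (Nat.two_pow_pos m) (Nat.le_add_left _ _))
        (Nat.lt_of_lt_of_le (Nat.two_pow_pos m) (Nat.le_add_left _ _))) (Nat.le_add_left _ _)
    · have hb : (2 * ((2 ^ (4 * β + 9 * H + 46) : ℕ) : ℝ) + 1) ≤ 2 ^ (4 * β + 9 * H + 48) := by
        push_cast
        rw [show 4 * β + 9 * H + 48 = (4 * β + 9 * H + 46) + 2 by omega,
          pow_add (2 : ℝ) (4 * β + 9 * H + 46) 2]
        linarith [one_le_pow₀ (M₀ := ℝ) (a := 2) (by norm_num) (n := 4 * β + 9 * H + 46)]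
      refine (mul_le_mul_of_nonneg_right hb (by positivity)).trans ?_
      rw [← mul_assoc, ← pow_add, hεdef]
      exact (two_pow_mul_inv (c := 2) (by omega)).trans (by norm_num)
    · have hB1 : B + 1 ≤ 2 ^ (β + 1) := by
        rw [hB, pow_succ 2 β]; have := Nat.one_le_two_pow (n := β); omega
      calc 256 * n * (B + 1) ≤ 2 ^ 8 * 2 ^ (9 * H + 3 * β + 37) * 2 ^ (β + 1) :=
            Nat.mul_le_mul (Nat.mul_le_mul (by norm_num) hn') hB1
        _ = _ := by rw [← pow_add, ← pow_add]; congr 1; omega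

end Vale.Agent.P321
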