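import Vale.Agent.P321.Stage
import Vale.Agent.P321.Model

/-!
P321, superpolynomial bound: comparison relations in the `ℓ¹` algebra.

* `Dev f ρ a`: the `L²(ρ)` norm of the density `f/ρ` is at most `a`, in dual form.
* `Le1 f g`: `|f| ≤ g` coefficientwise; `Exc U V η e`: `|U - V| ≤ η (U + V)` up to mass `e`.
* `wd U V l`: the product of cells `U`, `V` chosen by the bits of `l`.
-/

open Finset

namespace Vale.Agent.P321

/-! ### Pairing -/

lemma ev_zero (φ : List Bool → ℝ) : ev (0 : Alg) φ = 0 := by simp [ev]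

lemma ev_smul (c : ℝ) (f : Alg) (φ : List Bool → ℝ) : ev (c • f) φ = c * ev f φ := by
  induction f using MonoidAlgebra.induction_linear with
  | zero => simp [ev_zero]
  | add f g hf hg => rw [smul_add, ev_add, hf, hg, ev_add]; ring
  | single a s => rw [MonoidAlgebra.smul_single', ev_single, ev_single]; ring

lemma ev_sum {ι : Type*} (s : Finset ι) (f : ι → Alg) (φ : List Bool → ℝ) :
    ev (∑ i ∈ s, f i) φ = ∑ i ∈ s, ev (f i) φ := by
  classical
  induction s using Finset.induction_on with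
  | empty => simp [ev_zero]
  | insert a s ha ih => rw [Finset.sum_insert ha, Finset.sum_insert ha, ev_add, ih]

lemma ev_mul (f g : Alg) (φ : List Bool → ℝ) :
    ev (f * g) φ = ev f (fun u => ev g (fun v => φ (u ++ v))) := by
  induction f using MonoidAlgebra.induction_linear with
  | zero => simp [ev_zero]
  | add f₁ f₂ h₁ h₂ => rw [add_mul, ev_add, h₁, h₂, ev_add]
  | single a s => rw [ev_single_mul, ev_single]

lemma ev_const (f : Alg) (c : ℝ) : ev f (fun _ => c) = c * mass f := by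
  rw [mass_eq, ev, Finsupp.sum, Finsupp.sum, Finset.mul_sum]
  exact Finset.sum_congr rfl fun w _ => mul_comm _ _

lemma ev_mono {f : Alg} (hf : Pos f) {φ ψ : List Bool → ℝ} (h : ∀ w, φ w ≤ ψ w) :
    ev f φ ≤ ev f ψ :=
  Finset.sum_le_sum fun w _ => mul_le_mul_of_nonneg_left (h _) (hf w)

lemma ev_nonneg {f : Alg} (hf : Pos f) {φ : List Bool → ℝ} (h : ∀ w, 0 ≤ φ w) : 0 ≤ ev f φ :=
  Finset.sum_nonneg fun w _ => mul_nonneg (hf w) (h _)

lemma ev_sq_nonneg {f : Alg} (hf : Pos f) (φ : List Bool → ℝ) : 0 ≤ ev f (φ ^ 2) :=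
  ev_nonneg hf fun w => sq_nonneg (φ w)

lemma ev_le_of_pos {f g : Alg} (h : Pos (g - f)) {φ : List Bool → ℝ} (hφ : ∀ w, 0 ≤ φ w) :
    ev f φ ≤ ev g φ := by
  have := ev_nonneg h hφ
  rw [ev_sub] at this
  linarith

lemma abs_ev_mul_le {ρ : Alg} (hρ : Pos ρ) (φ ψ : List Bool → ℝ) :
    |ev ρ (φ * ψ)| ≤ Real.sqrt (ev ρ (φ ^ 2)) * Real.sqrt (ev ρ (ψ ^ 2)) := by
  rw [← Real.sqrt_mul (ev_sq_nonneg hρ φ), ← Real.sqrt_sq_eq_abs]
  refine Real.sqrt_le_sqrt ?_
  simp only [ev, Finsupp.sum, Pi.mul_apply, Pi.pow_apply]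
  refine Finset.sum_sq_le_sum_mul_sum_of_sq_le_mul _ (fun w _ => ?_) (fun w _ => ?_) (fun w _ => ?_)
  · exact mul_nonneg (hρ w) (sq_nonneg _)
  · exact mul_nonneg (hρ w) (sq_nonneg _)
  · nlinarith

/-! ### Coefficientwise bounds -/

/-- `|f| ≤ g` coefficientwise. -/
def Le1 (f g : Alg) : Prop := ∀ w, |f.coeff w| ≤ g.coeff w

lemma Le1.pos {f g : Alg} (h : Le1 f g) : Pos g := fun w => (abs_nonneg _).trans (h w)

lemma Le1.of_pos {f : Alg} (h : Pos f) : Le1 f f := fun w => (abs_of_nonneg (h w)).le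

lemma Le1.zero : Le1 (0 : Alg) 0 := fun w => by simp

lemma Le1.zero_left {g : Alg} (h : Pos g) : Le1 0 g := fun w => by simpa using h w

lemma Le1.add {f g f' g' : Alg} (h : Le1 f g) (h' : Le1 f' g') : Le1 (f + f') (g + g') :=
  fun w => by simpa using (abs_add_le _ _).trans (add_le_add (h w) (h' w))

lemma Le1.neg {f g : Alg} (h : Le1 f g) : Le1 (-f) g := fun w => by simpa using h w

lemma Le1.sub {f g f' g' : Alg} (h : Le1 f g) (h' : Le1 f' g') : Le1 (f - f') (g + g') := by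
  rw [sub_eq_add_neg]; exact h.add h'.neg

lemma Le1.smul {f g : Alg} (c : ℝ) (h : Le1 f g) : Le1 (c • f) (|c| • g) := fun w => by
  simpa [abs_mul] using mul_le_mul_of_nonneg_left (h w) (abs_nonneg c)

lemma Le1.trans_pos {f g g' : Alg} (h : Le1 f g) (h' : Pos (g' - g)) : Le1 f g' := fun w => by
  have := h' w
  simp only [MonoidAlgebra.coeff_sub, Finsupp.sub_apply, sub_nonneg] at this
  exact (h w).trans this

lemma Le1.sum {ι : Type*} (s : Finset ι) {f g : ι → Alg} (h : ∀ i ∈ s, Le1 (f i) (g i)) :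
    Le1 (∑ i ∈ s, f i) (∑ i ∈ s, g i) := fun w => by
  simp only [MonoidAlgebra.coeff_sum, Finsupp.finsetSum_apply]
  exact (Finset.abs_sum_le_sum_abs _ _).trans (Finset.sum_le_sum fun i hi => h i hi w)

lemma Le1.pos_sub {f g : Alg} (h : Le1 f g) : Pos (g - f) := fun w => by
  simpa using (le_abs_self _).trans (h w)

lemma Le1.pos_add {f g : Alg} (h : Le1 f g) : Pos (g + f) := fun w => by
  simpa using sub_nonneg.2 ((neg_le_abs _).trans (h w))

lemma Le1.mul {f g f' g' : Alg} (h : Le1 f g) (h' : Le1 f' g') : Le1 (f * f') (g * g') := by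
  intro w
  have a := (h.pos_sub.mul h'.pos_add).add (h.pos_add.mul h'.pos_sub)
  have b := (h.pos_sub.mul h'.pos_sub).add (h.pos_add.mul h'.pos_add)
  rw [show (g - f) * (g' + f') + (g + f) * (g' - f') = (2 : ℝ) • (g * g' - f * f') by
    rw [two_smul]; noncomm_ring] at a
  rw [show (g - f) * (g' - f') + (g + f) * (g' + f') = (2 : ℝ) • (g * g' + f * f') by
    rw [two_smul]; noncomm_ring] at b
  have a' := a w
  have b' := b w
  simp only [MonoidAlgebra.coeff_smul, Finsupp.smul_apply, MonoidAlgebra.coeff_sub,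
    Finsupp.sub_apply, MonoidAlgebra.coeff_add, Finsupp.add_apply, smul_eq_mul] at a' b'
  exact abs_le.2 ⟨by linarith, by linarith⟩

lemma Le1.nrm_le {f g : Alg} (h : Le1 f g) : nrm f ≤ mass g := by
  classical
  rw [nrm_eq_sum (f := f) (s := f.coeff.support ∪ g.coeff.support) Finset.subset_union_left,
    mass_eq_sum (f := g) (s := f.coeff.support ∪ g.coeff.support) Finset.subset_union_right]
  exact Finset.sum_le_sum fun w _ => h w

lemma Pos.mass_nonneg {f : Alg} (h : Pos f) : 0 ≤ mass f := by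
  rw [← nrm_of_pos h]; exact nrm_nonneg f

lemma Pos.mass_mono {f g : Alg} (h : Pos (g - f)) : mass f ≤ mass g := by
  have := h.mass_nonneg
  rw [map_sub] at this
  linarith

lemma Pos.zero : Pos (0 : Alg) := fun w => by simp

lemma Pos.sum {ι : Type*} (s : Finset ι) {f : ι → Alg} (h : ∀ i ∈ s, Pos (f i)) :
    Pos (∑ i ∈ s, f i) := fun w => by
  simp only [MonoidAlgebra.coeff_sum, Finsupp.finsetSum_apply]
  exact Finset.sum_nonneg fun i hi => h i hi w

lemma IsProb.mix {f g : Alg} {s : ℝ} (h0 : 0 ≤ s) (h1 : s ≤ 1) (hf : IsProb f) (hg : IsProb g) :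
    IsProb (s • f + (1 - s) • g) :=
  ⟨(hf.pos.smul h0).add (hg.pos.smul (by linarith)), by
    rw [map_add, map_smul, map_smul, hf.mass_one, hg.mass_one]; simp⟩

/-! ### The weighted `L²` relation -/

/-- AM-GM for the cross term of a convex combination. -/
lemma two_mul_le_of {s t A B a b X Y : ℝ} (hs : 0 ≤ s) (ht : 0 ≤ t) (hA : 0 ≤ A) (hB : 0 ≤ B)
    (hX : X ^ 2 ≤ a ^ 2 * A) (hY : Y ^ 2 ≤ b ^ 2 * B) :
    2 * (s * t * (X * Y)) ≤ s * t * (a ^ 2 * B + b ^ 2 * A) := by
  have h1 : 0 ≤ s * t := mul_nonneg hs ht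
  have h2 : (X * Y) ^ 2 ≤ (a ^ 2 * B) * (b ^ 2 * A) := by
    rw [mul_pow, show (a ^ 2 * B) * (b ^ 2 * A) = (a ^ 2 * A) * (b ^ 2 * B) by ring]
    exact mul_le_mul hX hY (sq_nonneg Y) (by positivity)
  have h3 : (2 * (X * Y)) ^ 2 ≤ (a ^ 2 * B + b ^ 2 * A) ^ 2 := by
    nlinarith [sq_nonneg (a ^ 2 * B - b ^ 2 * A)]
  nlinarith [(abs_le_of_sq_le_sq' h3 (by positivity)).2]

/-- `|⟨f, φ⟩| ≤ a ⟨ρ, φ²⟩^{1/2}` for every statistic `φ`. -/
structure Dev (f ρ : Alg) (a : ℝ) : Prop where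
  nonneg : 0 ≤ a
  bound : ∀ φ : List Bool → ℝ, |ev f φ| ≤ a * Real.sqrt (ev ρ (φ ^ 2))

lemma Dev.mono {f ρ : Alg} {a b : ℝ} (h : Dev f ρ a) (hab : a ≤ b) : Dev f ρ b :=
  ⟨h.nonneg.trans hab, fun φ => (h.bound φ).trans
    (mul_le_mul_of_nonneg_right hab (Real.sqrt_nonneg _))⟩

lemma Dev.zero {ρ : Alg} : Dev 0 ρ 0 := ⟨le_rfl, fun φ => by simp [ev_zero]⟩

lemma Dev.self {ρ : Alg} (hρ : IsProb ρ) : Dev ρ ρ 1 := by
  refine ⟨zero_le_one, fun φ => ?_⟩
  have := abs_ev_mul_le hρ.pos φ 1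
  rw [mul_one, one_pow, show ev ρ (1 : List Bool → ℝ) = 1 from (ev_const ρ 1).trans
    (by rw [hρ.mass_one, mul_one]), Real.sqrt_one, mul_one] at this
  rwa [one_mul]

lemma Dev.neg {f ρ : Alg} {a : ℝ} (h : Dev f ρ a) : Dev (-f) ρ a := by
  refine ⟨h.nonneg, fun φ => ?_⟩
  rw [← zero_sub, ev_sub, ev_zero, zero_sub, abs_neg]
  exact h.bound φ

lemma Dev.add {f g ρ : Alg} {a b : ℝ} (h : Dev f ρ a) (h' : Dev g ρ b) :
    Dev (f + g) ρ (a + b) := by
  refine ⟨add_nonneg h.nonneg h'.nonneg, fun φ => ?_⟩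
  rw [ev_add, add_mul]
  exact (abs_add_le _ _).trans (add_le_add (h.bound φ) (h'.bound φ))

lemma Dev.sub {f g ρ : Alg} {a b : ℝ} (h : Dev f ρ a) (h' : Dev g ρ b) :
    Dev (f - g) ρ (a + b) := by rw [sub_eq_add_neg]; exact h.add h'.neg

lemma Dev.smul {f ρ : Alg} {a : ℝ} (c : ℝ) (h : Dev f ρ a) : Dev (c • f) ρ (|c| * a) := by
  refine ⟨mul_nonneg (abs_nonneg _) h.nonneg, fun φ => ?_⟩
  rw [ev_smul, abs_mul, mul_assoc]
  exact mul_le_mul_of_nonneg_left (h.bound φ) (abs_nonneg _)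

lemma Dev.sum {ι : Type*} (s : Finset ι) {f : ι → Alg} {ρ : Alg} {a : ι → ℝ}
    (h : ∀ i ∈ s, Dev (f i) ρ (a i)) : Dev (∑ i ∈ s, f i) ρ (∑ i ∈ s, a i) := by
  classical
  induction s using Finset.induction_on with
  | empty => simpa using Dev.zero
  | insert i s hi ih =>
    rw [Finset.sum_insert hi, Finset.sum_insert hi]
    exact (h i (mem_insert_self _ _)).add (ih fun j hj => h j (mem_insert_of_mem hj))

lemma Dev.mul {f g ρ σ : Alg} {a b : ℝ} (hρ : Pos ρ) (hσ : Pos σ) (h : Dev f ρ a) (h' : Dev g σ b) :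
    Dev (f * g) (ρ * σ) (a * b) := by
  refine ⟨mul_nonneg h.nonneg h'.nonneg, fun φ => ?_⟩
  rw [ev_mul, mul_assoc]
  refine (h.bound _).trans (mul_le_mul_of_nonneg_left ?_ h.nonneg)
  rw [ev_mul, ← Real.sqrt_sq h'.nonneg, ← Real.sqrt_mul (sq_nonneg _), ← ev_smul]
  refine Real.sqrt_le_sqrt ?_
  rw [ev_smul, show b ^ 2 * ev ρ _ = ev ρ fun u => b ^ 2 * ev σ (fun v => (φ ^ 2) (u ++ v)) by
    simp only [ev, Finsupp.sum, Finset.mul_sum]
    exact Finset.sum_congr rfl fun w _ => Finset.sum_congr rfl fun v _ => by ring]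
  refine ev_mono hρ fun u => ?_
  simp only [Pi.pow_apply]
  have hb := h'.bound fun v => φ (u ++ v)
  calc ev g (fun v => φ (u ++ v)) ^ 2 = |ev g (fun v => φ (u ++ v))| ^ 2 := (sq_abs _).symm
    _ ≤ (b * Real.sqrt (ev σ ((fun v => φ (u ++ v)) ^ 2))) ^ 2 :=
        pow_le_pow_left₀ (abs_nonneg _) hb 2
    _ = _ := by rw [mul_pow, Real.sq_sqrt (ev_sq_nonneg hσ _)]; rfl

lemma Dev.of_le {f ρ ρ' : Alg} {a c : ℝ} (hc : 0 ≤ c) (h : Dev f ρ a)
    (hle : Pos (c • ρ' - ρ)) : Dev f ρ' (a * Real.sqrt c) := by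
  refine ⟨mul_nonneg h.nonneg (Real.sqrt_nonneg _), fun φ => (h.bound φ).trans ?_⟩
  rw [mul_assoc, ← Real.sqrt_mul hc, ← ev_smul]
  exact mul_le_mul_of_nonneg_left
    (Real.sqrt_le_sqrt (ev_le_of_pos hle fun w => sq_nonneg (φ w))) h.nonneg

lemma Dev.mix {f g ρ σ : Alg} {a b s : ℝ} (hρ : Pos ρ) (hσ : Pos σ) (hs0 : 0 ≤ s) (hs1 : s ≤ 1)
    (h : Dev f ρ a) (h' : Dev g σ b) :
    Dev (s • f + (1 - s) • g) (s • ρ + (1 - s) • σ)
      (Real.sqrt (s * a ^ 2 + (1 - s) * b ^ 2)) := by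
  have hs : 0 ≤ 1 - s := by linarith
  refine ⟨Real.sqrt_nonneg _, fun φ => ?_⟩
  have hA := ev_sq_nonneg hρ φ
  have hB := ev_sq_nonneg hσ φ
  rw [ev_add, ev_add, ev_smul, ev_smul, ev_smul, ev_smul, ← Real.sqrt_mul (by positivity)]
  refine Real.le_sqrt_of_sq_le ?_
  have e1 := pow_le_pow_left₀ (abs_nonneg _) (h.bound φ) 2
  have e2 := pow_le_pow_left₀ (abs_nonneg _) (h'.bound φ) 2
  rw [mul_pow, Real.sq_sqrt hA, sq_abs] at e1
  rw [mul_pow, Real.sq_sqrt hB, sq_abs] at e2
  rw [sq_abs]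
  set X := ev f φ
  set Y := ev g φ
  set A := ev ρ (φ ^ 2)
  set B := ev σ (φ ^ 2)
  nlinarith [mul_nonneg hs0 hs, mul_le_mul_of_nonneg_left e1 (sq_nonneg s),
    mul_le_mul_of_nonneg_left e2 (sq_nonneg (1 - s)),
    mul_nonneg (mul_nonneg hs0 hs) (sub_nonneg.2 e1), mul_nonneg (mul_nonneg hs0 hs) (sub_nonneg.2 e2),
    two_mul_le_of hs0 hs hA hB e1 e2]

/-- The `ℓ¹` norm is at most the `L²` norm. -/
lemma Dev.nrm_le {f ρ : Alg} {a : ℝ} (h : Dev f ρ a) :
    nrm f ≤ a * Real.sqrt (mass ρ) := by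
  set φ : List Bool → ℝ := fun w => if 0 ≤ f.coeff (FreeMonoid.ofList w) then 1 else -1 with hφ
  have e : ev f φ = nrm f := Finset.sum_congr rfl fun w _ => by
    by_cases hw : 0 ≤ f.coeff w
    · simp [hφ, hw, abs_of_nonneg hw]
    · simp [hφ, hw, abs_of_neg (not_le.1 hw)]
  have e2 : φ ^ 2 = fun _ => 1 := funext fun w => by
    simp only [hφ, Pi.pow_apply]; split_ifs <;> norm_num
  have := h.bound φ
  rw [e, e2, ev_const, one_mul, abs_of_nonneg (nrm_nonneg f)] at this
  exact this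

/-- For `|f| ≤ s` it suffices to test against the bounded statistic `f/s`. -/
lemma dev_of_special {f s : Alg} {a : ℝ} (ha : 0 ≤ a) (hle : Le1 f s)
    (h : ev f (fun w => f.coeff (FreeMonoid.ofList w) / s.coeff (FreeMonoid.ofList w)) ≤ a ^ 2) :
    Dev f s a := by
  classical
  set φ₀ : List Bool → ℝ :=
    fun w => f.coeff (FreeMonoid.ofList w) / s.coeff (FreeMonoid.ofList w) with hφ₀
  have key : ∀ φ : List Bool → ℝ, ev f φ = ev s (φ₀ * φ) := by
    intro φ
    simp only [ev, Finsupp.sum, Pi.mul_apply]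
    rw [Finset.sum_subset (subset_union_left (s₂ := s.coeff.support)),
      Finset.sum_subset (subset_union_right (s₁ := f.coeff.support))
        (f := fun w => s.coeff w * (φ₀ (FreeMonoid.toList w) * φ (FreeMonoid.toList w)))]
    · refine Finset.sum_congr rfl fun w _ => ?_
      rcases eq_or_ne (s.coeff w) 0 with h0 | h0
      · have := hle w
        rw [h0, abs_nonpos_iff] at this
        simp [this, h0]
      · simp [hφ₀, mul_div_assoc', ← mul_assoc, mul_div_cancel_left₀ _ h0]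
    · intro w _ hw
      rw [Finsupp.notMem_support_iff.1 hw, zero_mul]
    · intro w _ hw
      rw [Finsupp.notMem_support_iff.1 hw, zero_mul]
  have e : ev s (φ₀ ^ 2) = ev f φ₀ := by rw [key φ₀, sq]
  refine ⟨ha, fun φ => ?_⟩
  rw [key φ]
  refine (abs_ev_mul_le hle.pos φ₀ φ).trans (mul_le_mul_of_nonneg_right ?_ (Real.sqrt_nonneg _))
  rw [e, Real.sqrt_le_left ha]
  exact h

/-- The bounded test statistic `f/s`. -/
lemma special_le_one {f s : Alg} (hle : Le1 f s) (w : List Bool) :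
    |f.coeff (FreeMonoid.ofList w) / s.coeff (FreeMonoid.ofList w)| ≤ 1 := by
  rcases eq_or_ne (s.coeff (FreeMonoid.ofList w)) 0 with h0 | h0
  · simp [h0]
  · rw [abs_div, abs_of_nonneg (hle.pos _)]
    exact (div_le_one ((hle.pos _).lt_of_ne' h0)).2 (hle _)

/-! ### Products of two cells -/

/-- The product of cells `U` (bit `false`) and `V` (bit `true`). -/
noncomputable def wd (U V : Alg) (l : List Bool) : Alg :=
  (l.map fun b => if b then V else U).prod

@[simp] lemma wd_nil (U V : Alg) : wd U V [] = 1 := by simp [wd]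

@[simp] lemma wd_cons (U V : Alg) (b : Bool) (l : List Bool) :
    wd U V (b :: l) = (if b then V else U) * wd U V l := by simp [wd]

lemma wd_append (U V : Alg) (l l' : List Bool) : wd U V (l ++ l') = wd U V l * wd U V l' := by
  simp [wd]

@[simp] lemma wd_replicate (U V : Alg) (k : ℕ) : wd U V (List.replicate k false) = U ^ k := by
  simp [wd]

lemma isProb_wd {U V : Alg} (hU : IsProb U) (hV : IsProb V) : ∀ l, IsProb (wd U V l)
  | [] => by simpa using IsProb.one
  | b :: l => by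
      rw [wd_cons]
      split_ifs
      · exact hV.mul (isProb_wd hU hV l)
      · exact hU.mul (isProb_wd hU hV l)

/-- The word over two cells. -/
def wdList (x y : List Bool) (l : List Bool) : List Bool :=
  (l.map fun b => if b then y else x).flatten

lemma tr_wdList (p : ℝ) (x y : List Bool) :
    ∀ l, tr p (wdList x y l) = wd (tr p x) (tr p y) l
  | [] => by simp [wdList, tr]
  | b :: l => by
      rw [wd_cons, ← tr_wdList p x y l]
      cases b <;> simp [wdList, tr_append]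

lemma wdList_length {x y : List Bool} (h : x.length = y.length) :
    ∀ l : List Bool, (wdList x y l).length = l.length * x.length
  | [] => by simp [wdList]
  | b :: l => by
      have := wdList_length h l
      cases b <;> simp_all [wdList, Nat.succ_mul, add_comm]

lemma wdList_inj {x y : List Bool} (h : x.length = y.length) (hne : x ≠ y) :
    ∀ {l l' : List Bool}, l.length = l'.length → wdList x y l = wdList x y l' → l = l'
  | [], [], _, _ => rfl
  | b :: l, b' :: l', hl, e => by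
      simp only [wdList, List.map_cons, List.flatten_cons] at e
      have hlen : (if b then y else x).length = (if b' then y else x).length := by
        cases b <;> cases b' <;> simp [h]
      obtain ⟨e1, e2⟩ := List.append_inj e hlen
      rw [wdList_inj h hne (Nat.succ.inj hl) e2]
      cases b <;> cases b' <;> simp_all [eq_comm]

lemma nrm_wd_sub {U V U' V' : Alg} {d : ℝ} (hU : IsProb U) (hV : IsProb V) (hU' : IsProb U')
    (hV' : IsProb V') (hu : nrm (U - U') ≤ d) (hv : nrm (V - V') ≤ d) :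
    ∀ l : List Bool, nrm (wd U V l - wd U' V' l) ≤ l.length * d
  | [] => by simp [nrm_zero]
  | b :: l => by
      have ih := nrm_wd_sub hU hV hU' hV' hu hv l
      have hd : nrm ((if b then V else U) - (if b then V' else U')) ≤ d := by
        cases b <;> simpa
      have hc : IsProb (if b then V' else U') := by cases b <;> assumption
      rw [wd_cons, wd_cons, show (if b then V else U) * wd U V l - (if b then V' else U') *
        wd U' V' l = ((if b then V else U) - (if b then V' else U')) * wd U V l +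
          (if b then V' else U') * (wd U V l - wd U' V' l) by noncomm_ring]
      refine (nrm_add _ _).trans (le_trans (add_le_add
        (((isProb_wd hU hV l).nrm_mul_right _).trans hd) ((hc.nrm_mul_left _).trans ih)) ?_)
      push_cast [List.length_cons]
      linarith

/-! ### Restriction to a set of traces -/

open Classical in
/-- The part of `f` carried by the set `good`. -/
noncomputable def restrict (f : Alg) (good : FreeMonoid Bool → Prop) : Alg :=
  MonoidAlgebra.ofCoeff (f.coeff.filter good)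

open Classical in
lemma coeff_restrict (f : Alg) (good : FreeMonoid Bool → Prop) (w : FreeMonoid Bool) :
    (restrict f good).coeff w = if good w then f.coeff w else 0 := by
  simp [restrict, Finsupp.filter_apply]

lemma Pos.restrict {f : Alg} (h : Pos f) (good : FreeMonoid Bool → Prop) :
    Pos (restrict f good) := fun w => by
  classical
  rw [coeff_restrict]; split_ifs
  · exact h w
  · exact le_rfl

lemma restrict_add_compl (f : Alg) (good : FreeMonoid Bool → Prop) :
    P321.restrict f good + P321.restrict f (fun w => ¬ good w) = f := by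
  classical
  ext w
  simp only [MonoidAlgebra.coeff_add, Finsupp.add_apply, coeff_restrict]
  split_ifs <;> simp

/-- `|U - V| ≤ η (U + V)` up to a remainder of mass at most `e`. -/
def Exc (U V : Alg) (η e : ℝ) : Prop :=
  ∃ r : Alg, Pos r ∧ mass r ≤ e ∧ Le1 (U - V) (η • (U + V) + r)

lemma Exc.symm {U V : Alg} {η e : ℝ} (h : Exc U V η e) : Exc V U η e := by
  obtain ⟨r, h1, h2, h3⟩ := h
  exact ⟨r, h1, h2, by simpa [add_comm V U] using h3.neg⟩

lemma Exc.mono {U V : Alg} {η η' e e' : ℝ} (hU : Pos U) (hV : Pos V) (h : Exc U V η e)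
    (hη : η ≤ η') (he : e ≤ e') : Exc U V η' e' := by
  obtain ⟨r, h1, h2, h3⟩ := h
  refine ⟨r, h1, h2.trans he, h3.trans_pos ?_⟩
  rw [show η' • (U + V) + r - (η • (U + V) + r) = (η' - η) • (U + V) by rw [sub_smul]; abel]
  exact (hU.add hV).smul (sub_nonneg.2 hη)

lemma Exc.sandwich {U V α β : Alg} {η e : ℝ} (hα : IsProb α) (hβ : IsProb β) (h : Exc U V η e) :
    Exc (α * U * β) (α * V * β) η e := by
  obtain ⟨r, h1, h2, h3⟩ := h
  refine ⟨α * r * β, (hα.pos.mul h1).mul hβ.pos, ?_, ?_⟩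
  · rw [map_mul, map_mul, hα.mass_one, hβ.mass_one]; simpa
  · have := ((Le1.of_pos hα.pos).mul h3).mul (Le1.of_pos hβ.pos)
    simpa only [mul_sub, sub_mul, mul_add, add_mul, mul_smul_comm, smul_mul_assoc, smul_add]
      using this

lemma Exc.mix {U V U' V' : Alg} {η e e' s : ℝ} (hs0 : 0 ≤ s) (hs1 : s ≤ 1)
    (h : Exc U V η e) (h' : Exc U' V' η e') :
    Exc (s • U + (1 - s) • U') (s • V + (1 - s) • V') η (s * e + (1 - s) * e') := by
  obtain ⟨r, h1, h2, h3⟩ := h
  obtain ⟨r', h1', h2', h3'⟩ := h'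
  have hs : 0 ≤ 1 - s := by linarith
  refine ⟨s • r + (1 - s) • r', (h1.smul hs0).add (h1'.smul hs), ?_, ?_⟩
  · rw [map_add, map_smul, map_smul, smul_eq_mul, smul_eq_mul]
    exact add_le_add (mul_le_mul_of_nonneg_left h2 hs0) (mul_le_mul_of_nonneg_left h2' hs)
  · have := (h3.smul s).add (h3'.smul (1 - s))
    rw [abs_of_nonneg hs0, abs_of_nonneg hs] at this
    convert this using 1
    · simp only [smul_sub]; abel
    · simp only [smul_add, smul_comm η]; abel

end Vale.Agent.P321
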