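import Vale.Agent.P321.Super.Basic

/-!
P321, superpolynomial bound: two exact tools for products over many cells.

* `dev_masks`: the products of `P` and a mean-zero `D` over the `2^N` patterns are orthogonal
  in `L²(P^N)` (Bessel's inequality, in dual form).
* `pow_le_word`: a power of `U` is at most a constant times a word in `U, V`, up to the event
  that many cells are atypical.
-/

open Finset

namespace Vale.Agent.P321

/-! ### Orthogonality -/

lemma ev_mul_swap (f g : Alg) (φ : List Bool → ℝ) :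
    ev (f * g) φ = ev g (fun v => ev f (fun u => φ (u ++ v))) := by
  rw [ev_mul]
  simp only [ev, Finsupp.sum, Finset.mul_sum]
  rw [Finset.sum_comm]
  exact Finset.sum_congr rfl fun w _ => Finset.sum_congr rfl fun v _ => by ring

/-- The one-cell Bessel inequality. -/
lemma Dev.sq_centred {D P : Alg} {a : ℝ} (hP : IsProb P) (hD : mass D = 0) (h : Dev D P a)
    (φ : List Bool → ℝ) : ev D φ ^ 2 ≤ a ^ 2 * (ev P (φ ^ 2) - ev P φ ^ 2) := by
  set c := ev P φ
  have e : ev D (fun w => φ w - c) = ev D φ := by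
    have hc := ev_const D c
    rw [hD, mul_zero] at hc
    simp only [ev, Finsupp.sum] at hc ⊢
    simp only [mul_sub, Finset.sum_sub_distrib, hc, sub_zero]
  have e2 : ev P ((fun w => φ w - c) ^ 2) = ev P (φ ^ 2) - c ^ 2 := by
    have hc := ev_const P (c ^ 2)
    rw [hP.mass_one, mul_one] at hc
    have hl : ev P (fun w => 2 * c * φ w) = 2 * c * c := by
      simp only [c, ev, Finsupp.sum, Finset.mul_sum]
      exact Finset.sum_congr rfl fun w _ => by ring
    simp only [ev, Finsupp.sum, Pi.pow_apply] at hc hl ⊢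
    rw [show (∑ w ∈ P.coeff.support, P.coeff w * (φ (FreeMonoid.toList w) - c) ^ 2) =
      (∑ w ∈ P.coeff.support, P.coeff w * φ (FreeMonoid.toList w) ^ 2) -
      (∑ w ∈ P.coeff.support, P.coeff w * (2 * c * φ (FreeMonoid.toList w))) +
      ∑ w ∈ P.coeff.support, P.coeff w * c ^ 2 by
        rw [← Finset.sum_sub_distrib, ← Finset.sum_add_distrib]
        exact Finset.sum_congr rfl fun w _ => by ring, hl, hc]
    ring
  have hb := pow_le_pow_left₀ (abs_nonneg _) (h.bound fun w => φ w - c) 2
  rwa [e, sq_abs, mul_pow, Real.sq_sqrt (ev_sq_nonneg hP.pos _), e2] at hb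

/-- One more cell: the two branches are orthogonal. -/
lemma Dev.cons_orth {P D F G σ : Alg} {a A B : ℝ} (hP : IsProb P) (hσ : Pos σ) (hD : mass D = 0)
    (h : Dev D P a) (hF : Dev F σ A) (hG : Dev G σ B) :
    Dev (P * F + D * G) (P * σ) (Real.sqrt (A ^ 2 + a ^ 2 * B ^ 2)) := by
  refine ⟨Real.sqrt_nonneg _, fun φ => ?_⟩
  set ψ : List Bool → ℝ := fun v => ev P fun u => φ (u ++ v) with hψ
  set χ : List Bool → ℝ := fun v => ev D fun u => φ (u ++ v) with hχ
  set S : List Bool → ℝ := fun v => ev P fun u => (φ ^ 2) (u ++ v) with hS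
  have hpt : ∀ v, χ v ^ 2 ≤ a ^ 2 * (S v - ψ v ^ 2) := fun v =>
    h.sq_centred hP hD fun u => φ (u ++ v)
  rw [ev_add, ev_mul_swap P F, ev_mul_swap D G, ev_mul_swap P σ,
    ← Real.sqrt_mul (by positivity)]
  refine Real.le_sqrt_of_sq_le ?_
  rw [sq_abs]
  have hS0 : ∀ v, 0 ≤ S v := fun v => ev_sq_nonneg hP.pos fun u => φ (u ++ v)
  set X := ev σ (ψ ^ 2)
  set Y := ev σ (χ ^ 2)
  have hX : ev F ψ ^ 2 ≤ A ^ 2 * X := by
    simpa [mul_pow, sq_abs, Real.sq_sqrt (ev_sq_nonneg hσ ψ)] using
      pow_le_pow_left₀ (abs_nonneg _) (hF.bound ψ) 2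
  have hY : ev G χ ^ 2 ≤ B ^ 2 * Y := by
    simpa [mul_pow, sq_abs, Real.sq_sqrt (ev_sq_nonneg hσ χ)] using
      pow_le_pow_left₀ (abs_nonneg _) (hG.bound χ) 2
  have hYT : Y + a ^ 2 * X ≤ a ^ 2 * ev σ S := by
    rw [show a ^ 2 * X = ev σ (fun v => a ^ 2 * ψ v ^ 2) by
      simp only [X, ev, Finsupp.sum, Finset.mul_sum, Pi.pow_apply]
      exact Finset.sum_congr rfl fun w _ => by ring,
      show a ^ 2 * ev σ S = ev σ (fun v => a ^ 2 * S v) by
      simp only [ev, Finsupp.sum, Finset.mul_sum]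
      exact Finset.sum_congr rfl fun w _ => by ring]
    simp only [Y, ev, Finsupp.sum, Pi.pow_apply]
    rw [← Finset.sum_add_distrib]
    refine Finset.sum_le_sum fun w _ => ?_
    rw [← mul_add]
    refine mul_le_mul_of_nonneg_left ?_ (hσ w)
    linarith [hpt (FreeMonoid.toList w)]
  have hX0 : 0 ≤ X := ev_sq_nonneg hσ ψ
  have hY0 : 0 ≤ Y := ev_sq_nonneg hσ χ
  have hT0 : 0 ≤ ev σ S := ev_nonneg hσ hS0
  rcases h.nonneg.eq_or_lt with ha | ha
  · rw [← ha] at hYT ⊢
    have : Y = 0 := by linarith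
    rw [this, mul_zero] at hY
    have hg : ev G χ = 0 := by nlinarith
    have hXT : X ≤ ev σ S := by
      refine ev_mono hσ fun v => ?_
      have := (Dev.self hP).bound fun u => φ (u ++ v)
      have h2 := pow_le_pow_left₀ (abs_nonneg _) this 2
      rw [one_mul, sq_abs, Real.sq_sqrt (ev_sq_nonneg hP.pos _)] at h2
      exact h2
    rw [hg, add_zero]
    refine hX.trans ?_
    calc A ^ 2 * X ≤ A ^ 2 * ev σ S := mul_le_mul_of_nonneg_left hXT (sq_nonneg A)
      _ = _ := by ring
  · have hB0 : 0 ≤ A ^ 2 * Y / a ^ 2 := by positivity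
    have hcross : 2 * (ev F ψ * ev G χ) ≤ a ^ 2 * B ^ 2 * X + A ^ 2 * Y / a ^ 2 := by
      have h2 : (2 * (ev F ψ * ev G χ)) ^ 2 ≤ (a ^ 2 * B ^ 2 * X + A ^ 2 * Y / a ^ 2) ^ 2 := by
        have hp : (ev F ψ * ev G χ) ^ 2 ≤ (a ^ 2 * B ^ 2 * X) * (A ^ 2 * Y / a ^ 2) := by
          rw [mul_pow, show (a ^ 2 * B ^ 2 * X) * (A ^ 2 * Y / a ^ 2) =
            (A ^ 2 * X) * (B ^ 2 * Y) by field_simp]
          exact mul_le_mul hX hY (sq_nonneg _) (by positivity)
        nlinarith [sq_nonneg (a ^ 2 * B ^ 2 * X - A ^ 2 * Y / a ^ 2)]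
      exact (abs_le_of_sq_le_sq' h2 (by positivity)).2
    have hdiv : X + Y / a ^ 2 ≤ ev σ S := by
      rw [← sub_nonneg, show ev σ S - (X + Y / a ^ 2) =
        (a ^ 2 * ev σ S - (Y + a ^ 2 * X)) / a ^ 2 by field_simp; ring]
      exact div_nonneg (by linarith) (sq_nonneg a)
    calc (ev F ψ + ev G χ) ^ 2
        = ev F ψ ^ 2 + 2 * (ev F ψ * ev G χ) + ev G χ ^ 2 := by ring
      _ ≤ A ^ 2 * X + (a ^ 2 * B ^ 2 * X + A ^ 2 * Y / a ^ 2) + B ^ 2 * Y := by linarith
      _ = (A ^ 2 + a ^ 2 * B ^ 2) * (X + Y / a ^ 2) := by field_simp; ring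
      _ ≤ _ := mul_le_mul_of_nonneg_left hdiv (by positivity)

/-- Bessel: the masks of a mean-zero cell are orthogonal in `L²(P^N)`. -/
theorem dev_masks {P D : Alg} {a : ℝ} (hP : IsProb P) (hD : mass D = 0) (h : Dev D P a) :
    ∀ (N : ℕ) (c : (Fin N → Bool) → ℝ),
      Dev (∑ l, c l • wd P D (List.ofFn l)) (P ^ N)
        (Real.sqrt (∑ l, c l ^ 2 * (a ^ 2) ^ (List.ofFn l).count true)) := by
  intro N
  induction N with
  | zero =>
    intro c
    have := (Dev.self IsProb.one).smul (c default)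
    convert this using 1 <;>
      simp [Real.sqrt_sq_eq_abs, Unique.eq_default]
  | succ N ih =>
    intro c
    have key := Dev.cons_orth hP (hP.pow N).pos hD h (ih fun l => c (Fin.cons false l))
      (ih fun l => c (Fin.cons true l))
    rw [← pow_succ' P N, Real.sq_sqrt (Finset.sum_nonneg fun l _ => by positivity),
      Real.sq_sqrt (Finset.sum_nonneg fun l _ => by positivity)] at key
    convert key using 1
    · rw [← (Fin.consEquiv fun _ => Bool).sum_comp, Fintype.sum_prod_type, Fintype.sum_bool,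
        Finset.mul_sum, Finset.mul_sum, add_comm]
      simp [List.ofFn_succ, Fin.consEquiv]
    · congr 1
      rw [← (Fin.consEquiv fun _ => Bool).sum_comp, Fintype.sum_prod_type, Fintype.sum_bool,
        Finset.mul_sum, add_comm]
      simp [List.ofFn_succ, pow_succ, mul_comm, Fin.consEquiv]
      exact Finset.sum_congr rfl fun x _ => by ring

/-! ### Pure powers against words -/

/-- The bad set of a cell. -/
def badSet (U P : Alg) (δ : ℝ) : FreeMonoid Bool → Prop :=
  fun w => (1 + δ) * P.coeff w < U.coeff w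

/-- Chebyshev: the bad set is small. -/
lemma mass_badSet_le {U P : Alg} {a δ : ℝ} (hU : IsProb U) (hδ : 0 < δ) (hδ1 : δ ≤ 1)
    (h : Dev (P - U) U a) :
    mass (restrict U (badSet U P δ)) ≤ 4 * a ^ 2 / δ ^ 2 := by
  classical
  set φ : List Bool → ℝ := fun w => if badSet U P δ (FreeMonoid.ofList w) then 1 else 0 with hφ
  set u := mass (restrict U (badSet U P δ))
  set s : Finset (FreeMonoid Bool) := U.coeff.support ∪ P.coeff.support
  have hu : u = ∑ w ∈ s, if badSet U P δ w then U.coeff w else 0 := by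
    refine (mass_eq_sum (s := s) ?_).trans
      (Finset.sum_congr rfl fun w _ => coeff_restrict U _ w)
    intro w hw
    rw [Finsupp.mem_support_iff, coeff_restrict] at hw
    split_ifs at hw
    · exact Finset.mem_union_left _ (Finsupp.mem_support_iff.2 hw)
    · simp at hw
  have hev : ∀ f : Alg, f.coeff.support ⊆ s →
      ev f φ = ∑ w ∈ s, if badSet U P δ w then f.coeff w else 0 := by
    intro f hf
    rw [ev, Finsupp.sum_of_support_subset _ hf _ (by simp)]
    exact Finset.sum_congr rfl fun w _ => by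
      by_cases hw : badSet U P δ w <;> simp [hφ, hw]
  have h2 : ev U (φ ^ 2) = u := by
    have : φ ^ 2 = φ := funext fun w => by simp only [hφ, Pi.pow_apply]; split_ifs <;> norm_num
    rw [this, hev U Finset.subset_union_left, hu]
  have h1 : δ / 2 * u ≤ |ev (P - U) φ| := by
    refine le_trans ?_ (neg_le_abs _)
    rw [ev_sub, hev U Finset.subset_union_left, hev P Finset.subset_union_right, neg_sub, hu,
      ← Finset.sum_sub_distrib, Finset.mul_sum]
    refine Finset.sum_le_sum fun w _ => ?_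
    split_ifs with hw
    · have h0 := hU.pos w
      simp only [badSet] at hw
      rcases le_or_gt (P.coeff w) 0 with hp | hp
      · nlinarith
      · nlinarith [mul_le_mul_of_nonneg_left hw.le hδ.le, mul_le_mul_of_nonneg_right hδ1 hp.le]
    · simp
  have hu0 : 0 ≤ u := (hU.pos.restrict _).mass_nonneg
  have h3 := pow_le_pow_left₀ (mul_nonneg (by linarith) hu0) (h1.trans (h.bound φ)) 2
  rw [mul_pow, mul_pow, Real.sq_sqrt (ev_sq_nonneg hU.pos φ), h2] at h3
  rw [le_div_iff₀ (by positivity)]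
  rcases hu0.eq_or_lt with h0 | h0
  · rw [← h0, zero_mul]; positivity
  · refine le_of_mul_le_mul_right ?_ h0
    linarith

lemma Pos.restrict_le {U P : Alg} {K : ℝ} (S : FreeMonoid Bool → Prop)
    (h : ∀ w, S w → U.coeff w ≤ K * P.coeff w) :
    Pos (K • P321.restrict P S - P321.restrict U S) := fun w => by
  classical
  simp only [MonoidAlgebra.coeff_sub, Finsupp.sub_apply, MonoidAlgebra.coeff_smul,
    Finsupp.smul_apply, smul_eq_mul, coeff_restrict]
  split_ifs with hw
  · linarith [h w hw]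
  · simp

/-- A power of `U` is at most a constant times a word in `U, V`, up to `K+1` atypical cells. -/
theorem pow_le_wd_aux {U V : Alg} {δ c μ : ℝ} (hU : IsProb U) (hV : IsProb V) (hδ : 0 ≤ δ)
    (hc : 1 ≤ c) (hcV : Pos (c • V - U)) (hμ : mass (restrict U (badSet U V δ)) ≤ μ) :
    ∀ (l : List Bool) (k : ℕ),
      ∃ r : Alg, Pos r ∧
        mass r ≤ (1 + δ) ^ l.count true * ((l.count true).choose (k + 1) * μ ^ (k + 1)) ∧
        Pos (((1 + δ) ^ l.count true * c ^ k) • wd U V l + r - U ^ l.length) := by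
  intro l
  induction l with
  | nil =>
    intro k
    refine ⟨0, Pos.zero, by simp, ?_⟩
    rw [List.length_nil, List.count_nil, pow_zero, pow_zero, wd_nil, one_mul, add_zero,
      show c ^ k • (1 : Alg) - 1 = (c ^ k - 1) • (1 : Alg) by rw [sub_smul, one_smul]]
    exact Pos.one.smul (sub_nonneg.2 (one_le_pow₀ hc))
  | cons b l ih =>
    intro k
    set N := l.count true with hN
    set W := U ^ l.length with hW
    set T := wd U V l with hT
    set E := (1 + δ) ^ N
    have hμ0 : 0 ≤ μ := (hU.pos.restrict _).mass_nonneg.trans hμ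
    have hδ1 : (1 : ℝ) ≤ 1 + δ := by linarith
    have hE : 0 ≤ E := pow_nonneg (by linarith) _
    have hWp : IsProb W := hU.pow _
    have hTp : Pos T := (isProb_wd hU hV l).pos
    obtain ⟨r, hr, hrm, hrp⟩ := ih k
    cases b with
    | false =>
      refine ⟨U * r, hU.pos.mul hr, ?_, ?_⟩
      · rw [map_mul, hU.mass_one, one_mul]; simpa using hrm
      · have := hU.pos.mul hrp
        simpa [mul_add, mul_sub, pow_succ', ← hN, ← hT, ← hW] using this
    | true =>
    set B := badSet U V δ
    set G : FreeMonoid Bool → Prop := fun w => ¬ B w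
    set Ug := restrict U G
    set Ub := restrict U B
    set Vg := restrict V G
    set Vb := restrict V B
    have hsU : Ub + Ug = U := restrict_add_compl U B
    have hsV : Vb + Vg = V := restrict_add_compl V B
    have hmVg : mass Vg ≤ 1 := by
      rw [← hV.mass_one]
      refine Pos.mass_mono ?_
      rw [← hsV, add_sub_cancel_right]
      exact hV.pos.restrict B
    have hg : Pos ((1 + δ) • Vg - Ug) := Pos.restrict_le G fun w hw => not_lt.1 hw
    have hb : Pos (c • Vb - Ub) := Pos.restrict_le B fun w _ => by simpa using hcV w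
    have hUb : Pos Ub := hU.pos.restrict B
    have hVg : Pos Vg := hV.pos.restrict G
    have hVb : Pos Vb := hV.pos.restrict B
    have hgood : Pos ((1 + δ) • Vg * ((E * c ^ k) • T + r) - Ug * W) := by
      rw [show (1 + δ) • Vg * ((E * c ^ k) • T + r) - Ug * W =
        (1 + δ) • Vg * ((E * c ^ k) • T + r - W) + ((1 + δ) • Vg - Ug) * W by noncomm_ring]
      exact ((hVg.smul (by linarith)).mul hrp).add (hg.mul hWp.pos)
    have hmgood : mass ((1 + δ) • Vg * r) ≤ (1 + δ) * (E * (N.choose (k + 1) * μ ^ (k + 1))) := by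
      rw [map_mul, map_smul, smul_eq_mul]
      exact mul_le_mul (mul_le_of_le_one_right (by linarith) hmVg) hrm hr.mass_nonneg
        (by linarith)
    rw [List.count_cons_self, List.length_cons, wd_cons, if_pos rfl, ← hN, ← hT,
      pow_succ' U, ← hW, pow_succ (1 + δ) N]
    cases k with
    | zero =>
      refine ⟨(1 + δ) • Vg * r + Ub * W, ((hVg.smul (by linarith)).mul hr).add
        (hUb.mul hWp.pos), ?_, ?_⟩
      · rw [map_add, map_mul mass Ub, hWp.mass_one, mul_one]
        refine (add_le_add hmgood hμ).trans ?_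
        simp only [Nat.choose_one_right, zero_add, pow_one, Nat.cast_add, Nat.cast_one]
        nlinarith [mul_le_mul_of_nonneg_right (one_le_pow₀ (n := N + 1) hδ1) hμ0,
          pow_succ (1 + δ) N]
      · simp only [pow_zero, mul_one] at hgood ⊢
        rw [show (E * (1 + δ)) • (V * T) + ((1 + δ) • Vg * r + Ub * W) - U * W =
          ((1 + δ) • Vg * (E • T + r) - Ug * W) + (E * (1 + δ)) • (Vb * T) by
          rw [← hsU, ← hsV]
          simp only [add_mul, mul_add, smul_add, smul_mul_assoc, mul_smul_comm, smul_smul]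
          module]
        exact hgood.add ((hVb.mul hTp).smul (by positivity))
    | succ j =>
      obtain ⟨r', hr', hr'm, hr'p⟩ := ih j
      refine ⟨(1 + δ) • Vg * r + Ub * r', ((hVg.smul (by linarith)).mul hr).add
        (hUb.mul hr'), ?_, ?_⟩
      · rw [map_add, map_mul mass Ub]
        refine (add_le_add hmgood (mul_le_mul hμ hr'm hr'.mass_nonneg hμ0)).trans ?_
        rw [Nat.choose_succ_succ' N (j + 1)]
        push_cast
        have h1 : 0 ≤ E * ((N.choose (j + 1) : ℝ) * μ ^ (j + 1)) * μ := by positivity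
        rw [pow_succ μ (j + 1)]
        change _ ≤ E * (1 + δ) * _
        linear_combination mul_nonneg h1 hδ
      · have hbad : Pos ((E * c ^ (j + 1)) • (Vb * T) + Ub * r' - Ub * W) := by
          rw [show (E * c ^ (j + 1)) • (Vb * T) + Ub * r' - Ub * W =
            Ub * ((E * c ^ j) • T + r' - W) + (E * c ^ j) • ((c • Vb - Ub) * T) by
            simp only [mul_add, mul_sub, sub_mul, smul_sub, smul_mul_assoc, mul_smul_comm,
              smul_smul, pow_succ, ← mul_assoc]
            abel]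
          exact (hUb.mul hr'p).add ((hb.mul hTp).smul (by positivity))
        rw [show (E * (1 + δ) * c ^ (j + 1)) • (V * T) + ((1 + δ) • Vg * r + Ub * r') - U * W =
          ((1 + δ) • Vg * ((E * c ^ (j + 1)) • T + r) - Ug * W) +
          ((E * c ^ (j + 1)) • (Vb * T) + Ub * r' - Ub * W) +
          (δ * (E * c ^ (j + 1))) • (Vb * T) by
          rw [← hsU, ← hsV]
          simp only [add_mul, mul_add, smul_add, smul_mul_assoc, mul_smul_comm, smul_smul]
          module]
        exact (hgood.add hbad).add ((hVb.mul hTp).smul (by positivity))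

/-- A power of `U` against a word with at most `L` cells `V`. -/
theorem pow_le_word {U V : Alg} {ε η : ℝ} (hU : IsProb U) (hV : IsProb V) (hd : Dev (V - U) U ε)
    (hle : Le1 (V - U) (η • U)) (hη : η ≤ 1 / 4) (L : ℕ) (hL : 1 ≤ L) (l : List Bool)
    (hl : l.count true ≤ L) (K : ℕ) :
    ∃ R, Pos R ∧ mass R ≤ ((L : ℝ) ^ 3 * (16 * ε ^ 2)) ^ (K + 1) ∧
      Pos ((8 * 2 ^ K : ℝ) • wd U V l + R - U ^ l.length) := by
  have hL0 : (1 : ℝ) ≤ L := by exact_mod_cast hL
  set δ : ℝ := 1 / L with hδ
  have hδ0 : 0 < δ := by positivity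
  have hδ1 : δ ≤ 1 := by rw [hδ, div_le_one (by linarith)]; exact hL0
  have hμ := mass_badSet_le hU hδ0 hδ1 hd
  have hcV : Pos ((2 : ℝ) • V - U) := fun w => by
    have h1 := abs_le.1 (hle w)
    have h2 := hU.pos w
    simp only [MonoidAlgebra.coeff_sub, Finsupp.sub_apply, MonoidAlgebra.coeff_smul,
      Finsupp.smul_apply, smul_eq_mul] at h1 ⊢
    nlinarith
  obtain ⟨R, hR, hRm, hRp⟩ := pow_le_wd_aux hU hV hδ0.le one_le_two hcV hμ l K
  have hpow : (1 + δ) ^ l.count true ≤ 4 := by
    refine (pow_le_pow_right₀ (by linarith) hl).trans ?_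
    have h1 : (1 + δ) ^ L ≤ Real.exp (L * δ) := by
      rw [Real.exp_nat_mul]
      exact pow_le_pow_left₀ (by linarith) (by linarith [Real.add_one_le_exp δ]) L
    rw [hδ, mul_one_div_cancel (by linarith : (L : ℝ) ≠ 0)] at h1
    rw [hδ]
    linarith [Real.exp_one_lt_d9]
  refine ⟨R, hR, hRm.trans ?_, ?_⟩
  · have hc : (((l.count true).choose (K + 1) : ℕ) : ℝ) ≤ (L : ℝ) ^ (K + 1) := by
      exact_mod_cast (Nat.choose_le_pow (l.count true) (K + 1)).trans (Nat.pow_le_pow_left hl _)
    calc (1 + δ) ^ l.count true * (((l.count true).choose (K + 1) : ℝ) *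
          (4 * ε ^ 2 / δ ^ 2) ^ (K + 1))
        ≤ 4 ^ (K + 1) * ((L : ℝ) ^ (K + 1) * (4 * ε ^ 2 / δ ^ 2) ^ (K + 1)) := by
          refine mul_le_mul (hpow.trans (le_self_pow₀ (by norm_num) (Nat.succ_ne_zero K)))
            (mul_le_mul_of_nonneg_right hc (by positivity)) (by positivity) (by positivity)
      _ = _ := by
          rw [← mul_pow, ← mul_pow]
          congr 1
          rw [hδ]
          field_simp
          ring
  · have h2 : (1 + δ) ^ l.count true * (2 : ℝ) ^ K ≤ 8 * 2 ^ K :=
      mul_le_mul_of_nonneg_right (by linarith) (by positivity)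
    have := hRp.add ((isProb_wd hU hV l).pos.smul (sub_nonneg.2 h2))
    convert this using 1
    rw [sub_smul]
    abel

end Vale.Agent.P321
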