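import Vale.Agent.P321.Super.Step
import Vale.Agent.P321.Exists

/-!
P321, superpolynomial bound: the iteration from the pair `0`, `1` and the lower bound on the number
of traces at every large length. At stage `k` the length is at most `2^(20 b)` and the distance at
most `2^(-b (k + 400))`, while `b` grows by a factor at most `5`.
-/

namespace Vale.Agent.P321

/-- Number of Thue–Morse levels at stage `k`. -/
def mm (k : ℕ) : ℕ := 10 * (k + 400) ^ 2 + 1

/-- The shift parameter at stage `k` with length exponent `20 b`. -/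
def hh (b k : ℕ) : ℕ := 5 * (b * (k + 400) / mm k + 1) + 70 * mm k

/-- The length exponent at stage `k`, in units of `20`. -/
def bb : ℕ → ℕ
  | 0 => 400 * 401 ^ 3
  | k + 1 => 4 * bb k + hh (bb k) k + 3

lemma odd_mm (k : ℕ) : Odd (mm k) := ⟨5 * (k + 400) ^ 2, by rw [mm]; omega⟩

lemma bb_lower : ∀ k, 200 * (k + 401) ^ 3 ≤ bb k
  | 0 => by norm_num [bb]
  | k + 1 => by
      have ih := bb_lower k
      have h1 : 2 * (k + 1 + 401) ≤ 3 * (k + 401) := by omega
      have h2 := Nat.pow_le_pow_left h1 3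
      rw [mul_pow, mul_pow] at h2
      rw [bb]
      omega

lemma bb_mono : Monotone bb := monotone_nat_of_le_succ fun k => by rw [bb]; omega

lemma succ_le_bb (k : ℕ) : k + 401 ≤ bb k :=
  (Nat.le_self_pow (by norm_num) _).trans ((Nat.le_mul_of_pos_left _ (by norm_num)).trans (bb_lower k))

/-- The numerical side of one stage. -/
lemma params (k : ℕ) :
    20000 * mm k ≤ bb k * (k + 400) ∧ 40 * mm (k + 1) ≤ 48 * mm k ∧
      5 * (bb k * (k + 400)) ≤ mm k * hh (bb k) k ∧ 70 * mm k ≤ hh (bb k) k ∧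
      100 * hh (bb k) k ≤ bb k * (k + 400) ∧
      (hh (bb k) k + 3) * (k + 401) + 6 * mm k + 31 ≤ 6 * bb k ∧ bb (k + 1) ≤ 5 * bb k := by
  set b := bb k with hb
  set m := mm k with hm
  have hlow : 200 * (k + 401) ^ 3 ≤ b := bb_lower k
  have hm1 : 10 * (k + 400) ^ 2 ≤ m := Nat.le_succ _
  have hm0 : 1000 ≤ m := by
    have := Nat.pow_le_pow_left (show 10 ≤ k + 400 by omega) 2
    omega
  have hm2 : m ≤ 11 * (k + 401) ^ 2 := by
    have h := Nat.pow_le_pow_left (show k + 400 ≤ k + 401 by omega) 2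
    have := Nat.one_le_pow 2 (k + 401) (by omega)
    rw [hm, mm]; omega
  have hE : 20000 * m ≤ b * (k + 400) := by
    have h1 : 200 * (k + 401) ^ 3 * 400 ≤ b * (k + 400) := Nat.mul_le_mul hlow (by omega)
    have h2 : 3 * (k + 401) ^ 2 ≤ (k + 401) ^ 3 := by
      rw [pow_succ _ 2, mul_comm 3]; exact Nat.mul_le_mul_left _ (by omega)
    omega
  set q := b * (k + 400) / m with hq
  have hq1 : q * m ≤ b * (k + 400) := Nat.div_mul_le_self _ _
  have hq2 : b * (k + 400) ≤ m * (q + 1) := (Nat.lt_mul_div_succ _ (by omega)).le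
  have hH : hh b k = 5 * (q + 1) + 70 * m := rfl
  have hq3 : q * 1000 ≤ b * (k + 400) := (Nat.mul_le_mul_left q hm0).trans hq1
  have hkey : (hh b k + 3) * (k + 401) + 6 * m + 31 ≤ 6 * b := by
    have h1 : 5 * q * (k + 401) ≤ b := by
      have h3 : q * (10 * (k + 400) ^ 2) ≤ b * (k + 400) := (Nat.mul_le_mul_left q hm1).trans hq1
      have h4 : q * (10 * (k + 400)) * (k + 400) ≤ b * (k + 400) := by linarith
      have h5 := Nat.le_of_mul_le_mul_right h4 (by omega)
      have h6 : q * (k + 401) ≤ q * (2 * (k + 400)) := Nat.mul_le_mul_left _ (by omega)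
      rw [mul_assoc]
      linarith
    have h2 : (70 * m + 8) * (k + 401) + 6 * m + 31 ≤ 5 * b := by
      have a1 := Nat.mul_le_mul_right (k + 401) (show 70 * m + 8 ≤ 778 * (k + 401) ^ 2 by
        have := Nat.one_le_pow 2 (k + 401) (by omega)
        omega)
      have a2 : (k + 401) ^ 2 * (k + 401) = (k + 401) ^ 3 := by ring
      have a3 : (k + 401) ^ 2 ≤ (k + 401) ^ 3 := Nat.pow_le_pow_right (by omega) (by omega)
      have a4 := Nat.one_le_pow 2 (k + 401) (by omega)
      rw [mul_assoc, a2] at a1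
      linarith
    rw [hH]
    calc (5 * (q + 1) + 70 * m + 3) * (k + 401) + 6 * m + 31
        = 5 * q * (k + 401) + ((70 * m + 8) * (k + 401) + 6 * m + 31) := by ring
      _ ≤ b + 5 * b := Nat.add_le_add h1 h2
      _ = 6 * b := by ring
  refine ⟨hE, ?_, ?_, by rw [hH]; omega, by rw [hH]; omega, hkey, ?_⟩
  · rw [hm, mm, mm]
    ring_nf
    omega
  · rw [hH]
    have h1 := Nat.mul_le_mul_left 5 hq2
    calc 5 * (b * (k + 400)) ≤ 5 * (m * (q + 1)) := h1
      _ = m * (5 * (q + 1)) := by ring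
      _ ≤ _ := Nat.mul_le_mul_left _ (Nat.le_add_right _ _)
  · rw [bb, ← hb]
    have := Nat.mul_le_mul_left (hh b k + 3) (show 401 ≤ k + 401 by omega)
    omega

lemma inv_base {p : ℝ} (h0 : 0 ≤ p) {E β m : ℕ} (hp : p ≤ ((2 : ℝ) ^ (12 * E + 2))⁻¹) :
    Inv p [false] [true] E β m := by
  have hone : ((2 : ℝ) ^ (12 * E + 2))⁻¹ ≤ 1 / 4 :=
    (inv_le_inv_pow (a := 2) (by omega)).trans (by norm_num)
  have hp2 : 2 * p ≤ ((2 : ℝ) ^ (12 * E))⁻¹ := by
    rw [pow_add, mul_inv] at hp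
    have : (0 : ℝ) ≤ ((2 : ℝ) ^ (12 * E))⁻¹ := by positivity
    norm_num at hp
    linarith
  have htr : ∀ b, tr p [b] =
      MonoidAlgebra.single 1 (1 - p) + p • MonoidAlgebra.single (FreeMonoid.of b) (1 : ℝ) := fun b => by
    simp [tr, bitT]
  set F : Alg := p • MonoidAlgebra.single (FreeMonoid.of false) (1 : ℝ) with hF
  set T : Alg := p • MonoidAlgebra.single (FreeMonoid.of true) (1 : ℝ) with hT
  have hFp : Pos F := (isProb_single _).pos.smul h0
  have hTp : Pos T := (isProb_single _).pos.smul h0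
  set U := tr p [false] with hUdef
  set V := tr p [true] with hVdef
  have hU : IsProb U := isProb_tr h0 (by linarith) _
  have hV : IsProb V := isProb_tr h0 (by linarith) _
  have hUV : U - V = F - T := by rw [hUdef, hVdef, htr, htr, add_sub_add_left_eq_sub]
  have hle : Le1 (U - V) (F + T) := by rw [hUV]; exact (Le1.of_pos hFp).sub (Le1.of_pos hTp)
  have hmass : mass (F + T) = 2 * p := by
    rw [map_add, map_smul, map_smul, (isProb_single _).mass_one, (isProb_single _).mass_one,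
      smul_eq_mul, mul_one, two_mul]
  refine ⟨rfl, by simp, Nat.one_le_two_pow, ?_, ?_, ?_⟩
  · refine dev_of_special (by positivity) ((Le1.of_pos hU.pos).sub (Le1.of_pos hV.pos)) ?_
    refine (le_abs_self _).trans ((abs_ev_le _ _ (special_le_one
      ((Le1.of_pos hU.pos).sub (Le1.of_pos hV.pos)))).trans ?_)
    refine hle.nrm_le.trans (hmass.le.trans (hp2.trans ?_))
    rw [inv_pow, ← pow_mul]
    exact inv_le_inv_pow (by omega)
  · refine ⟨F + T, hFp.add hTp, hmass.le.trans hp2, hle.trans_pos ?_⟩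
    rw [add_sub_cancel_right]
    exact (hU.pos.add hV.pos).smul (by positivity)
  · refine (overlap_mono hU (Nat.zero_le (2 ^ β))).trans ?_
    rw [zero_add, pow_one, pow_zero, hUdef, htr, MonoidAlgebra.one_def,
      show MonoidAlgebra.single (1 : FreeMonoid Bool) (1 - p) + F - MonoidAlgebra.single 1 (1 : ℝ) =
        MonoidAlgebra.single 1 (-p) + F by
        rw [sub_eq_add_neg, ← MonoidAlgebra.single_neg, add_right_comm, ← MonoidAlgebra.single_add]
        ring_nf]
    refine (nrm_add _ _).trans ?_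
    rw [nrm_single, hF, nrm_smul, nrm_single, abs_neg, abs_one, mul_one, abs_of_nonneg h0]
    linarith

lemma step_exp {E b c m : ℕ} (h : c + 6 * m + 31 ≤ 6 * b) :
    4 * E + 4 * b + c ≤ 4 * E + 10 * b - 6 * m - 31 := by omega

/-- Every stage is reached. -/
theorem inv_chain {p : ℝ} (h0 : 0 ≤ p) (hp : p ≤ ((2 : ℝ) ^ (12 * (bb 0 * 400) + 2))⁻¹) :
    ∀ k, ∃ x y, Inv p x y (bb k * (k + 400)) (20 * bb k) (mm k)
  | 0 => ⟨_, _, inv_base h0 hp⟩
  | k + 1 => by
      have h1 : p ≤ 1 := hp.trans (inv_le_one_of_one_le₀ (one_le_pow₀ (by norm_num)))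
      obtain ⟨x, y, hi⟩ := inv_chain h0 hp k
      obtain ⟨hE, hm', hH1, hH2, hH3, hkey, -⟩ := params k
      have hm0 : 1000 ≤ mm k := by
        have := Nat.pow_le_pow_left (show 10 ≤ k + 400 by omega) 2
        rw [mm]; omega
      have hbig : 6 * (bb k * (k + 400)) ≤ 2 ^ (4 * (10 * bb k)) := by
        have hb := succ_le_bb k
        have h2 : bb k * (k + 400) ≤ 2 ^ bb k * 2 ^ bb k :=
          Nat.mul_le_mul Nat.lt_two_pow_self.le ((show k + 400 ≤ bb k by omega).trans
            Nat.lt_two_pow_self.le)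
        calc 6 * (bb k * (k + 400)) ≤ 2 ^ 3 * (2 ^ bb k * 2 ^ bb k) :=
              Nat.mul_le_mul (by norm_num) h2
          _ ≤ _ := by rw [← pow_add, ← pow_add]; exact Nat.pow_le_pow_right (by norm_num) (by omega)
      obtain ⟨x', y', hi'⟩ := superStage h0 h1 (γ := 10 * bb k)
        (by rw [show 2 * (10 * bb k) = 20 * bb k by ring]; exact hi) (odd_mm k) hm0 hE
        (by rw [← mul_assoc, Nat.mul_comm (bb k)]; exact Nat.mul_le_mul_right _ (by omega))
        hbig hm' hH1 hH2 hH3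
      refine ⟨x', y', hi'.mono h0 h1 ?_ (by rw [bb]; omega) le_rfl⟩
      have e : bb (k + 1) * (k + 1 + 400) =
          4 * (bb k * (k + 400)) + 4 * bb k + (hh (bb k) k + 3) * (k + 401) := by rw [bb]; ring
      rw [e]
      exact step_exp hkey

/-- At every fixed deletion probability close enough to one, no polynomial number of traces
suffices. -/
theorem superpoly_lower : ∃ q₀ : ℝ, q₀ < 1 ∧ ∀ q : ℝ, q₀ ≤ q → q < 1 → ∀ R : ℕ,
    ∃ N : ℕ, ∀ n ≥ N, ∀ m : ℕ, Reconstructs q n m → (n : ℝ) ^ R ≤ m := by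
  obtain ⟨e₀, he₀⟩ : ∃ e, e = 12 * (bb 0 * 400) + 2 := ⟨_, rfl⟩
  have hp0 : (0 : ℝ) < ((2 : ℝ) ^ e₀)⁻¹ := by positivity
  refine ⟨max (1 - ((2 : ℝ) ^ e₀)⁻¹) 0, max_lt (by linarith) one_pos, fun q hq hq1 R =>
    ⟨2 ^ (20 * bb (100 * R)), fun n hn m hm => ?_⟩⟩
  have hq0 : 0 ≤ q := le_of_max_le_right hq
  have hpp : 1 - q ≤ ((2 : ℝ) ^ e₀)⁻¹ := by have := le_of_max_le_left hq; linarith
  have hex : ∃ j, n < 2 ^ (20 * bb j) := ⟨n, Nat.lt_of_lt_of_le n.lt_two_pow_self
    (Nat.pow_le_pow_right two_pos (by have := succ_le_bb n; omega))⟩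
  have hj : 100 * R < Nat.find hex := by
    by_contra hc
    have h1 := Nat.find_spec hex
    have h2 := Nat.pow_le_pow_right (show 0 < 2 by norm_num)
      (Nat.mul_le_mul_left 20 (bb_mono (not_lt.1 hc)))
    omega
  obtain ⟨k, hk⟩ : ∃ k, Nat.find hex = k + 1 := ⟨Nat.find hex - 1, by omega⟩
  have hlow : 2 ^ (20 * bb k) ≤ n := le_of_not_gt (Nat.find_min hex (by omega))
  have hup : n < 2 ^ (20 * bb (k + 1)) := hk ▸ Nat.find_spec hex
  obtain ⟨x, y, hi⟩ := inv_chain (by linarith : (0 : ℝ) ≤ 1 - q) (he₀ ▸ hpp) k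
  clear hpp hp0 hq he₀
  set z : List Bool := List.replicate (n - x.length) false with hz
  have hlx := hi.short
  have hlen := hi.len
  have hln : (x ++ z).length = n := by simp [z]; omega
  have hlny : (y ++ z).length = n := by simp [z]; omega
  obtain ⟨u, hu⟩ : ∃ u : Fin n → Bool, List.ofFn u = x ++ z :=
    ⟨fun i => (x ++ z).get (i.cast hln.symm), List.ext_getElem (by simp [hln]) (by simp)⟩
  obtain ⟨v, hv⟩ : ∃ v : Fin n → Bool, List.ofFn v = y ++ z :=
    ⟨fun i => (y ++ z).get (i.cast hlny.symm), List.ext_getElem (by simp [hlny]) (by simp)⟩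
  have huv : u ≠ v := fun e => hi.ne (List.append_cancel_right (by rw [← hu, ← hv, e]))
  set E := bb k * (k + 400)
  have hnrm : nrm (tr (1 - q) x - tr (1 - q) y) ≤ 2 * ((2 : ℝ) ^ E)⁻¹ := by
    refine hi.dist.nrm_le.trans ?_
    rw [map_add, (isProb_tr (by linarith) (by linarith) x).mass_one,
      (isProb_tr (by linarith) (by linarith) y).mass_one, mul_comm 2]
    exact mul_le_mul_of_nonneg_left (Real.sqrt_le_iff.2 ⟨by norm_num, by norm_num⟩) (by positivity)
  have h13 := le_mul_of_reconstructs hq0 hq1.le hm _ _ huv (ε := 2 * ((2 : ℝ) ^ E)⁻¹) fun φ h0 h1 => by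
    rw [hu, hv, Ex_append, Ex_append]
    refine (Ex_close x y _ (fun w => ?_) fun w => ?_).trans hnrm
    · exact (Ex_mem (by linarith) (by linarith) z (fun u => h0 _) fun u => h1 _).1
    · exact (Ex_mem (by linarith) (by linarith) z (fun u => h0 _) fun u => h1 _).2
  have hbb := (params k).2.2.2.2.2.2
  have hexp : 20 * bb (k + 1) * R + 3 ≤ E := by
    have h1 := succ_le_bb k
    calc 20 * bb (k + 1) * R + 3 ≤ 20 * (5 * bb k) * R + bb k * 400 :=
          Nat.add_le_add (Nat.mul_le_mul_right _ (Nat.mul_le_mul_left _ hbb)) (by omega)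
      _ = bb k * (100 * R + 400) := by ring
      _ ≤ E := Nat.mul_le_mul_left _ (by omega)
  have hpow : (n : ℝ) ^ R * 2 ^ 3 ≤ 2 ^ E := by
    refine le_trans ?_ (pow_le_pow_right₀ one_le_two hexp)
    rw [pow_add, pow_mul]
    refine mul_le_mul_of_nonneg_right (pow_le_pow_left₀ (Nat.cast_nonneg n) ?_ R) (pow_nonneg zero_le_two 3)
    exact_mod_cast hup.le
  have hE0 : (0 : ℝ) < 2 ^ E := by positivity
  have h6 : (2 : ℝ) ^ E ≤ 6 * m := by
    rw [← mul_assoc, ← div_eq_mul_inv, div_le_div_iff₀ (by norm_num) hE0] at h13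
    linarith
  have : (0 : ℝ) ≤ (n : ℝ) ^ R := pow_nonneg (Nat.cast_nonneg n) R
  norm_num at hpow
  linarith

/-- Superpolynomial sample complexity at every fixed deletion probability close enough to one. -/
theorem sampleComplexity_superpoly : ∃ q₀ : ℝ, q₀ < 1 ∧ ∀ q : ℝ, q₀ ≤ q → q < 1 → ∀ R : ℕ,
    ∃ N : ℕ, ∀ n ≥ N, (n : ℝ) ^ R ≤ sampleComplexity q n := by
  obtain ⟨q₀, h₀, h⟩ := superpoly_lower
  refine ⟨max q₀ 0, max_lt h₀ one_pos, fun q hq hq1 R => ?_⟩
  obtain ⟨N, hN⟩ := h q (le_of_max_le_left hq) hq1 R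
  exact ⟨N, fun n hn =>
    hN n hn _ (Nat.sInf_mem (reconstructs_exists (le_of_max_le_right hq) hq1 n))⟩

end Vale.Agent.P321
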