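import Vale.Agent.P321.Super.Bessel

/-!
P321, superpolynomial bound: Bessel's inequality for monomials in a probability cell `P` and a
mean-zero cell `D`, and families of such monomials.
-/

open Finset

namespace Vale.Agent.P321

/-- Weight of a pair of masks in the Gram sum. -/
noncomputable def gram (ε : ℝ) {ι : Type*} (s : Finset ι) (c : ι → ℝ) (S : ι → List Bool) : ℝ :=
  ∑ k ∈ s, ∑ k' ∈ s, if S k = S k' then c k * c k' * ε ^ (2 * (S k).count true) else 0

lemma gram_split {ε : ℝ} {ι : Type*} (s : Finset ι) (c : ι → ℝ) (S : ι → List Bool)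
    (hne : ∀ k ∈ s, S k ≠ []) :
    gram ε s c S =
      gram ε (s.filter fun k => ¬ (S k).head? = some true) c (fun k => (S k).tail) +
      ε ^ 2 * gram ε (s.filter fun k => (S k).head? = some true) c (fun k => (S k).tail) := by
  classical
  simp only [gram, Finset.mul_sum, Finset.sum_filter, ← Finset.sum_add_distrib]
  refine Finset.sum_congr rfl fun k hk => ?_
  obtain ⟨b, T, hT⟩ := List.exists_cons_of_ne_nil (hne k hk)
  by_cases hb : b = true
  · subst hb
    simp only [hT, List.head?_cons, not_true_eq_false, if_false, if_true, List.tail_cons,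
      zero_add, Finset.mul_sum, mul_ite, mul_zero]
    refine Finset.sum_congr rfl fun k' hk' => ?_
    obtain ⟨b', T', hT'⟩ := List.exists_cons_of_ne_nil (hne k' hk')
    cases b' <;> simp [hT']
    split_ifs with h
    · subst h; ring
    · rfl
  · have : b = false := by simpa using hb
    subst this
    simp only [hT, List.head?_cons, Option.some.injEq, Bool.false_eq_true, not_false_eq_true,
      if_false, if_true, List.tail_cons, mul_zero, add_zero]
    refine Finset.sum_congr rfl fun k' hk' => ?_
    obtain ⟨b', T', hT'⟩ := List.exists_cons_of_ne_nil (hne k' hk')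
    cases b' <;> simp [hT']

/-- **Bessel.** Monomials with different masks are orthogonal. -/
theorem dev_gram {P D : Alg} {ε : ℝ} (hP : IsProb P) (hD : Dev D P ε) (hD0 : mass D = 0) :
    ∀ (N : ℕ) {ι : Type} (s : Finset ι) (c : ι → ℝ) (S : ι → List Bool),
      (∀ k ∈ s, (S k).length = N) →
      0 ≤ gram ε s c S ∧
        Dev (∑ k ∈ s, c k • wd P D (S k)) (P ^ N) (Real.sqrt (gram ε s c S)) := by
  classical
  intro N
  induction N with
  | zero =>
    intro ι s c S hS
    have hnil : ∀ k ∈ s, S k = [] := fun k hk => List.length_eq_zero_iff.1 (hS k hk)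
    have hg : gram ε s c S = (∑ k ∈ s, c k) ^ 2 := by
      rw [sq, Finset.sum_mul_sum, gram]
      refine Finset.sum_congr rfl fun k hk => Finset.sum_congr rfl fun k' hk' => ?_
      simp [hnil k hk, hnil k' hk']
    refine ⟨hg ▸ sq_nonneg _, ?_⟩
    rw [hg, Real.sqrt_sq_eq_abs, pow_zero,
      Finset.sum_congr rfl (fun k hk => by rw [hnil k hk, wd_nil] :
        ∀ k ∈ s, c k • wd P D (S k) = c k • (1 : Alg)), ← Finset.sum_smul]
    simpa using (Dev.self IsProb.one).smul (∑ k ∈ s, c k)
  | succ N ih =>
    intro ι s c S hS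
    have hne : ∀ k ∈ s, S k ≠ [] := fun k hk h => by simpa [h] using hS k hk
    set s₁ := s.filter fun k => (S k).head? = some true
    set s₀ := s.filter fun k => ¬ (S k).head? = some true
    have hl : ∀ t ⊆ s, ∀ k ∈ t, (S k).tail.length = N := fun t ht k hk => by
      simp [hS k (ht hk)]
    obtain ⟨g₀, d₀⟩ := ih s₀ c (fun k => (S k).tail) (hl s₀ (Finset.filter_subset _ _))
    obtain ⟨g₁, d₁⟩ := ih s₁ c (fun k => (S k).tail) (hl s₁ (Finset.filter_subset _ _))
    have hsum : ∑ k ∈ s, c k • wd P D (S k) =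
        P * ∑ k ∈ s₀, c k • wd P D (S k).tail + D * ∑ k ∈ s₁, c k • wd P D (S k).tail := by
      simp only [s₀, s₁, Finset.mul_sum, Finset.sum_filter, ← Finset.sum_add_distrib]
      refine Finset.sum_congr rfl fun k hk => ?_
      obtain ⟨b, T, hT⟩ := List.exists_cons_of_ne_nil (hne k hk)
      cases b <;> simp [hT]
    rw [gram_split s c S hne, hsum]
    refine ⟨add_nonneg g₀ (mul_nonneg (sq_nonneg ε) g₁), ?_⟩
    have := Dev.cons_orth hP (hP.pow N).pos hD0 hD d₀ d₁
    rw [Real.sq_sqrt g₀, Real.sq_sqrt g₁, ← pow_succ'] at this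
    exact this

/-- A signed sum of at most `J` monomials, each of length `N` with `r` letters `D`. -/
def Comb (P D : Alg) (N r J : ℕ) (F : Alg) : Prop :=
  ∃ l : List (ℝ × List Bool), l.length ≤ J ∧
    (∀ e ∈ l, |e.1| ≤ 1 ∧ e.2.length = N ∧ e.2.count true = r) ∧
    F = (l.map fun e => e.1 • wd P D e.2).sum

lemma Comb.mono {P D F : Alg} {N r J J' : ℕ} (h : Comb P D N r J F) (hJ : J ≤ J') :
    Comb P D N r J' F := by
  obtain ⟨l, h1, h2, h3⟩ := h
  exact ⟨l, h1.trans hJ, h2, h3⟩

lemma Comb.zero {P D : Alg} {N r J : ℕ} : Comb P D N r J 0 := ⟨[], by simp, by simp, by simp⟩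

lemma Comb.add {P D F G : Alg} {N r J J' : ℕ} (h : Comb P D N r J F) (h' : Comb P D N r J' G) :
    Comb P D N r (J + J') (F + G) := by
  obtain ⟨l, h1, h2, h3⟩ := h
  obtain ⟨l', h1', h2', h3'⟩ := h'
  refine ⟨l ++ l', by simp; omega, fun e he => ?_, by simp [h3, h3']⟩
  rcases List.mem_append.1 he with he | he
  · exact h2 e he
  · exact h2' e he

lemma Comb.neg {P D F : Alg} {N r J : ℕ} (h : Comb P D N r J F) : Comb P D N r J (-F) := by
  obtain ⟨l, h1, h2, h3⟩ := h
  refine ⟨l.map fun e => (-e.1, e.2), by simpa using h1, fun e he => ?_, ?_⟩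
  · obtain ⟨e', he', rfl⟩ := List.mem_map.1 he
    simpa using h2 e' he'
  · rw [h3, List.sum_neg, List.map_map, List.map_map]
    simp [Function.comp_def]

lemma Comb.sub {P D F G : Alg} {N r J J' : ℕ} (h : Comb P D N r J F) (h' : Comb P D N r J' G) :
    Comb P D N r (J + J') (F - G) := by rw [sub_eq_add_neg]; exact h.add h'.neg

lemma Comb.mask (P D : Alg) (S : List Bool) :
    Comb P D S.length (S.count true) 1 (wd P D S) :=
  ⟨[(1, S)], by simp, by simp, by simp⟩

lemma Comb.pow (P D : Alg) (k : ℕ) : Comb P D k 0 1 (P ^ k) := by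
  simpa [List.count_replicate] using Comb.mask P D (List.replicate k false)

lemma Comb.mul {P D F G : Alg} {N N' r r' J J' : ℕ} (h : Comb P D N r J F)
    (h' : Comb P D N' r' J' G) : Comb P D (N + N') (r + r') (J * J') (F * G) := by
  obtain ⟨l, h1, h2, h3⟩ := h
  obtain ⟨l', h1', h2', h3'⟩ := h'
  refine ⟨l.flatMap fun e => l'.map fun e' => (e.1 * e'.1, e.2 ++ e'.2), ?_, fun e he => ?_, ?_⟩
  · simp only [List.length_flatMap, List.length_map, List.map_const', List.sum_replicate,
      smul_eq_mul]
    exact Nat.mul_le_mul h1 h1'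
  · simp only [List.mem_flatMap, List.mem_map] at he
    obtain ⟨a, ha, b, hb, rfl⟩ := he
    obtain ⟨a1, a2, a3⟩ := h2 a ha
    obtain ⟨b1, b2, b3⟩ := h2' b hb
    exact ⟨by rw [abs_mul]; exact mul_le_one₀ a1 (abs_nonneg _) b1, by simp [a2, b2],
      by simp [a3, b3]⟩
  · subst h3; subst h3'
    clear h1 h1' h2 h2'
    induction l with
    | nil => simp
    | cons e l ih =>
      rw [List.map_cons, List.sum_cons, List.flatMap_cons, List.map_append, List.sum_append,
        add_mul, ih, ← List.sum_map_mul_left, List.map_map]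
      congr 2
      refine List.map_congr_left fun e' _ => ?_
      simp [wd_append, smul_smul, mul_comm]

/-- Crude bound by the triangle inequality. -/
lemma Comb.dev {P D F : Alg} {N r J : ℕ} {ε : ℝ} (hP : IsProb P) (hD : Dev D P ε)
    (h : Comb P D N r J F) : Dev F (P ^ N) (J * ε ^ r) := by
  have hw : ∀ S : List Bool, Dev (wd P D S) (P ^ S.length) (ε ^ S.count true) := by
    intro S
    induction S with
    | nil => simpa using Dev.self IsProb.one
    | cons b S ih =>
      rw [wd_cons, List.length_cons, pow_succ']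
      cases b
      · simpa using (Dev.self hP).mul hP.pos (hP.pow _).pos ih
      · simpa [pow_succ'] using hD.mul hP.pos (hP.pow _).pos ih
  obtain ⟨l, h1, h2, rfl⟩ := h
  have : ∀ l : List (ℝ × List Bool), (∀ e ∈ l, |e.1| ≤ 1 ∧ e.2.length = N ∧ e.2.count true = r) →
      Dev (l.map fun e => e.1 • wd P D e.2).sum (P ^ N) (l.length * ε ^ r) := by
    intro l
    induction l with
    | nil => intro _; simpa using Dev.zero
    | cons e l ih =>
      intro hl
      obtain ⟨e1, e2, e3⟩ := hl e (by simp)
      have a := ((hw e.2).smul e.1).mono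
        (mul_le_of_le_one_left (pow_nonneg hD.nonneg _) e1)
      rw [e2, e3] at a
      simp only [List.map_cons, List.sum_cons, List.length_cons, Nat.cast_succ, add_mul, one_mul]
      rw [add_comm ((l.length : ℝ) * ε ^ r)]
      exact a.add (ih fun x hx => hl x (List.mem_cons_of_mem _ hx))
  exact (this l h2).mono (mul_le_mul_of_nonneg_right (by exact_mod_cast h1)
    (pow_nonneg hD.nonneg _))

end Vale.Agent.P321
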