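import Vale.Agent.P321.Super.Comb
import Vale.Agent.P321.Super.Window

/-!
P321, superpolynomial bound: expansion of a word in the cells `P`, `P + D` by the number of
factors `D`, with norm bounds for the remainder, and stability under replacing both cells.
-/

open Finset

namespace Vale.Agent.P321

/-- The part of `wd P (P + D) l` with exactly `r` factors `D`. -/
noncomputable def Lr (P D : Alg) : ℕ → List Bool → Alg
  | 0, l => P ^ l.length
  | _ + 1, [] => 0
  | r + 1, a :: l => P * Lr P D (r + 1) l + (if a then D else 0) * Lr P D r l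

@[simp] lemma Lr_zero (P D : Alg) (l : List Bool) : Lr P D 0 l = P ^ l.length := by
  cases l <;> simp [Lr]

@[simp] lemma Lr_nil (P D : Alg) (r : ℕ) : Lr P D (r + 1) [] = 0 := by simp [Lr]

lemma Lr_cons (P D : Alg) (r : ℕ) (a : Bool) (l : List Bool) :
    Lr P D (r + 1) (a :: l) = P * Lr P D (r + 1) l + (if a then D else 0) * Lr P D r l := by
  simp [Lr]

lemma Lr_replicate_append (P D : Alg) (r : ℕ) (l : List Bool) :
    ∀ k, Lr P D r (List.replicate k false ++ l) = P ^ k * Lr P D r l
  | 0 => by simp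
  | k + 1 => by
      rcases r with _ | r
      · simp [← pow_add, add_assoc]
      · rw [List.replicate_succ, List.cons_append, Lr_cons, Lr_replicate_append P D (r + 1) l k]
        simp [pow_succ', mul_assoc]

lemma Lr_append_replicate (P D : Alg) (k : ℕ) :
    ∀ (r : ℕ) (l : List Bool), Lr P D r (l ++ List.replicate k false) = Lr P D r l * P ^ k
  | 0, l => by simp [pow_add]
  | r + 1, [] => by
      rw [List.nil_append, ← List.append_nil (List.replicate k false), Lr_replicate_append]
      simp
  | r + 1, a :: l => by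
      rw [List.cons_append, Lr_cons, Lr_cons, Lr_append_replicate P D k (r + 1) l,
        Lr_append_replicate P D k r l, add_mul, mul_assoc, mul_assoc]

lemma Lr_padMask (P D : Alg) (r k : ℕ) (l : List Bool) :
    Lr P D r (padMask k l) = P ^ k * Lr P D r l * P ^ k := by
  rw [padMask, Lr_append_replicate, Lr_replicate_append]

lemma Lr_one_append (P D : Alg) :
    ∀ l l' : List Bool, Lr P D 1 (l ++ l') =
      Lr P D 1 l * P ^ l'.length + P ^ l.length * Lr P D 1 l'
  | [], l' => by simp
  | a :: l, l' => by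
      rw [List.cons_append, Lr_cons, Lr_cons, Lr_one_append P D l l']
      simp [pow_add, pow_succ', mul_add, add_mul, mul_assoc]
      abel

/-- The linear part of the difference of the two Thue–Morse windows. -/
noncomputable def tmLin (P D : Alg) (j : ℕ) : Alg :=
  Lr P D 1 (tm [true] [false] j) - Lr P D 1 (tm [false] [true] j)

@[simp] lemma tmLin_zero (P D : Alg) : tmLin P D 0 = D := by
  simp [tmLin, tm, Lr_cons]

lemma tmLin_succ (P D : Alg) (j : ℕ) :
    tmLin P D (j + 1) = tmLin P D j * P ^ 2 ^ j - P ^ 2 ^ j * tmLin P D j := by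
  have h1 : (tm [true] [false] j).length = 2 ^ j := length_winA j
  have h2 : (tm [false] [true] j).length = 2 ^ j := length_winB j
  simp only [tmLin, tm, Lr_one_append, h1, h2]
  noncomm_ring

/-! ### Bounds -/

lemma cnt_pow_le (n r : ℕ) : (n : ℝ) ^ (r + 1) + n ^ r ≤ ((n : ℝ) + 1) ^ (r + 1) := by
  have h : (n : ℝ) ^ r ≤ ((n : ℝ) + 1) ^ r := pow_le_pow_left₀ (by positivity) (by linarith) r
  rw [pow_succ, pow_succ]
  nlinarith [Nat.cast_nonneg (α := ℝ) n]

lemma Dev.pow {P Q : Alg} {a : ℝ} (hQ : IsProb Q) (h : Dev P Q a) :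
    ∀ n : ℕ, Dev (P ^ n) (Q ^ n) (a ^ n)
  | 0 => by simpa using Dev.self IsProb.one
  | n + 1 => by
      rw [pow_succ, pow_succ, pow_succ]
      exact (Dev.pow hQ h n).mul (hQ.pow n).pos hQ.pos h

/-- The words with at least `r` factors `D`. -/
lemma dev_rest {P D : Alg} {ε : ℝ} (hP : IsProb P) (hD : Dev D P ε) :
    ∀ (l : List Bool) (r : ℕ), Dev (wd P (P + D) l - ∑ i ∈ range r, Lr P D i l) (P ^ l.length)
      (((l.count true : ℝ) * ε) ^ r * (1 + ε) ^ l.count true) := by
  have hε := hD.nonneg
  intro l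
  induction l with
  | nil =>
    intro r
    rcases r with _ | r
    · simpa using Dev.self IsProb.one
    · rw [Finset.sum_range_succ']
      simpa using Dev.zero
  | cons a l ih =>
    intro r
    rw [List.length_cons, pow_succ']
    have hcell : Dev (if a then P + D else P) P ((1 + ε) ^ (if a then 1 else 0 : ℕ)) := by
      cases a
      · simpa using Dev.self hP
      · simpa using (Dev.self hP).add hD
    rcases r with _ | r
    · have h0 := ih 0
      simp only [Finset.range_zero, Finset.sum_empty, sub_zero, pow_zero, one_mul] at h0 ⊢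
      rw [wd_cons]
      refine (hcell.mul hP.pos (hP.pow _).pos h0).mono (le_of_eq ?_)
      cases a <;> simp [pow_succ', add_comm]
    · have e : wd P (P + D) (a :: l) - ∑ i ∈ range (r + 1), Lr P D i (a :: l) =
          P * (wd P (P + D) l - ∑ i ∈ range (r + 1), Lr P D i l) +
            (if a then D else 0) * (wd P (P + D) l - ∑ i ∈ range r, Lr P D i l) := by
        rw [Finset.sum_range_succ', Finset.sum_range_succ']
        simp only [Lr_cons, Lr_zero, Finset.sum_add_distrib, ← Finset.mul_sum, List.length_cons,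
          pow_succ']
        cases a <;> simp [add_mul, mul_sub, mul_add] <;> abel
      rw [e]
      cases a
      · simp only [Bool.false_eq_true, if_false, zero_mul, add_zero]
        simpa using (Dev.self hP).mul hP.pos (hP.pow _).pos (ih (r + 1))
      · simp only [if_true]
        refine (((Dev.self hP).mul hP.pos (hP.pow _).pos (ih (r + 1))).add
          (hD.mul hP.pos (hP.pow _).pos (ih r))).mono ?_
        simp only [List.count_cons_self, Nat.cast_add, Nat.cast_one]
        generalize l.count true = n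
        have hg : (0 : ℝ) ≤ (1 + ε) ^ n := by positivity
        have h1 := mul_le_mul_of_nonneg_right
          (mul_le_mul_of_nonneg_right (cnt_pow_le n r) (pow_nonneg hε (r + 1))) hg
        calc 1 * (((n : ℝ) * ε) ^ (r + 1) * (1 + ε) ^ n) +
              ε * (((n : ℝ) * ε) ^ r * (1 + ε) ^ n)
            = ((n : ℝ) ^ (r + 1) + n ^ r) * ε ^ (r + 1) * (1 + ε) ^ n := by
              simp only [mul_pow]; ring
          _ ≤ ((n : ℝ) + 1) ^ (r + 1) * ε ^ (r + 1) * (1 + ε) ^ n := h1
          _ ≤ _ := by
              rw [← mul_pow, pow_succ (1 + ε) n]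
              exact mul_le_mul_of_nonneg_left (le_mul_of_one_le_right hg (by linarith)) (by positivity)

/-- Substituting combinations of masks for the cells. -/
lemma Comb.lr {P D Q : Alg} {M s J : ℕ} (hQ : Comb P D M s J Q) :
    ∀ (l : List Bool) (r : ℕ),
      Comb P D (l.length * M) (r * s) ((l.count true * J) ^ r) (Lr (P ^ M) Q r l) := by
  intro l
  induction l with
  | nil =>
    intro r
    rcases r with _ | r
    · simpa using Comb.pow P D 0
    · rw [Lr_nil]; exact Comb.zero
  | cons a l ih =>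
    intro r
    rcases r with _ | r
    · simpa [← pow_mul, mul_comm M] using Comb.pow P D ((a :: l).length * M)
    · rw [Lr_cons, List.length_cons, add_mul, one_mul, add_comm (l.length * M)]
      have h1 := (Comb.pow P D M).mul (ih (r + 1))
      rw [zero_add, one_mul] at h1
      cases a
      · simpa using h1
      · have h2 := hQ.mul (ih r)
        rw [show s + r * s = (r + 1) * s by ring] at h2
        simp only [if_true, List.count_cons_self]
        refine (h1.add h2).mono ?_
        generalize l.count true = n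
        have h : n ^ r ≤ (n + 1) ^ r := Nat.pow_le_pow_left (by omega) r
        rw [mul_pow, mul_pow, mul_pow, pow_succ, pow_succ, pow_succ]
        nlinarith [Nat.zero_le (J ^ r * J), Nat.zero_le n,
          Nat.mul_le_mul_right (J ^ r * J) (Nat.mul_le_mul_left n h),
          Nat.mul_le_mul_right (J ^ r * J) h]

/-- Size of a homogeneous part. -/
lemma dev_Lr {P P₁ D₁ : Alg} {δ d : ℝ} (hP : IsProb P) (hδ : 0 ≤ δ) (hP₁ : Dev P₁ P (1 + δ))
    (hD₁ : Dev D₁ P d) : ∀ (l : List Bool) (r : ℕ),
    Dev (Lr P₁ D₁ r l) (P ^ l.length) ((l.length : ℝ) ^ r * d ^ r * (1 + δ) ^ l.length) := by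
  have hd := hD₁.nonneg
  intro l
  induction l with
  | nil =>
    intro r
    rcases r with _ | r
    · simpa using Dev.self IsProb.one
    · simpa using Dev.zero
  | cons a l ih =>
    intro r
    rcases r with _ | r
    · simpa using Dev.pow hP hP₁ (a :: l).length
    · rw [Lr_cons, List.length_cons, pow_succ']
      have hcell : Dev (if a then D₁ else 0) P d := by
        cases a
        · simpa using Dev.zero.mono hd
        · exact hD₁
      refine ((hP₁.mul hP.pos (hP.pow _).pos (ih (r + 1))).add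
        (hcell.mul hP.pos (hP.pow _).pos (ih r))).mono ?_
      generalize l.length = n
      push_cast
      calc (1 + δ) * ((n : ℝ) ^ (r + 1) * d ^ (r + 1) * (1 + δ) ^ n) +
            d * ((n : ℝ) ^ r * d ^ r * (1 + δ) ^ n)
          ≤ ((n : ℝ) ^ (r + 1) + n ^ r) * d ^ (r + 1) * (1 + δ) ^ (n + 1) := by
            have : (0 : ℝ) ≤ δ * ((n : ℝ) ^ r * d ^ (r + 1) * (1 + δ) ^ n) := by positivity
            simp only [pow_succ] at this ⊢
            nlinarith
        _ ≤ _ := by
            gcongr
            exact cnt_pow_le n r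

/-- Stability of a homogeneous part under replacing both cells. -/
lemma dev_Lr_sub {P P₁ D₁ Q : Alg} {δ θ d : ℝ} (hP : IsProb P) (hθ : 0 ≤ θ)
    (hP₁ : Dev (P₁ - P) P δ) (hD : Dev (D₁ - Q) P (θ * d)) (hD₁ : Dev D₁ P d) (hQ : Dev Q P d) :
    ∀ (l : List Bool) (r : ℕ), Dev (Lr P₁ D₁ r l - Lr P Q r l) (P ^ l.length)
      (((l.length : ℝ) + 1) ^ (r + 1) * d ^ r * (1 + δ) ^ l.length * (δ + θ)) := by
  have hd := hD₁.nonneg
  have hδ := hP₁.nonneg
  have hP₁' : Dev P₁ P (1 + δ) := by
    have := (Dev.self hP).add hP₁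
    rwa [add_sub_cancel] at this
  intro l
  induction l with
  | nil =>
    intro r
    rcases r with _ | r
    · simpa using Dev.zero.mono (add_nonneg hδ hθ)
    · rw [Lr_nil, Lr_nil, sub_zero]
      exact Dev.zero.mono (by positivity)
  | cons a l ih =>
    intro r
    rw [List.length_cons, pow_succ']
    push_cast
    set n := l.length
    have hn : (0 : ℝ) ≤ n := Nat.cast_nonneg n
    rcases r with _ | r
    · have h0 : Dev (P₁ ^ n - P ^ n) (P ^ n)
          (((n : ℝ) + 1) * (1 + δ) ^ n * (δ + θ)) := by simpa using ih 0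
      have e : P₁ * P₁ ^ n - P * P ^ n = (P₁ - P) * P₁ ^ n + P * (P₁ ^ n - P ^ n) := by
        noncomm_ring
      rw [Lr_zero, Lr_zero, List.length_cons, pow_succ', pow_succ', e]
      refine ((hP₁.mul hP.pos (hP.pow _).pos (Dev.pow hP hP₁' n)).add
        ((Dev.self hP).mul hP.pos (hP.pow _).pos h0)).mono ?_
      have hg : (0 : ℝ) ≤ (1 + δ) ^ n := by positivity
      rw [pow_zero, mul_one, pow_succ (1 + δ)]
      have h1 : 0 ≤ δ * ((((n : ℝ) + 2)) * (δ + θ) * (1 + δ) ^ n) := by positivity
      have h2 : 0 ≤ θ * (1 + δ) ^ n := by positivity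
      ring_nf at h1 h2 ⊢
      linarith
    · rw [Lr_cons, Lr_cons]
      have e : P₁ * Lr P₁ D₁ (r + 1) l + (if a then D₁ else 0) * Lr P₁ D₁ r l -
          (P * Lr P Q (r + 1) l + (if a then Q else 0) * Lr P Q r l) =
          ((P₁ - P) * Lr P₁ D₁ (r + 1) l + P * (Lr P₁ D₁ (r + 1) l - Lr P Q (r + 1) l)) +
            ((if a then D₁ - Q else 0) * Lr P₁ D₁ r l +
              (if a then Q else 0) * (Lr P₁ D₁ r l - Lr P Q r l)) := by
        cases a <;> simp <;> noncomm_ring
      rw [e]
      have c1 : Dev (if a then D₁ - Q else 0) P (θ * d) := by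
        cases a
        · simpa using Dev.zero.mono (mul_nonneg hθ hd)
        · exact hD
      have c2 : Dev (if a then Q else 0) P d := by
        cases a
        · simpa using Dev.zero.mono hd
        · exact hQ
      have hPn := (hP.pow n).pos
      have hL := dev_Lr hP hδ hP₁' hD₁ l
      refine (((hP₁.mul hP.pos hPn (hL (r + 1))).add
        ((Dev.self hP).mul hP.pos hPn (ih (r + 1)))).add
        ((c1.mul hP.pos hPn (hL r)).add (c2.mul hP.pos hPn (ih r)))).mono ?_
      change δ * ((n : ℝ) ^ (r + 1) * d ^ (r + 1) * (1 + δ) ^ n) +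
            1 * (((n : ℝ) + 1) ^ (r + 1 + 1) * d ^ (r + 1) * (1 + δ) ^ n * (δ + θ)) +
          (θ * d * ((n : ℝ) ^ r * d ^ r * (1 + δ) ^ n) +
            d * (((n : ℝ) + 1) ^ (r + 1) * d ^ r * (1 + δ) ^ n * (δ + θ))) ≤ _
      have hA : (n : ℝ) ^ (r + 1) ≤ ((n : ℝ) + 1) ^ (r + 1) :=
        pow_le_pow_left₀ hn (by linarith) _
      have hB : (n : ℝ) ^ r ≤ ((n : ℝ) + 1) ^ (r + 1) :=
        (pow_le_pow_left₀ hn (by linarith) r).trans
          (pow_le_pow_right₀ (by linarith) (by omega))
      have hC : ((n : ℝ) + 1) ^ (r + 2) + 2 * ((n : ℝ) + 1) ^ (r + 1) ≤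
          ((n : ℝ) + 1 + 1) ^ (r + 2) := by
        have h := cnt_pow_le (n + 1) r
        push_cast at h
        have h' := pow_le_pow_left₀ (by linarith) (show (n : ℝ) + 1 ≤ (n : ℝ) + 1 + 1 by linarith)
          (r + 1)
        calc _ = ((n : ℝ) + 1) * ((n : ℝ) + 1) ^ (r + 1) + 2 * ((n : ℝ) + 1) ^ (r + 1) := by ring
          _ ≤ ((n : ℝ) + 1 + 1) * ((n : ℝ) + 1 + 1) ^ (r + 1) := by
            have h'' : 0 ≤ ((n : ℝ) + 1) ^ r := by positivity
            have := mul_le_mul_of_nonneg_left h (show (0 : ℝ) ≤ (n : ℝ) + 1 + 1 by positivity)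
            simp only [pow_succ] at this ⊢
            nlinarith
          _ = _ := by ring
      set u := d ^ (r + 1) * (1 + δ) ^ n
      have hu : 0 ≤ u := by positivity
      calc _ = (δ * (n : ℝ) ^ (r + 1) + θ * (n : ℝ) ^ r) * u +
            (((n : ℝ) + 1) ^ (r + 2) + ((n : ℝ) + 1) ^ (r + 1)) * (δ + θ) * u := by
            simp only [u]; ring
        _ ≤ (δ * ((n : ℝ) + 1) ^ (r + 1) + θ * ((n : ℝ) + 1) ^ (r + 1)) * u +
            (((n : ℝ) + 1) ^ (r + 2) + ((n : ℝ) + 1) ^ (r + 1)) * (δ + θ) * u := by gcongr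
        _ = (((n : ℝ) + 1) ^ (r + 2) + 2 * ((n : ℝ) + 1) ^ (r + 1)) * ((δ + θ) * u) := by ring
        _ ≤ ((n : ℝ) + 1 + 1) ^ (r + 2) * ((δ + θ) * (u * (1 + δ))) := by
            gcongr
            exact le_mul_of_one_le_right hu (by linarith)
        _ = _ := by simp only [u]; ring

end Vale.Agent.P321
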