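import Vale.Agent.P321.Super.Basic

/-!
P321, superpolynomial bound: the truncated pair. On the set where `|u - v| ≤ 2η (u + v)` the
likelihood ratio is bounded, and this set carries all but `e/η` of the mass.
-/

open Finset

namespace Vale.Agent.P321

/-- The truncated pair: everything later happens here. -/
structure Til (U V : Alg) (ε η : ℝ) (B : ℕ) : Prop where
  hU : IsProb U
  hV : IsProb V
  dev : Dev (V - U) U ε
  le : Le1 (V - U) (η • U)
  overlap : nrm (U ^ (B + 1) - U ^ B) ≤ 1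

lemma ev_restrict (f : Alg) (S : FreeMonoid Bool → Prop) [DecidablePred S]
    (φ : List Bool → ℝ) :
    ev (restrict f S) φ = ev f (fun w => if S (FreeMonoid.ofList w) then φ w else 0) := by
  classical
  rw [ev, Finsupp.sum_of_support_subset (s := f.coeff.support) _ (fun w hw => by
    rw [Finsupp.mem_support_iff, coeff_restrict] at hw
    split_ifs at hw
    · exact Finsupp.mem_support_iff.2 hw
    · simp at hw) _ (by simp), ev, Finsupp.sum]
  refine Finset.sum_congr rfl fun w _ => ?_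
  rw [coeff_restrict]
  by_cases hw : S w <;> simp [hw]

/-- Truncation and normalisation. -/
theorem exists_til {U V : Alg} (hU : IsProb U) (hV : IsProb V) {ε η e : ℝ} {B : ℕ}
    (hη : 0 < η) (hη1 : η ≤ 1 / 16) (hε : ε ≤ 1 / 16) (heε : e / η ≤ ε)
    (hd : Dev (U - V) (U + V) ε) (he : Exc U V η e)
    (hov : nrm (U ^ (B + 1) - U ^ B) ≤ 1 / 2) (hB : (2 * B + 1 : ℝ) * (4 * e / η) ≤ 1 / 2) :
    ∃ U' V', Til U' V' (16 * ε) (16 * η) B ∧ nrm (U - U') ≤ 4 * e / η ∧
      nrm (V - V') ≤ 4 * e / η := by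
  classical
  obtain ⟨r, hr, hre, hrle⟩ := he
  set G : FreeMonoid Bool → Prop :=
    fun w => |U.coeff w - V.coeff w| ≤ 2 * η * (U.coeff w + V.coeff w) with hG
  set Ug := restrict U G
  set Vg := restrict V G
  have hUg : Pos Ug := hU.pos.restrict G
  have hVg : Pos Vg := hV.pos.restrict G
  have he0 : 0 ≤ e := hr.mass_nonneg.trans hre
  -- the bad set is small
  have hbad : Pos ((1 / η) • r - ((U - Ug) + (V - Vg))) := fun w => by
    have h0 := hr w
    have hu := hU.pos w
    have hv := hV.pos w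
    have h1 := hrle w
    simp only [Ug, Vg, MonoidAlgebra.coeff_sub, Finsupp.sub_apply, MonoidAlgebra.coeff_add,
      Finsupp.add_apply, MonoidAlgebra.coeff_smul, Finsupp.smul_apply, smul_eq_mul,
      coeff_restrict] at h1 ⊢
    by_cases hw : G w
    · simp only [hw, if_true, sub_self, add_zero, sub_zero]
      positivity
    · simp only [hw, if_false, sub_zero]
      rw [hG] at hw
      have h2 : η * (U.coeff w + V.coeff w) ≤ r.coeff w := by
        have := not_le.1 hw
        linarith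
      rw [sub_nonneg, div_mul_eq_mul_div, one_mul, le_div_iff₀ hη]
      linarith
  have hm : 1 - mass Ug + (1 - mass Vg) ≤ e / η := by
    have := hbad.mass_mono
    rw [map_add, map_sub, map_sub, hU.mass_one, hV.mass_one, map_smul, smul_eq_mul] at this
    refine this.trans ?_
    rw [div_mul_eq_mul_div, one_mul]
    exact div_le_div_of_nonneg_right hre hη.le
  have hrest : ∀ {P : Alg}, IsProb P →
      Pos (P - restrict P G) ∧ mass (restrict P G) ≤ 1 := fun {P} hP => by
    have h1 : Pos (P - restrict P G) := by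
      rw [show P - restrict P G = restrict P (fun w => ¬ G w) by
        nth_rewrite 1 [← restrict_add_compl P G]; abel]
      exact hP.pos.restrict _
    exact ⟨h1, hP.mass_one ▸ h1.mass_mono⟩
  obtain ⟨hUb, hUg1⟩ := hrest hU
  obtain ⟨hVb, hVg1⟩ := hrest hV
  set mu := mass Ug
  set mv := mass Vg
  have hmu : 15 / 16 ≤ mu := by linarith
  have hmv : 15 / 16 ≤ mv := by linarith
  set U' := mu⁻¹ • Ug
  set V' := mv⁻¹ • Vg
  have hU' : IsProb U' := ⟨hUg.smul (inv_nonneg.2 (by linarith)),
    by rw [map_smul, smul_eq_mul, inv_mul_cancel₀ (by linarith : mu ≠ 0)]⟩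
  have hV' : IsProb V' := ⟨hVg.smul (inv_nonneg.2 (by linarith)),
    by rw [map_smul, smul_eq_mul, inv_mul_cancel₀ (by linarith : mv ≠ 0)]⟩
  have hclose : ∀ {P : Alg}, IsProb P → 15 / 16 ≤ mass (restrict P G) →
      1 - mass (restrict P G) ≤ e / η →
      nrm (P - (mass (restrict P G))⁻¹ • restrict P G) ≤ 4 * e / η := fun {P} hP h h' => by
    obtain ⟨h1, h2⟩ := hrest hP
    set m := mass (restrict P G)
    rw [show P - m⁻¹ • restrict P G = (P - restrict P G) + (1 - m⁻¹) • restrict P G by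
      rw [sub_smul, one_smul]; abel]
    refine (nrm_add _ _).trans ?_
    rw [nrm_smul, nrm_of_pos h1, nrm_of_pos (hP.pos.restrict G), map_sub, hP.mass_one]
    have h3 : |1 - m⁻¹| * m = 1 - m := by
      rw [abs_of_nonpos (sub_nonpos.2 ((one_le_inv₀ (by linarith)).2 h2))]
      field_simp
      ring
    rw [h3, mul_div_assoc]
    linarith [div_nonneg he0 hη.le]
  have hcU := hclose hU hmu (by linarith)
  -- the ratio on the good set
  have hgd : ∀ w, |Vg.coeff w - Ug.coeff w| ≤ 5 * η * Ug.coeff w := fun w => by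
    simp only [Ug, Vg, coeff_restrict]
    by_cases hw : G w
    · simp only [hw, if_true]
      rw [hG] at hw
      obtain ⟨a, b⟩ := abs_le.1 hw
      have := hU.pos w
      have := hV.pos w
      rw [abs_le]
      constructor <;> nlinarith
    · simp [hw]
  have hmd : |mv - mu| ≤ 5 * η * mu := by
    have h : Le1 (Vg - Ug) ((5 * η) • Ug) := fun w => by simpa using hgd w
    have h' := h.pos_sub.mass_nonneg
    have h'' := h.pos_add.mass_nonneg
    rw [map_sub, map_sub, map_smul, smul_eq_mul] at h'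
    rw [map_add, map_sub, map_smul, smul_eq_mul] at h''
    exact abs_le.2 ⟨by linarith, by linarith⟩
  -- the deviation on the good set
  have hgev : ∀ φ : List Bool → ℝ,
      |ev (Vg - Ug) φ| ≤ 2 * ε * Real.sqrt (ev Ug (φ ^ 2)) := fun φ => by
    set ψ : List Bool → ℝ := fun w => if G (FreeMonoid.ofList w) then φ w else 0
    have h1 : ev (Vg - Ug) φ = -ev (U - V) ψ := by
      rw [ev_sub, ev_restrict, ev_restrict, ev_sub]; ring
    have h2 : ev (U + V) (ψ ^ 2) = ev (Ug + Vg) (φ ^ 2) := by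
      rw [ev_add, ev_add, ev_restrict, ev_restrict]
      have e : ψ ^ 2 = fun w => if G (FreeMonoid.ofList w) then (φ ^ 2) w else 0 :=
        funext fun w => by simp only [ψ, Pi.pow_apply]; split_ifs <;> ring
      rw [e]
    rw [h1, abs_neg]
    refine (hd.bound ψ).trans ?_
    have h3 : Pos ((4 : ℝ) • Ug - (Ug + Vg)) := fun w => by
      have := hgd w
      have := hUg w
      simp only [MonoidAlgebra.coeff_sub, Finsupp.sub_apply, MonoidAlgebra.coeff_smul,
        Finsupp.smul_apply, smul_eq_mul, MonoidAlgebra.coeff_add, Finsupp.add_apply]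
      nlinarith [(abs_le.1 (hgd w)).2]
    have h4 : Real.sqrt (ev (U + V) (ψ ^ 2)) ≤ 2 * Real.sqrt (ev Ug (φ ^ 2)) := by
      rw [h2, show (2 : ℝ) = Real.sqrt (2 ^ 2) by rw [Real.sqrt_sq two_pos.le],
        ← Real.sqrt_mul (by norm_num), show ((2 : ℝ) ^ 2) = 4 by norm_num, ← ev_smul]
      exact Real.sqrt_le_sqrt (ev_le_of_pos h3 fun w => sq_nonneg (φ w))
    nlinarith [mul_le_mul_of_nonneg_left h4 hd.nonneg]
  have hdm : |mv - mu| ≤ 2 * ε := by
    have := hgev fun _ => 1
    rw [ev_const, map_sub, one_mul, show ((fun _ => 1 : List Bool → ℝ) ^ 2) = fun _ => (1 : ℝ)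
      from funext fun _ => one_pow 2, ev_const, one_mul] at this
    refine this.trans (mul_le_of_le_one_right (by linarith [hd.nonneg]) ?_)
    exact Real.sqrt_le_one.2 hUg1
  refine ⟨U', V', ⟨hU', hV', ⟨by linarith [hd.nonneg], fun φ => ?_⟩, fun w => ?_, ?_⟩, hcU,
    hclose hV hmv (by linarith [hUg1])⟩
  · have e1 : ev (V' - U') φ = mv⁻¹ * ev (Vg - Ug) φ + (mv⁻¹ - mu⁻¹) * ev Ug φ := by
      rw [ev_sub, ev_smul, ev_smul, ev_sub]; ring
    set S := Real.sqrt (ev U' (φ ^ 2))
    have hS : 0 ≤ S := Real.sqrt_nonneg _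
    have e2 : |ev Ug φ| ≤ mu * S := by
      have := (Dev.self hU').bound φ
      rw [ev_smul, abs_mul, abs_of_nonneg (inv_nonneg.2 (by linarith : (0 : ℝ) ≤ mu)), one_mul,
        inv_mul_le_iff₀ (by linarith)] at this
      exact this
    have e3 : Real.sqrt (ev Ug (φ ^ 2)) ≤ S := by
      refine Real.sqrt_le_sqrt ?_
      rw [ev_smul]
      exact le_mul_of_one_le_left (ev_sq_nonneg hUg φ) ((one_le_inv₀ (by linarith)).2 hUg1)
    have i1 : mv⁻¹ ≤ 2 := by rw [inv_le_comm₀ (by linarith) two_pos]; linarith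
    have i2 : |mv⁻¹ - mu⁻¹| * mu ≤ 4 * ε := by
      rw [inv_sub_inv (by linarith) (by linarith), abs_div, abs_sub_comm,
        abs_of_pos (mul_pos (by linarith : 0 < mv) (by linarith : 0 < mu)), div_mul_eq_mul_div,
        div_le_iff₀ (mul_pos (by linarith) (by linarith))]
      nlinarith [hd.nonneg, mul_le_mul_of_nonneg_left hmv hd.nonneg]
    rw [e1]
    calc |mv⁻¹ * ev (Vg - Ug) φ + (mv⁻¹ - mu⁻¹) * ev Ug φ|
        ≤ mv⁻¹ * |ev (Vg - Ug) φ| + |mv⁻¹ - mu⁻¹| * |ev Ug φ| := by
          refine (abs_add_le _ _).trans (le_of_eq ?_)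
          rw [abs_mul, abs_mul, abs_of_nonneg (inv_nonneg.2 (by linarith : (0 : ℝ) ≤ mv))]
      _ ≤ 2 * (2 * ε * S) + |mv⁻¹ - mu⁻¹| * (mu * S) := add_le_add
          (mul_le_mul i1 ((hgev φ).trans (mul_le_mul_of_nonneg_left e3 (by linarith [hd.nonneg])))
            (abs_nonneg _) two_pos.le)
          (mul_le_mul_of_nonneg_left e2 (abs_nonneg _))
      _ ≤ 16 * ε * S := by
          rw [← mul_assoc |mv⁻¹ - mu⁻¹|]
          nlinarith [mul_le_mul_of_nonneg_right i2 hS, mul_nonneg hd.nonneg hS]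
  · simp only [U', V', MonoidAlgebra.coeff_sub, Finsupp.sub_apply, MonoidAlgebra.coeff_smul,
      Finsupp.smul_apply, smul_eq_mul]
    have hu := hUg w
    have hmv0 : 0 < mv := by linarith
    have hmu0 : 0 < mu := by linarith
    rw [show mv⁻¹ * Vg.coeff w - mu⁻¹ * Ug.coeff w =
      (mu * (Vg.coeff w - Ug.coeff w) + (mu - mv) * Ug.coeff w) / (mv * mu) by field_simp; ring,
      abs_div, abs_of_pos (mul_pos hmv0 hmu0), div_le_iff₀ (mul_pos hmv0 hmu0)]
    calc |mu * (Vg.coeff w - Ug.coeff w) + (mu - mv) * Ug.coeff w|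
        ≤ mu * (5 * η * Ug.coeff w) + 5 * η * mu * Ug.coeff w := by
          refine (abs_add_le _ _).trans (add_le_add ?_ ?_)
          · rw [abs_mul, abs_of_pos hmu0]; exact mul_le_mul_of_nonneg_left (hgd w) hmu0.le
          · rw [abs_mul, abs_of_nonneg hu, abs_sub_comm]
            exact mul_le_mul_of_nonneg_right hmd hu
      _ = 10 * (η * Ug.coeff w) * mu := by ring
      _ ≤ 10 * (η * Ug.coeff w) := mul_le_of_le_one_right (by positivity) hUg1
      _ ≤ 16 * (η * Ug.coeff w) * mv := by nlinarith [mul_nonneg hη.le hu]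
      _ = _ := by field_simp
  · have hp : ∀ n : ℕ, nrm (U ^ n - U' ^ n) ≤ n * (4 * e / η) := fun n => by
      simpa using nrm_wd_sub hU hU hU' hU' hcU hcU (List.replicate n false)
    have h1 := hp (B + 1)
    have h2 := hp B
    rw [show U' ^ (B + 1) - U' ^ B =
      (U ^ (B + 1) - U ^ B) - (U ^ (B + 1) - U' ^ (B + 1)) + (U ^ B - U' ^ B) by abel]
    refine (nrm_add _ _).trans ?_
    refine (add_le_add (nrm_sub _ _) le_rfl).trans ?_
    push_cast at h1
    nlinarith

end Vale.Agent.P321
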