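import Vale.Agent.P321.Super.Dilute
import Vale.Agent.P321.Super.Tilde

/-!
P321, superpolynomial bound: one stage in the truncated world gains the factor
`2^(-β/2)` over the fourth power of the distance.
-/

open Finset

namespace Vale.Agent.P321

/-- Number of pads for `h` shifts over a cell with overlap at `B`. -/
def padLen (h B : ℕ) : ℕ := 48 * h * (B + 1)

/-- A window with its pads. -/
def cellMask (h B : ℕ) (l : List Bool) : List Bool := padMask (padLen h B) l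

/-- The mask of a new word: a window over the two padded cells, padded by the first of them and
then by the old cell. -/
def nextMask (h B BX β m : ℕ) (l : List Bool) : List Bool :=
  padMask (padLen (2 ^ (2 * β)) B)
    (wdList (cellMask h B (winA m)) (cellMask h B (winB m)) (cellMask h BX l))

lemma wd_wdList (U V : Alg) (la lb : List Bool) :
    ∀ l : List Bool, wd U V (wdList la lb l) = wd (wd U V la) (wd U V lb) l
  | [] => by simp [wdList]
  | b :: l => by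
      rw [wd_cons, ← wd_wdList U V la lb l]
      cases b <;> simp [wdList, wd_append]

lemma wd_self (U : Alg) : ∀ l : List Bool, wd U U l = U ^ l.length
  | [] => by simp
  | b :: l => by rw [wd_cons, wd_self U l]; simp [pow_succ']

lemma count_padMask (P : ℕ) (l : List Bool) : (padMask P l).count true = l.count true := by
  simp [padMask, List.count_replicate]

lemma count_wdList {la lb : List Bool} {c : ℕ} (ha : la.count true ≤ c) (hb : lb.count true ≤ c) :
    ∀ l : List Bool, (wdList la lb l).count true ≤ l.length * c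
  | [] => by simp [wdList]
  | b :: l => by
      have ih := count_wdList ha hb l
      simp only [wdList, List.map_cons, List.flatten_cons, List.count_append, List.length_cons,
        add_mul, one_mul] at ih ⊢
      cases b <;> simp <;> omega

/-- Cellwise domination. -/
lemma pos_wd_sub {U V V' : Alg} {c : ℝ} (hU : Pos U) (hV : Pos V) (hV' : Pos V') (hc : 0 ≤ c)
    (h : Pos (c • V' - V)) :
    ∀ l : List Bool, Pos (wd U V l) ∧ Pos (wd U V' l) ∧
      Pos (c ^ l.count true • wd U V' l - wd U V l)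
  | [] => by simp [Pos.one, Pos.zero]
  | b :: l => by
      obtain ⟨i1, i2, i3⟩ := pos_wd_sub hU hV hV' hc h l
      cases b
      · refine ⟨by simpa using hU.mul i1, by simpa using hU.mul i2, ?_⟩
        have := hU.mul i3
        simpa [mul_sub, mul_smul_comm] using this
      · refine ⟨by simpa using hV.mul i1, by simpa using hV'.mul i2, ?_⟩
        simp only [wd_cons, if_true, List.count_cons_self, pow_succ']
        rw [show (c * c ^ l.count true) • (V' * wd U V' l) - V * wd U V l =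
          (c • V' - V) * (c ^ l.count true • wd U V' l) +
            V * (c ^ l.count true • wd U V' l - wd U V l) by
          simp only [sub_mul, mul_sub, smul_mul_assoc, mul_smul_comm]; module]
        exact (h.mul (i2.smul (pow_nonneg hc _))).add (hV.mul i3)

lemma pos_scale {X Y Z : Alg} {a b : ℝ} (ha : 0 ≤ a) (h1 : Pos (a • Y - X))
    (h2 : Pos (b • Z - Y)) : Pos ((a * b) • Z - X) := by
  have := (h2.smul ha).add h1
  rwa [smul_sub, smul_smul, sub_add_sub_cancel] at this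

lemma Pos.smul_mono {X Y : Alg} {a b : ℝ} (hY : Pos Y) (hab : a ≤ b) (h : Pos (a • Y - X)) :
    Pos (b • Y - X) := by
  have := (hY.smul (sub_nonneg.2 hab)).add h
  rwa [sub_smul, sub_add_sub_cancel] at this

lemma add_one_pow_le_two {x : ℝ} (hx : 0 ≤ x) {n k : ℕ} (hn : n ≤ k) (h : (k : ℝ) * x ≤ 1 / 2) :
    (1 + x) ^ n ≤ 2 := by
  refine (pow_le_pow_right₀ (by linarith) hn).trans ((one_add_pow_le hx k h).trans ?_)
  linarith

/-- The word of a window expanded to second order, with pads. -/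
lemma window_split (P D : Alg) (k m : ℕ) :
    wd P (P + D) (padMask k (winB m)) - wd P (P + D) (padMask k (winA m)) =
      -(P ^ k * tmLin P D m * P ^ k) +
        (Lr P D 2 (padMask k (winB m)) - Lr P D 2 (padMask k (winA m))) +
        P ^ k * ((wd P (P + D) (winB m) - ∑ i ∈ range 3, Lr P D i (winB m)) -
          (wd P (P + D) (winA m) - ∑ i ∈ range 3, Lr P D i (winA m))) * P ^ k := by
  have e : tmLin P D m = Lr P D 1 (winA m) - Lr P D 1 (winB m) := rfl
  simp only [wd_padMask, Lr_padMask, e, Finset.sum_range_succ, Finset.sum_range_zero,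
    Lr_zero, length_winA, length_winB, zero_add]
  simp only [mul_sub, sub_mul, mul_add, add_mul]
  abel

/-- Padded linear part of a window. -/
lemma dev_pad_lin {U D : Alg} {ε : ℝ} {B m h h₁ : ℕ} (hU : IsProb U) (hD : Dev D U ε)
    (hov : nrm (U ^ (B + 1) - U ^ B) ≤ 1) (hmh : m * h₁ ≤ h) :
    Dev (U ^ padLen h B * tmLin U D m * U ^ padLen h B)
      (U ^ (2 * padLen h B + 2 ^ m))
      (ε * ((2 : ℝ) ^ m * (2 / Real.sqrt (h₁ + 1))) ^ m + (2 ^ h)⁻¹ * (2 * 2 ^ m * ε)) := by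
  have h1 : Dev ((sh U)^[h] (tmLin U D m)) (U ^ (h + 2 ^ m))
      (ε * ((2 : ℝ) ^ m * (2 / Real.sqrt (h₁ + 1))) ^ m) := by
    have := dev_sh hU (dev_tmLin hU hD h₁ m) (h - m * h₁)
    rw [← Function.iterate_add_apply, Nat.sub_add_cancel hmh] at this
    rwa [show h - m * h₁ + (m * h₁ + 2 ^ m) = h + 2 ^ m by omega] at this
  have h2 : Dev (tmLin U D m) (U ^ 2 ^ m) (2 * 2 ^ m * ε) := by
    have hU1 : Dev U U (1 + 0) := by simpa using Dev.self hU
    have a := dev_Lr hU le_rfl hU1 hD (winA m) 1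
    have b := dev_Lr hU le_rfl hU1 hD (winB m) 1
    rw [length_winA] at a
    rw [length_winB] at b
    refine (a.sub b).mono (le_of_eq ?_)
    push_cast
    ring
  have := pad_dev hU hov h h1 h2
  rw [show 48 * h * (B + 1) = padLen h B from rfl,
    show padLen h B + 2 ^ m + padLen h B = 2 * padLen h B + 2 ^ m by omega] at this
  exact this

/-- Third-order remainder of a window, padded. -/
lemma dev_pad_high {U D : Alg} {ε : ℝ} {m k : ℕ} (hU : IsProb U) (hD : Dev D U ε)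
    (hsmall : (2 : ℝ) ^ m * ε ≤ 1 / 2) :
    Dev (U ^ k * ((wd U (U + D) (winB m) - ∑ i ∈ range 3, Lr U D i (winB m)) -
          (wd U (U + D) (winA m) - ∑ i ∈ range 3, Lr U D i (winA m))) * U ^ k)
      (U ^ (2 * k + 2 ^ m)) (4 * ((2 : ℝ) ^ m * ε) ^ 3) := by
  have hε := hD.nonneg
  have hone : ∀ l : List Bool, l.length = 2 ^ m →
      Dev (wd U (U + D) l - ∑ i ∈ range 3, Lr U D i l) (U ^ 2 ^ m) (2 * ((2 : ℝ) ^ m * ε) ^ 3) := by
    intro l hl
    have := dev_rest hU hD l 3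
    rw [hl] at this
    have hc : l.count true ≤ 2 ^ m := hl ▸ List.count_le_length
    refine this.mono ?_
    rw [mul_comm 2]
    refine mul_le_mul (pow_le_pow_left₀ (by positivity) (mul_le_mul_of_nonneg_right
      (by exact_mod_cast hc) hε) 3) (add_one_pow_le_two hε hc ?_) (by positivity) (by positivity)
    push_cast; exact hsmall
  have hin := (hone _ (length_winB m)).sub (hone _ (length_winA m))
  have := ((Dev.self (hU.pow k)).mul (hU.pow k).pos (hU.pow _).pos hin).mul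
    ((hU.pow k).pos.mul (hU.pow _).pos) (hU.pow k).pos (Dev.self (hU.pow k))
  rw [← pow_add, ← pow_add, show k + 2 ^ m + k = 2 * k + 2 ^ m by omega] at this
  refine this.mono (le_of_eq ?_)
  ring

/-- First level: the difference of the two padded windows is `Q₁` up to third order. -/
theorem first_level {U V : Alg} {ε : ℝ} {B m h h₁ : ℕ} (hU : IsProb U)
    (hdev : Dev (V - U) U ε) (hovU : nrm (U ^ (B + 1) - U ^ B) ≤ 1) (hε1 : ε ≤ 1)
    (hmh : m * h₁ ≤ h) (hlin : ((2 : ℝ) ^ m * (2 / Real.sqrt (h₁ + 1))) ^ m ≤ ε ^ 4)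
    (htail : ((2 : ℝ) ^ h)⁻¹ ≤ ε ^ 6) (h8 : 8 * ((2 : ℝ) ^ m * ε) ≤ 1)
    {la lb : List Bool} (hla : la = cellMask h B (winA m)) (hlb : lb = cellMask h B (winB m))
    {LA : ℕ} (hLA : LA = 2 * padLen h B + 2 ^ m) :
    Comb U (V - U) LA 2 (2 * (2 ^ m) ^ 2) (Lr U (V - U) 2 lb - Lr U (V - U) 2 la) ∧
      Dev (Lr U (V - U) 2 lb - Lr U (V - U) 2 la) (U ^ LA) (3 * ((2 : ℝ) ^ m) ^ 2 * ε ^ 2) ∧
      Dev (wd U V lb - wd U V la - (Lr U (V - U) 2 lb - Lr U (V - U) 2 la)) (U ^ LA)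
        (2 * (2 : ℝ) ^ m * ε * (3 * ((2 : ℝ) ^ m) ^ 2 * ε ^ 2)) ∧
      Dev (wd U V lb - wd U V la) (U ^ LA) (3 * ((2 : ℝ) ^ m) ^ 2 * ε ^ 2) ∧
      Dev (wd U V la - U ^ LA) (U ^ LA) (2 * (2 : ℝ) ^ m * ε) := by
  set D := V - U with hDdef
  have hVD : U + D = V := by simp [D]
  have hε := hdev.nonneg
  set w : ℝ := (2 : ℝ) ^ m with hwdef
  have hw : 1 ≤ w := one_le_pow₀ (by norm_num)
  set P := padLen h B with hPdef
  set X := wd U V la with hXdef
  set Y := wd U V lb with hYdef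
  set d : ℝ := 3 * w ^ 2 * ε ^ 2 with hd
  set δ : ℝ := 2 * w * ε with hδ
  have hlenA : la.length = LA := by rw [hla, cellMask, length_padMask, length_winA, hLA]
  have hcA : la.count true ≤ 2 ^ m := by
    rw [hla, cellMask, count_padMask]; exact (List.count_le_length).trans (length_winA m).le
  have hlenB : lb.length = LA := by rw [hlb, cellMask, length_padMask, length_winB, hLA]
  have hcB : lb.count true ≤ 2 ^ m := by
    rw [hlb, cellMask, count_padMask]; exact (List.count_le_length).trans (length_winB m).le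
  -- first level: `D₁ = Q₁ + small`
  set D₁ := Y - X with hD₁
  set Q₁ := Lr U D 2 lb - Lr U D 2 la with hQ₁
  have hQ₁c : Comb U D LA 2 (2 * (2 ^ m) ^ 2) Q₁ := by
    have hD1 : Comb U D 1 1 1 D := by simpa using Comb.mask U D [true]
    have a := Comb.lr hD1 la 2
    have b := Comb.lr hD1 lb 2
    rw [pow_one, mul_one, hlenA] at a
    rw [pow_one, mul_one, hlenB] at b
    refine (b.sub a).mono ?_
    rw [mul_one, mul_one, two_mul]
    exact add_le_add (Nat.pow_le_pow_left hcB 2) (Nat.pow_le_pow_left hcA 2)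
  have hQ₁d' : Dev Q₁ (U ^ LA) (2 * w ^ 2 * ε ^ 2) :=
    (hQ₁c.dev hU hdev).mono (le_of_eq (by rw [hwdef]; push_cast; ring))
  have hQ₁d : Dev Q₁ (U ^ LA) d := hQ₁d'.mono (by rw [hd]; gcongr; norm_num)
  have hE₁ : Dev (D₁ - Q₁) (U ^ LA) (δ * d) := by
    have e : D₁ - Q₁ = -(U ^ P * tmLin U D m * U ^ P) +
        U ^ P * ((wd U (U + D) (winB m) - ∑ i ∈ range 3, Lr U D i (winB m)) -
          (wd U (U + D) (winA m) - ∑ i ∈ range 3, Lr U D i (winA m))) * U ^ P := by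
      have := window_split U D P m
      rw [hD₁, hQ₁, hXdef, hYdef, hla, hlb, cellMask, cellMask, ← hPdef, ← hVD, this]
      abel
    rw [e, hLA]
    refine ((dev_pad_lin hU hdev hovU hmh).neg.add (dev_pad_high hU hdev (by linarith))).mono ?_
    rw [← hwdef]
    have h1 := mul_le_mul_of_nonneg_left hlin hε
    have h2 := mul_le_mul_of_nonneg_right htail (by positivity : (0 : ℝ) ≤ 2 * w * ε)
    have h3 : ε ^ 5 ≤ (w * ε) ^ 3 := calc
      ε ^ 5 ≤ ε ^ 3 := pow_le_pow_of_le_one hε hε1 (by norm_num)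
      _ ≤ _ := pow_le_pow_left₀ hε (le_mul_of_one_le_left hε hw) 3
    have h4 : ε ^ 6 * (2 * w * ε) ≤ ε ^ 5 := by
      calc ε ^ 6 * (2 * w * ε) ≤ ε ^ 6 * 1 := mul_le_mul_of_nonneg_left (by linarith) (by positivity)
        _ ≤ ε ^ 5 := by rw [mul_one]; exact pow_le_pow_of_le_one hε hε1 (by norm_num)
    calc _ ≤ ε * ε ^ 4 + ε ^ 6 * (2 * w * ε) + 4 * (w * ε) ^ 3 := by linarith
      _ ≤ 6 * (w * ε) ^ 3 := by rw [← pow_succ', show 4 + 1 = 5 from rfl]; linarith
      _ = _ := by rw [hδ, hd]; ring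
  have hD₁d : Dev D₁ (U ^ LA) d := by
    have := hQ₁d'.add hE₁
    rw [add_sub_cancel] at this
    refine this.mono ?_
    rw [hd, hδ]
    nlinarith [mul_le_mul_of_nonneg_left h8 (by positivity : (0 : ℝ) ≤ w ^ 2 * ε ^ 2)]
  have hXU : Dev (X - U ^ LA) (U ^ LA) δ := by
    have := dev_rest hU hdev la 1
    rw [hVD, Finset.sum_range_one, Lr_zero, hlenA, pow_one] at this
    refine this.mono ?_
    rw [hδ, show 2 * w * ε = w * ε * 2 by ring]
    refine mul_le_mul (mul_le_mul_of_nonneg_right ?_ hε) (add_one_pow_le_two hε hcA ?_)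
      (by positivity) (by positivity)
    · rw [hwdef]; exact_mod_cast hcA
    · push_cast; rw [← hwdef]; linarith
  exact ⟨hQ₁c, hQ₁d, hE₁, hD₁d, hXU⟩

lemma small_facts {w L ε σ : ℝ} (hw : 1 ≤ w) (hL : 2 ≤ L) (hε : 0 ≤ ε) (hε1 : ε ≤ 1) (hσ1 : σ ≤ 1)
    (h : L ^ 3 * w ^ 5 * ε ≤ σ) :
    4 * L * w * ε ≤ 1 ∧ 8 * (w * ε) ≤ 1 ∧ 12 * (w * (3 * w ^ 2 * ε ^ 2)) ≤ 1 ∧
      w ^ 3 * ε ^ 2 ≤ σ ∧ ε ^ 6 ≤ σ := by
  have hu : 0 ≤ w ^ 5 * ε := by positivity
  have hwu : w * ε ≤ w ^ 5 * ε := mul_le_mul_of_nonneg_right (le_self_pow₀ hw (by norm_num)) hε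
  have hL2 : 4 * L ≤ L ^ 3 := by nlinarith [mul_le_mul hL hL (by norm_num) (by linarith)]
  have h' : 4 * L * (w ^ 5 * ε) ≤ σ := by
    refine le_trans ?_ h
    rw [mul_assoc (L ^ 3)]
    exact mul_le_mul_of_nonneg_right hL2 hu
  have h8 : 8 * (w ^ 5 * ε) ≤ σ :=
    le_trans (mul_le_mul_of_nonneg_right (by linarith) hu) h'
  have h23 : w ^ 3 * ε ^ 2 ≤ w ^ 5 * ε :=
    mul_le_mul (pow_le_pow_right₀ hw (by norm_num)) (pow_le_of_le_one hε hε1 (by norm_num))
      (by positivity) (by positivity)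
  have hwe : 8 * (w * ε) ≤ 1 := by linarith
  refine ⟨?_, hwe, ?_, by linarith, ?_⟩
  · have := mul_le_mul_of_nonneg_left hwu (by linarith : (0 : ℝ) ≤ 4 * L)
    linarith
  · have h1 : w ^ 3 * ε ^ 2 ≤ w ^ 4 * ε * (w * ε) := by
      rw [show w ^ 4 * ε * (w * ε) = w ^ 5 * ε ^ 2 by ring]
      exact mul_le_mul_of_nonneg_right (pow_le_pow_right₀ hw (by norm_num)) (sq_nonneg ε)
    have h2 : w ^ 4 * ε ≤ w ^ 5 * ε :=
      mul_le_mul_of_nonneg_right (pow_le_pow_right₀ hw (by norm_num)) hε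
    have h3 : w ^ 4 * ε * (w * ε) ≤ 1 / 8 * (1 / 8) :=
      mul_le_mul (by linarith) (by linarith) (by positivity) (by norm_num)
    linarith
  · have : ε ^ 6 ≤ ε := pow_le_of_le_one hε hε1 (by norm_num)
    have : ε ≤ w ^ 5 * ε := le_mul_of_one_le_left hε (one_le_pow₀ hw)
    linarith

/-- The two words over the cells `X, Y`, with the `X`-pads. -/
theorem second_level {U D X Y Q : Alg} {ε : ℝ} {B' m h h₁ LA : ℕ} (hU : IsProb U) (hX : IsProb X)
    (hε : 0 ≤ ε) (hε1 : ε ≤ 1)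
    (hmh : m * h₁ ≤ h) (hlin : ((2 : ℝ) ^ m * (2 / Real.sqrt (h₁ + 1))) ^ m ≤ ε ^ 4)
    (htail : ((2 : ℝ) ^ h)⁻¹ ≤ ε ^ 6)
    (hov : nrm (X ^ (B' + 1) - X ^ B') ≤ 1)
    {L₂ : ℕ} (hL₂ : L₂ = 2 * padLen h B' + 2 ^ m) {w L d δ : ℝ} (hwdef : w = (2 : ℝ) ^ m)
    (hLdef : L = ((L₂ + 1 : ℕ) : ℝ)) (hd : d = 3 * w ^ 2 * ε ^ 2) (hδ : δ = 2 * w * ε)
    (hLw : 4 * L * w * ε ≤ 1) (h8 : 8 * (w * ε) ≤ 1) (hd1 : 12 * (w * d) ≤ 1)
    (hQ₁c : Comb U D LA 2 (2 * (2 ^ m) ^ 2) Q) (hQ₁d : Dev Q (U ^ LA) d)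
    (hE₁ : Dev (Y - X - Q) (U ^ LA) (δ * d)) (hD₁d : Dev (Y - X) (U ^ LA) d)
    (hXU : Dev (X - U ^ LA) (U ^ LA) δ) (hD₁X : Dev (Y - X) X (2 * d)) :
    ∃ F E S : Alg,
      wd X Y (padMask (padLen h B') (winB m)) - wd X Y (padMask (padLen h B') (winA m)) =
        F + E + S ∧
      Dev F (X ^ L₂) (873 * w ^ 6 * ε ^ 4 * (w ^ 3 * ε ^ 2)) ∧
      Dev E (U ^ (L₂ * LA)) (144 * ε ^ 4 * (L ^ 3 * w ^ 5 * ε)) ∧
      Comb U D (L₂ * LA) 4 (8 * (2 ^ m) ^ 6) S := by
  have hw : 1 ≤ w := by rw [hwdef]; exact one_le_pow₀ (by norm_num)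
  set P₂ := padLen h B'
  set D₁ := Y - X
  have hXD : X + D₁ = Y := by simp [D₁]
  set S := Lr (U ^ LA) Q 2 (padMask P₂ (winB m)) - Lr (U ^ LA) Q 2 (padMask P₂ (winA m))
  set E₂ := (Lr X D₁ 2 (padMask P₂ (winB m)) - Lr X D₁ 2 (padMask P₂ (winA m))) - S
  set F := -(X ^ P₂ * tmLin X D₁ m * X ^ P₂) +
    X ^ P₂ * ((wd X (X + D₁) (winB m) - ∑ i ∈ range 3, Lr X D₁ i (winB m)) -
      (wd X (X + D₁) (winA m) - ∑ i ∈ range 3, Lr X D₁ i (winA m))) * X ^ P₂
  refine ⟨F, E₂, S, ?_, ?_, ?_, ?_⟩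
  · have := window_split X D₁ P₂ m
    rw [hXD] at this
    simp only [F, E₂, hXD, this]
    abel
  · rw [hL₂]
    refine ((dev_pad_lin hX hD₁X hov hmh).neg.add
      (dev_pad_high hX hD₁X (by rw [← hwdef]; linarith))).mono ?_
    rw [← hwdef]
    have hd0 : 0 ≤ d := by rw [hd]; positivity
    have h1 := mul_le_mul_of_nonneg_left hlin (by positivity : (0 : ℝ) ≤ 2 * d)
    rw [← hwdef] at h1
    have h2 := mul_le_mul_of_nonneg_right htail (by positivity : (0 : ℝ) ≤ 2 * w * (2 * d))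
    calc _ ≤ 2 * d * ε ^ 4 + ε ^ 6 * (2 * w * (2 * d)) + 4 * (w * (2 * d)) ^ 3 := by linarith
      _ ≤ 3 * d * ε ^ 4 + 4 * (w * (2 * d)) ^ 3 := by
        have h4 : 4 * (w * ε) * ε ≤ 1 := by
          have := mul_le_of_le_one_right (by positivity : (0 : ℝ) ≤ 4 * (w * ε)) hε1
          linarith
        nlinarith [mul_le_mul_of_nonneg_right h4 (by positivity : (0 : ℝ) ≤ d * ε ^ 4)]
      _ = (9 * w ^ 2 + 864 * w ^ 9) * ε ^ 6 := by rw [hd]; ring
      _ ≤ 873 * w ^ 9 * ε ^ 6 := by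
        refine mul_le_mul_of_nonneg_right ?_ (by positivity)
        linarith [pow_le_pow_right₀ hw (show 2 ≤ 9 by norm_num)]
      _ = _ := by ring
  · have hUL := hU.pow LA
    have hδ0 : 0 ≤ δ := hXU.nonneg
    have hlA : (padMask P₂ (winA m)).length = L₂ := by
      rw [length_padMask, length_winA, hL₂]
    have hlB : (padMask P₂ (winB m)).length = L₂ := by
      rw [length_padMask, length_winB, hL₂]
    have a := dev_Lr_sub hUL hδ0 hXU hE₁ hD₁d hQ₁d (padMask P₂ (winA m)) 2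
    have b := dev_Lr_sub hUL hδ0 hXU hE₁ hD₁d hQ₁d (padMask P₂ (winB m)) 2
    rw [hlA, ← pow_mul, mul_comm LA] at a
    rw [hlB, ← pow_mul, mul_comm LA] at b
    have e : E₂ = Lr X D₁ 2 (padMask P₂ (winB m)) - Lr (U ^ LA) Q 2 (padMask P₂ (winB m)) -
        (Lr X D₁ 2 (padMask P₂ (winA m)) - Lr (U ^ LA) Q 2 (padMask P₂ (winA m))) := by
      simp only [E₂, S]; abel
    rw [e]
    refine (b.sub a).mono ?_
    have hLL : ((L₂ : ℝ) + 1) = L := by rw [hLdef]; push_cast; rfl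
    have hg : (1 + δ) ^ L₂ ≤ 2 := add_one_pow_le_two hδ0 le_rfl (by
      rw [hδ]; nlinarith [mul_nonneg (by linarith : (0 : ℝ) ≤ w) hε, hLL])
    rw [hLL]
    have hL0 : 0 ≤ L := by rw [hLdef]; positivity
    calc _ = L ^ 3 * d ^ 2 * (1 + δ) ^ L₂ * (δ + δ) * 2 := by ring
      _ ≤ L ^ 3 * d ^ 2 * 2 * (δ + δ) * 2 := by gcongr
      _ = _ := by rw [hd, hδ]; ring
  · have a := Comb.lr hQ₁c (padMask P₂ (winA m)) 2
    have b := Comb.lr hQ₁c (padMask P₂ (winB m)) 2
    rw [length_padMask, length_winA, ← hL₂] at a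
    rw [length_padMask, length_winB, ← hL₂] at b
    refine (b.sub a).mono ?_
    have hcount : ∀ l : List Bool, l.length = 2 ^ m →
        ((padMask P₂ l).count true * (2 * (2 ^ m) ^ 2)) ^ 2 ≤ 4 * (2 ^ m) ^ 6 := fun l hl => by
      rw [count_padMask]
      calc (l.count true * (2 * (2 ^ m) ^ 2)) ^ 2 ≤ (2 ^ m * (2 * (2 ^ m) ^ 2)) ^ 2 :=
            Nat.pow_le_pow_left (Nat.mul_le_mul_right _ (hl ▸ List.count_le_length)) 2
        _ = _ := by ring
    calc _ ≤ 4 * (2 ^ m) ^ 6 + 4 * (2 ^ m) ^ 6 :=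
          add_le_add (hcount _ (length_winB m)) (hcount _ (length_winA m))
      _ = _ := by ring

/-- Cellwise comparison of the pure powers with the first cell and with a window over the cells. -/
theorem cell_compare {U V : Alg} {η : ℝ} (hU : IsProb U) (hV : IsProb V)
    (hle : Le1 (V - U) (η • U)) {m LA : ℕ} (hη : 32 * ((2 : ℝ) ^ m) ^ 2 * η ≤ 1) (hη0 : 0 ≤ η)
    {la lb : List Bool} (hlenA : la.length = LA) (hlenB : lb.length = LA)
    (hcA : la.count true ≤ 2 ^ m) (hcB : lb.count true ≤ 2 ^ m) :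
    η ≤ 1 / 4 ∧ Pos ((2 : ℝ) • wd U V la - U ^ LA) ∧
      ∀ l : List Bool, l.count true ≤ 2 ^ m →
        Pos ((2 : ℝ) • wd (wd U V la) (wd U V lb) l - wd U V la ^ l.length) := by
  set D := V - U with hDdef
  set w : ℝ := (2 : ℝ) ^ m with hwdef
  have hw : 1 ≤ w := one_le_pow₀ (by norm_num)
  set X := wd U V la
  set Y := wd U V lb
  have hX : IsProb X := isProb_wd hU hV _
  have hY : IsProb Y := isProb_wd hU hV _
  -- comparisons
  have hη4 : η ≤ 1 / 4 := by nlinarith [mul_le_mul_of_nonneg_right (one_le_pow₀ hw (n := 2)) hη0]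
  have hUV : Pos ((1 + 2 * η) • V - U) := fun v => by
    have h1 := abs_le.1 (hle v)
    have h2 := hU.pos v
    simp only [D, MonoidAlgebra.coeff_sub, Finsupp.sub_apply, MonoidAlgebra.coeff_smul,
      Finsupp.smul_apply, smul_eq_mul] at h1 ⊢
    nlinarith [mul_nonneg hη0 h2, mul_nonneg hη0 (mul_nonneg (sub_nonneg.2 hη4) h2)]
  have hVU : Pos ((1 + 2 * η) • U - V) := fun v => by
    have h1 := abs_le.1 (hle v)
    have h2 := hU.pos v
    simp only [D, MonoidAlgebra.coeff_sub, Finsupp.sub_apply, MonoidAlgebra.coeff_smul,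
      Finsupp.smul_apply, smul_eq_mul] at h1 ⊢
    nlinarith [mul_nonneg hη0 h2]
  set c := (1 + 2 * η) ^ 2 ^ m with hc
  have h2η : (0 : ℝ) ≤ 2 * η := by linarith
  have hcell : ∀ l : List Bool, l.count true ≤ 2 ^ m →
      Pos (c • wd U V l - U ^ l.length) ∧ Pos (c • U ^ l.length - wd U V l) := by
    intro l hl
    have hp : (1 + 2 * η) ^ l.count true ≤ c := pow_le_pow_right₀ (by linarith) hl
    constructor
    · have := (pos_wd_sub hU.pos hU.pos hV.pos (by linarith) hUV l).2.2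
      rw [wd_self] at this
      exact Pos.smul_mono (isProb_wd hU hV l).pos hp this
    · have := (pos_wd_sub hU.pos hV.pos hU.pos (by linarith) hVU l).2.2
      rw [wd_self] at this
      exact Pos.smul_mono (hU.pow _).pos hp this
  have hc0 : 0 ≤ c := by positivity
  have hc2 : c ≤ 2 := add_one_pow_le_two h2η le_rfl (by
    push_cast
    rw [← hwdef]
    nlinarith [mul_le_mul_of_nonneg_right (le_self_pow₀ hw (two_ne_zero)) hη0])
  have hUX : Pos ((2 : ℝ) • X - U ^ LA) := by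
    have := (hcell la hcA).1
    rw [hlenA] at this
    exact Pos.smul_mono hX.pos hc2 this
  have hXY : Pos ((c * c) • Y - X) := by
    have a := (hcell la hcA).2
    have b := (hcell lb hcB).1
    rw [hlenA] at a
    rw [hlenB] at b
    exact pos_scale hc0 a b
  refine ⟨hη4, hUX, fun l hl => ?_⟩
  have hd0 := (pos_wd_sub hX.pos hX.pos hY.pos (mul_nonneg hc0 hc0) hXY l).2.2
  rw [wd_self] at hd0
  have hcc : (c * c) ^ l.count true ≤ 2 := by
    refine le_trans (le_of_eq ?_) (add_one_pow_le_two (n := (2 ^ m + 2 ^ m) * l.count true)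
      (k := (2 ^ m + 2 ^ m) * 2 ^ m) h2η (Nat.mul_le_mul_left _ hl) ?_)
    · rw [hc, ← pow_add, ← pow_mul]
    · push_cast; rw [← hwdef]; nlinarith
  exact Pos.smul_mono (isProb_wd hX hY _).pos hcc hd0

/-- The outer pads dilute the main part. -/
theorem dev_outer {U D E S : Alg} {ε σ w : ℝ} {B β N N₀ m : ℕ} (hU : IsProb U) (hdev : Dev D U ε)
    (hD0 : mass D = 0) (hovU : nrm (U ^ (B + 1) - U ^ B) ≤ 1)
    (hN : N = padLen (2 ^ (2 * β)) B) (hσ : σ = (Real.sqrt (2 ^ β))⁻¹) (hwdef : w = (2 : ℝ) ^ m)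
    (htail3 : ((2 : ℝ) ^ 2 ^ (2 * β))⁻¹ ≤ ε ^ 6) (h6 : ε ^ 6 ≤ σ)
    (hE : Dev E (U ^ N₀) (144 * ε ^ 4 * σ)) (hS : Comb U D N₀ 4 (8 * (2 ^ m) ^ 6) S) :
    Dev (U ^ N * E * U ^ N + U ^ N * S * U ^ N) (U ^ (2 * N + N₀)) (160 * w ^ 6 * ε ^ 4 * σ) := by
  have hw : 1 ≤ w := by rw [hwdef]; exact one_le_pow₀ (by norm_num)
  have hσ0 : 0 ≤ σ := by rw [hσ]; positivity
  have hε := hdev.nonneg
  have hNp := hU.pow N
  have e1 := ((Dev.self hNp).mul hNp.pos (hU.pow _).pos hE).mul (hNp.pos.mul (hU.pow _).pos)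
    hNp.pos (Dev.self hNp)
  rw [← pow_add, ← pow_add, show N + N₀ + N = 2 * N + N₀ by omega] at e1
  have e2 := pad_dev hU hovU (2 ^ (2 * β)) (dev_sh_comb hU hdev hD0 (by norm_num) hS _)
    (hS.dev hU hdev)
  rw [show 48 * 2 ^ (2 * β) * (B + 1) = N from hN.symm,
    show N + N₀ + N = 2 * N + N₀ by omega] at e2
  refine (e1.add e2).mono ?_
  have hq : Real.sqrt (1 / Real.sqrt (((2 ^ (2 * β) : ℕ) : ℝ) + 1)) ≤ σ := by
    rw [Real.sqrt_div zero_le_one, Real.sqrt_one, one_div, hσ]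
    refine inv_anti₀ (by positivity) (Real.sqrt_le_sqrt ?_)
    refine Real.le_sqrt_of_sq_le ?_
    push_cast
    rw [← pow_mul, mul_comm β]
    linarith
  push_cast at hq ⊢
  rw [← hwdef]
  calc 1 * (144 * ε ^ 4 * σ) * 1 +
        (8 * w ^ 6 * ε ^ 4 * Real.sqrt (1 / Real.sqrt ((2 : ℝ) ^ (2 * β) + 1)) +
          ((2 : ℝ) ^ 2 ^ (2 * β))⁻¹ * (8 * w ^ 6 * ε ^ 4))
      ≤ 144 * ε ^ 4 * σ + (8 * w ^ 6 * ε ^ 4 * σ + ε ^ 6 * (8 * w ^ 6 * ε ^ 4)) := by
        refine add_le_add (le_of_eq (by ring)) (add_le_add ?_ ?_)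
        · exact mul_le_mul_of_nonneg_left hq (by positivity)
        · exact mul_le_mul_of_nonneg_right htail3 (by positivity)
    _ ≤ 144 * ε ^ 4 * σ + (8 * w ^ 6 * ε ^ 4 * σ + σ * (8 * w ^ 6 * ε ^ 4)) := by gcongr
    _ ≤ _ := by
        nlinarith [mul_le_mul_of_nonneg_right (one_le_pow₀ hw (n := 6))
          (by positivity : (0 : ℝ) ≤ ε ^ 4 * σ)]

/-- **The gain.** In the truncated world the two new words differ, against any bounded statistic,
by at most `2^13 w^6 ε^4 2^(-β/2)` times the standard deviation under the first of them. -/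
theorem gain {U V : Alg} {ε η : ℝ} {B : ℕ} (T : Til U V ε η B) {m h h₁ BX β : ℕ}
    (hε1 : ε ≤ 1) (hmh : m * h₁ ≤ h)
    (hlin : ((2 : ℝ) ^ m * (2 / Real.sqrt (h₁ + 1))) ^ m ≤ ε ^ 4)
    (htail : ((2 : ℝ) ^ h)⁻¹ ≤ ε ^ 6) (htail3 : ((2 : ℝ) ^ 2 ^ (2 * β))⁻¹ ≤ ε ^ 6)
    (hη : 32 * ((2 : ℝ) ^ m) ^ 2 * η ≤ 1) (hη0 : 0 ≤ η)
    (hov : nrm (wd U V (cellMask h B (winA m)) ^ (BX + 1) - wd U V (cellMask h B (winA m)) ^ BX) ≤ 1)
    (hs : ((2 * padLen h BX + 2 ^ m + 1 : ℕ) : ℝ) ^ 3 * ((2 : ℝ) ^ m) ^ 5 * ε ≤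
      (Real.sqrt (2 ^ β))⁻¹)
    (φ : List Bool → ℝ) (hφ : ∀ w, |φ w| ≤ 1) :
    |ev (wd U V (nextMask h B BX β m (winA m)) - wd U V (nextMask h B BX β m (winB m))) φ| ≤
      2 ^ 13 * ((2 : ℝ) ^ m) ^ 6 * ε ^ 4 * (Real.sqrt (2 ^ β))⁻¹ *
        Real.sqrt (ev (wd U V (nextMask h B BX β m (winA m))) (φ ^ 2) +
          ((((2 * padLen h BX + 2 ^ m) * 2 ^ m : ℕ) : ℝ) ^ 3 * (16 * ε ^ 2)) ^ 8) := by
  obtain ⟨hU, hV, hdev, hle, hovU⟩ := T
  set D := V - U with hDdef
  have hVD : U + D = V := by simp [D]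
  have hD0 : mass D = 0 := by rw [hDdef, map_sub, hV.mass_one, hU.mass_one, sub_self]
  have hε := hdev.nonneg
  set w : ℝ := (2 : ℝ) ^ m with hwdef
  have hw : 1 ≤ w := one_le_pow₀ (by norm_num)
  set P := padLen h B with hPdef
  set P₂ := padLen h BX with hP₂def
  set N := padLen (2 ^ (2 * β)) B with hNdef
  set LA := 2 * P + 2 ^ m with hLA
  set L₂ := 2 * P₂ + 2 ^ m with hL₂
  set la := cellMask h B (winA m) with hla
  set lb := cellMask h B (winB m) with hlb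
  set X := wd U V la with hXdef
  set Y := wd U V lb with hYdef
  have hX : IsProb X := isProb_wd hU hV _
  have hY : IsProb Y := isProb_wd hU hV _
  have hlenA : la.length = LA := by rw [hla, cellMask, length_padMask, length_winA]
  have hcA : la.count true ≤ 2 ^ m := by
    rw [hla, cellMask, count_padMask]; exact (List.count_le_length).trans (length_winA m).le
  have hlenB : lb.length = LA := by rw [hlb, cellMask, length_padMask, length_winB]
  have hcB : lb.count true ≤ 2 ^ m := by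
    rw [hlb, cellMask, count_padMask]; exact (List.count_le_length).trans (length_winB m).le
  -- consequences of the smallness hypothesis
  set σ : ℝ := (Real.sqrt (2 ^ β))⁻¹ with hσ
  have hσ0 : 0 ≤ σ := by positivity
  have hσ1 : σ ≤ 1 := inv_le_one_of_one_le₀ (Real.one_le_sqrt.2 (one_le_pow₀ (by norm_num)))
  set L : ℝ := ((L₂ + 1 : ℕ) : ℝ) with hLdef
  have hL : 2 ≤ L := by
    have : 2 ≤ L₂ + 1 := by have := Nat.one_le_two_pow (n := m); omega
    rw [hLdef]; exact_mod_cast this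
  have hwε : L ^ 3 * w ^ 5 * ε ≤ σ := hs
  obtain ⟨hLw, h8, hd1, hw3, h6⟩ := small_facts hw hL hε hε1 hσ1 hwε
  obtain ⟨hQ₁c, hQ₁d, hE₁, hD₁d, hXU⟩ :=
    first_level hU hdev hovU hε1 hmh hlin htail h8 hla hlb hLA
  rw [← hwdef] at hQ₁d hE₁ hD₁d hXU
  set D₁ := Y - X with hD₁
  set Q₁ := Lr U D 2 lb - Lr U D 2 la with hQ₁
  set d : ℝ := 3 * w ^ 2 * ε ^ 2 with hd
  set δ : ℝ := 2 * w * ε with hδ
  obtain ⟨hη4, hUX, hword⟩ := cell_compare hU hV hle hη hη0 hlenA hlenB hcA hcB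
  have hD₁X : Dev D₁ X (2 * d) := by
    refine (hD₁d.of_le zero_le_two hUX).mono ?_
    rw [mul_comm (2 : ℝ)]
    exact mul_le_mul_of_nonneg_left (Real.sqrt_le_iff.2 ⟨by norm_num, by norm_num⟩) (by positivity)
  -- second level
  obtain ⟨F, E₂, S, hsplit, hF', hE₂', hS⟩ := second_level hU hX hε hε1 hmh hlin htail hov hL₂
    hwdef hLdef hd hδ hLw h8 hd1 hQ₁c hQ₁d hE₁ hD₁d hXU hD₁X
  rw [← hP₂def] at hsplit
  have hlen₂ : (padMask P₂ (winA m)).length = L₂ := by
    rw [length_padMask, length_winA]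
  set A₁ : ℝ := 873 * w ^ 6 * ε ^ 4 * σ
  set A₂ : ℝ := 160 * w ^ 6 * ε ^ 4 * σ
  have hF : Dev F (X ^ L₂) A₁ := hF'.mono (mul_le_mul_of_nonneg_left hw3 (by positivity))
  have hE₂ : Dev E₂ (U ^ (L₂ * LA)) (144 * ε ^ 4 * σ) :=
    hE₂'.mono (mul_le_mul_of_nonneg_left hwε (by positivity))
  set n := 2 * N + L₂ * LA with hn
  -- the pieces of the new words
  have hmask : ∀ l : List Bool, wd U V (nextMask h B BX β m l) =
      U ^ N * wd X Y (padMask P₂ l) * U ^ N := fun l => by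
    rw [nextMask, wd_padMask, wd_wdList]
    rfl
  set x := wd U V (nextMask h B BX β m (winA m)) with hx
  have hxP : IsProb x := isProb_wd hU hV _
  have hNp := hU.pow N
  have hpureX : Pos ((2 : ℝ) • x - U ^ N * X ^ L₂ * U ^ N) := by
    have hd0 := hword (padMask P₂ (winA m)) (by
      rw [count_padMask]; exact (List.count_le_length).trans (length_winA m).le)
    rw [hlen₂] at hd0
    have hd2 := (hNp.pos.mul hd0).mul hNp.pos
    rw [hx, hmask]
    simpa only [mul_sub, sub_mul, mul_smul_comm, smul_mul_assoc] using hd2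
  have hkey : ∀ {G : Alg}, Dev G (X ^ L₂) A₁ →
      |ev (U ^ N * G * U ^ N) φ| ≤ 2 * A₁ * Real.sqrt (ev x (φ ^ 2)) := fun {G} hG => by
    have := ((((Dev.self hNp).mul hNp.pos (hX.pow _).pos hG).mul (hNp.pos.mul (hX.pow _).pos)
      hNp.pos (Dev.self hNp)).of_le zero_le_two hpureX).bound φ
    refine this.trans (mul_le_mul_of_nonneg_right ?_ (Real.sqrt_nonneg _))
    rw [one_mul, mul_one, mul_comm (2 : ℝ)]
    exact mul_le_mul_of_nonneg_left (Real.sqrt_le_iff.2 ⟨by norm_num, by norm_num⟩) hF.nonneg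
  have hmain : Dev (U ^ N * E₂ * U ^ N + U ^ N * S * U ^ N) (U ^ n) A₂ :=
    dev_outer hU hdev hD0 hovU hNdef hσ hwdef htail3 h6 hE₂ hS
  -- the pure word against the first new word
  set L₃ := L₂ * 2 ^ m
  obtain ⟨R, hR, hRm, hRle⟩ := pow_le_word hU hV hdev hle hη4 L₃
    (Nat.one_le_iff_ne_zero.2 (by positivity)) (nextMask h B BX β m (winA m)) (by
      rw [nextMask, count_padMask]
      refine (count_wdList hcA hcB _).trans_eq ?_
      simp only [cellMask, hlen₂, L₃, ← hP₂def]) 7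
  have hlenx : (nextMask h B BX β m (winA m)).length = n := by
    rw [nextMask, length_padMask, wdList_length (by rw [← hla, ← hlb, hlenA, hlenB]), ← hla, hlenA,
      cellMask, ← hP₂def, hlen₂, ← hNdef]
  rw [hlenx, ← hx] at hRle
  set bad : ℝ := ((L₃ : ℝ) ^ 3 * (16 * ε ^ 2)) ^ 8
  set Z := ev x (φ ^ 2)
  have hZ : 0 ≤ Z := ev_sq_nonneg hxP.pos φ
  have hpure : ev (U ^ n) (φ ^ 2) ≤ 1024 * (Z + bad) := by
    have h1 := ev_le_of_pos hRle (φ := φ ^ 2) fun w => sq_nonneg (φ w)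
    have h2 : ev R (φ ^ 2) ≤ mass R := by
      have := ev_mono hR (φ := φ ^ 2) (ψ := fun _ => 1) fun w => by
        simpa using (sq_le_one_iff_abs_le_one _).2 (hφ w)
      rwa [ev_const, one_mul] at this
    rw [ev_add, ev_smul] at h1
    norm_num at h1 hRm
    have : 0 ≤ bad := by positivity
    linarith
  have hfin : x - wd U V (nextMask h B BX β m (winB m)) =
      -(U ^ N * F * U ^ N) + -(U ^ N * E₂ * U ^ N + U ^ N * S * U ^ N) := by
    rw [hx, hmask, hmask, ← sub_mul, ← mul_sub, ← neg_sub (wd X Y (padMask P₂ (winB m))), hsplit]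
    noncomm_ring
  rw [hfin, ev_add]
  refine (abs_add_le _ _).trans ((add_le_add (b := 2 * A₁ * Real.sqrt (Z + bad))
    (d := 32 * A₂ * Real.sqrt (Z + bad)) ?_ ?_).trans ?_)
  · rw [show -(U ^ N * F * U ^ N) = U ^ N * (-F) * U ^ N by noncomm_ring]
    exact (hkey hF.neg).trans (mul_le_mul_of_nonneg_left
      (Real.sqrt_le_sqrt (le_add_of_nonneg_right (by positivity))) (by positivity))
  · refine (hmain.neg.bound φ).trans ?_
    rw [mul_comm (32 : ℝ), mul_assoc A₂]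
    refine mul_le_mul_of_nonneg_left ?_ hmain.nonneg
    refine (Real.sqrt_le_sqrt hpure).trans_eq ?_
    rw [Real.sqrt_mul (by norm_num), show (1024 : ℝ) = 32 ^ 2 by norm_num,
      Real.sqrt_sq (by norm_num)]
  · rw [← add_mul]
    refine mul_le_mul_of_nonneg_right ?_ (Real.sqrt_nonneg _)
    simp only [A₁, A₂]
    nlinarith [(by positivity : (0 : ℝ) ≤ w ^ 6 * ε ^ 4 * σ)]

end Vale.Agent.P321
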