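import Vale.Agent.P321.Super.Basic
import Vale.Agent.P321.Super.Window

/-!
P321, superpolynomial bound: a word in the cells `U = P + Ub`, `V = Vo + Vb`, with
`|Vo - P| ≤ δ P`, expanded by the number of exceptional cells, and each part against the product
in which all good cells are `P`.
-/

open Finset

namespace Vale.Agent.P321.Ratio

/-- The choice between two cells. -/
def sel (U V : Alg) (b : Bool) : Alg := if b then V else U

/-- One special cell, the others `P`. -/
noncomputable def M1 (P : Alg) (X : Bool → Alg) : List Bool → Alg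
  | [] => 0
  | b :: l => X b * P ^ l.length + P * M1 P X l

/-- Two special cells in order, the others `P`. -/
noncomputable def M2 (P : Alg) (X Y : Bool → Alg) : List Bool → Alg
  | [] => 0
  | b :: l => X b * M1 P Y l + P * M2 P X Y l

lemma M1_eq_sum (P : Alg) (X : Bool → Alg) : ∀ l : List Bool,
    M1 P X l = ∑ i ∈ range l.length, P ^ i * X (bit l i) * P ^ (l.length - 1 - i)
  | [] => by simp [M1]
  | b :: l => by
    rw [M1, M1_eq_sum P X l, List.length_cons, sum_range_succ', mul_sum, add_comm]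
    congr 1
    · refine sum_congr rfl fun i _ => ?_
      simp only [bit, List.getD_cons_succ, pow_succ', mul_assoc]
      rw [show l.length + 1 - 1 - (i + 1) = l.length - 1 - i by omega]
    · simp [bit]

lemma M2_eq_sum (P : Alg) (X Y : Bool → Alg) : ∀ l : List Bool,
    M2 P X Y l = ∑ i ∈ range l.length, ∑ j ∈ range (l.length - 1 - i),
      P ^ i * X (bit l i) * P ^ j * Y (bit l (i + 1 + j)) * P ^ (l.length - 2 - i - j)
  | [] => by simp [M2]
  | b :: l => by
    rw [M2, M2_eq_sum P X Y l, List.length_cons, sum_range_succ', mul_sum, add_comm]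
    congr 1
    · refine sum_congr rfl fun i _ => ?_
      rw [mul_sum, show l.length + 1 - 1 - (i + 1) = l.length - 1 - i by omega]
      refine sum_congr rfl fun j _ => ?_
      simp only [bit, List.getD_cons_succ, show i + 1 + 1 + j = i + 1 + j + 1 by omega, pow_succ',
        mul_assoc]
      rw [show l.length + 1 - 2 - (i + 1) - j = l.length - 2 - i - j by omega]
    · rw [M1_eq_sum, mul_sum, Nat.sub_zero]
      refine sum_congr (by simp) fun j _ => ?_
      simp only [bit, show 0 + 1 + j = j + 1 by omega, List.getD_cons_succ, pow_zero, one_mul,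
        List.getD_cons_zero, mul_assoc]
      rw [show l.length + 1 - 2 - 0 - j = l.length - 1 - j by omega]

lemma le1_M1 {P : Alg} {X X' : Bool → Alg} (hP : Pos P) (hX : ∀ b, Le1 (X b) (X' b)) :
    ∀ l, Le1 (M1 P X l) (M1 P X' l)
  | [] => by simpa [M1] using Le1.zero
  | b :: l => by
    rw [M1, M1]
    exact ((hX b).mul (Le1.of_pos (pow_pos' hP _))).add ((Le1.of_pos hP).mul (le1_M1 hP hX l))
where
  pow_pos' {P : Alg} (hP : Pos P) : ∀ k : ℕ, Pos (P ^ k)
    | 0 => by rw [pow_zero]; exact Pos.one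
    | k + 1 => by rw [pow_succ]; exact (pow_pos' hP k).mul hP

lemma le1_M2 {P : Alg} {X X' Y Y' : Bool → Alg} (hP : Pos P) (hX : ∀ b, Le1 (X b) (X' b))
    (hY : ∀ b, Le1 (Y b) (Y' b)) : ∀ l, Le1 (M2 P X Y l) (M2 P X' Y' l)
  | [] => by simpa [M2] using Le1.zero
  | b :: l => by
    rw [M2, M2]
    exact ((hX b).mul (le1_M1 hP hY l)).add ((Le1.of_pos hP).mul (le1_M2 hP hX hY l))

lemma pos_pow {P : Alg} (hP : Pos P) (k : ℕ) : Pos (P ^ k) := le1_M1.pow_pos' hP k

lemma pos_M1 {P : Alg} {X : Bool → Alg} (hP : Pos P) (hX : ∀ b, Pos (X b)) (l : List Bool) :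
    Pos (M1 P X l) := (le1_M1 hP (fun b => Le1.of_pos (hX b)) l).pos

lemma pos_M2 {P : Alg} {X Y : Bool → Alg} (hP : Pos P) (hX : ∀ b, Pos (X b))
    (hY : ∀ b, Pos (Y b)) (l : List Bool) : Pos (M2 P X Y l) :=
  (le1_M2 hP (fun b => Le1.of_pos (hX b)) (fun b => Le1.of_pos (hY b)) l).pos

lemma le1_mono {f g : Alg} {a b : ℝ} (h : Le1 f (a • g)) (hab : a ≤ b) (hg : Pos g) :
    Le1 f (b • g) := h.trans_pos (by rw [← sub_smul]; exact hg.smul (sub_nonneg.2 hab))

lemma pos_smul_sub {f g : Alg} {a b : ℝ} (hab : a ≤ b) (hg : Pos g) (h : Le1 f (a • g)) :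
    Pos (b • g - f) := (le1_mono h hab hg).pos_sub

/-- A good part and an exceptional part for each cell. -/
structure Split (P Vo Ub Vb : Alg) (δ β : ℝ) : Prop where
  posP : Pos P
  posVo : Pos Vo
  posUb : Pos Ub
  posVb : Pos Vb
  massP : mass P ≤ 1
  massVo : mass Vo ≤ 1
  massU : mass (P + Ub) ≤ 1
  massV : mass (Vo + Vb) ≤ 1
  massUb : mass Ub ≤ β
  massVb : mass Vb ≤ β
  delta_nonneg : 0 ≤ δ
  close : Le1 (Vo - P) (δ • P)

section parts

variable (P Vo Ub Vb : Alg)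

/-- No exceptional cell. -/
noncomputable def E0 : List Bool → Alg
  | [] => 1
  | b :: l => sel P Vo b * E0 l

/-- Exactly one exceptional cell. -/
noncomputable def E1 : List Bool → Alg
  | [] => 0
  | b :: l => sel P Vo b * E1 l + sel Ub Vb b * E0 P Vo l

/-- Exactly two exceptional cells. -/
noncomputable def E2 : List Bool → Alg
  | [] => 0
  | b :: l => sel P Vo b * E2 l + sel Ub Vb b * E1 P Vo Ub Vb l

/-- At least two exceptional cells. -/
noncomputable def R2 : List Bool → Alg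
  | [] => 0
  | b :: l => sel (P + Ub) (Vo + Vb) b * R2 l + sel Ub Vb b * E1 P Vo Ub Vb l

/-- At least three exceptional cells. -/
noncomputable def R3 : List Bool → Alg
  | [] => 0
  | b :: l => sel (P + Ub) (Vo + Vb) b * R3 l + sel Ub Vb b * E2 P Vo Ub Vb l

lemma sel_add (b : Bool) : sel (P + Ub) (Vo + Vb) b = sel P Vo b + sel Ub Vb b := by
  cases b <;> rfl

lemma wd_eq_two : ∀ l : List Bool, wd (P + Ub) (Vo + Vb) l =
    E0 P Vo l + E1 P Vo Ub Vb l + R2 P Vo Ub Vb l
  | [] => by simp [E0, E1, R2]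
  | b :: l => by
    rw [wd_cons, wd_eq_two l, E0, E1, R2]
    show sel (P + Ub) (Vo + Vb) b * _ = _
    rw [sel_add]
    noncomm_ring

lemma R2_eq : ∀ l : List Bool, R2 P Vo Ub Vb l = E2 P Vo Ub Vb l + R3 P Vo Ub Vb l
  | [] => by simp [E2, R3, R2]
  | b :: l => by
    rw [R2, R2_eq l, E2, R3, sel_add]
    noncomm_ring

lemma wd_eq_three (l : List Bool) : wd (P + Ub) (Vo + Vb) l =
    E0 P Vo l + E1 P Vo Ub Vb l + E2 P Vo Ub Vb l + R3 P Vo Ub Vb l := by
  rw [wd_eq_two, R2_eq]; abel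

end parts

variable {P Vo Ub Vb : Alg} {δ β : ℝ}

/-- The good deviation of a cell. -/
noncomputable def dc (P Vo : Alg) (b : Bool) : Alg := if b then Vo - P else 0

/-- Its bound. -/
noncomputable def dcBar (P : Alg) (δ : ℝ) (b : Bool) : Alg := if b then δ • P else 0

/-- One for a one, zero for a zero. -/
def bn (b : Bool) : ℕ := if b then 1 else 0

/-- The number of ones. -/
def cnt : List Bool → ℕ
  | [] => 0
  | b :: l => bn b + cnt l

lemma cnt_append : ∀ l l' : List Bool, cnt (l ++ l') = cnt l + cnt l'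
  | [], l' => by simp [cnt]
  | b :: l, l' => by simp [cnt, cnt_append l l', add_assoc]

lemma cnt_replicate_false : ∀ k : ℕ, cnt (List.replicate k false) = 0
  | 0 => rfl
  | k + 1 => by simp [List.replicate_succ, cnt, bn, cnt_replicate_false k]

lemma cnt_le_length : ∀ l : List Bool, cnt l ≤ l.length
  | [] => le_rfl
  | b :: l => by
    have := cnt_le_length l
    cases b <;> simp [cnt, bn] <;> omega

lemma sel_eq (P Vo : Alg) (b : Bool) : sel P Vo b = P + dc P Vo b := by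
  cases b <;> simp [sel, dc]

namespace Split

variable (hs : Split P Vo Ub Vb δ β)
include hs

lemma beta_nonneg : 0 ≤ β := hs.posUb.mass_nonneg.trans hs.massUb

lemma le1_dc (b : Bool) : Le1 (dc P Vo b) (dcBar P δ b) := by
  cases b
  · simpa [dc, dcBar] using Le1.zero
  · simpa [dc, dcBar] using hs.close

omit hs in
lemma dcBar_eq (b : Bool) : dcBar P δ b = ((bn b : ℝ) * δ) • P := by
  cases b <;> simp [dcBar, bn]

lemma pos_dcBar (b : Bool) : Pos (dcBar P δ b) := (hs.le1_dc b).pos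

lemma le1_co (b : Bool) : Le1 (sel P Vo b) ((1 + (bn b : ℝ) * δ) • P) := by
  rw [sel_eq, add_smul, one_smul, ← dcBar_eq]
  exact (Le1.of_pos hs.posP).add (hs.le1_dc b)

lemma pos_co (b : Bool) : Pos (sel P Vo b) := by
  cases b <;> simp [sel, hs.posP, hs.posVo]

lemma pos_bc (b : Bool) : Pos (sel Ub Vb b) := by
  cases b <;> simp [sel, hs.posUb, hs.posVb]

lemma pos_cell (b : Bool) : Pos (sel (P + Ub) (Vo + Vb) b) := by
  rw [sel_add]; exact (hs.pos_co b).add (hs.pos_bc b)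

lemma mass_co (b : Bool) : mass (sel P Vo b) ≤ 1 := by
  cases b <;> simp [sel, hs.massP, hs.massVo]

lemma mass_bc (b : Bool) : mass (sel Ub Vb b) ≤ β := by
  cases b <;> simp [sel, hs.massUb, hs.massVb]

lemma mass_cell (b : Bool) : mass (sel (P + Ub) (Vo + Vb) b) ≤ 1 := by
  cases b <;> simp only [sel, Bool.false_eq_true, if_false, if_true]
  · exact hs.massU
  · exact hs.massV

lemma pos_E0 : ∀ l, Pos (E0 P Vo l)
  | [] => Pos.one
  | b :: l => (hs.pos_co b).mul (pos_E0 l)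

lemma pos_E1 : ∀ l, Pos (E1 P Vo Ub Vb l)
  | [] => Pos.zero
  | b :: l => ((hs.pos_co b).mul (pos_E1 l)).add ((hs.pos_bc b).mul (hs.pos_E0 l))

lemma pos_E2 : ∀ l, Pos (E2 P Vo Ub Vb l)
  | [] => Pos.zero
  | b :: l => ((hs.pos_co b).mul (pos_E2 l)).add ((hs.pos_bc b).mul (hs.pos_E1 l))

lemma pos_R2 : ∀ l, Pos (R2 P Vo Ub Vb l)
  | [] => Pos.zero
  | b :: l => ((hs.pos_cell b).mul (pos_R2 l)).add ((hs.pos_bc b).mul (hs.pos_E1 l))

lemma pos_R3 : ∀ l, Pos (R3 P Vo Ub Vb l)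
  | [] => Pos.zero
  | b :: l => ((hs.pos_cell b).mul (pos_R3 l)).add ((hs.pos_bc b).mul (hs.pos_E2 l))

lemma mass_E0 : ∀ l, mass (E0 P Vo l) ≤ 1
  | [] => by simp [E0]
  | b :: l => by
    rw [E0, map_mul]
    exact mul_le_one₀ (hs.mass_co b) (hs.pos_E0 l).mass_nonneg (mass_E0 l)

lemma mass_E1 : ∀ l, mass (E1 P Vo Ub Vb l) ≤ l.length * β
  | [] => by simp [E1]
  | b :: l => by
    rw [E1, map_add, map_mul, map_mul]
    have h1 := mul_le_mul (hs.mass_co b) (mass_E1 l) (hs.pos_E1 l).mass_nonneg zero_le_one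
    have h2 := mul_le_mul (hs.mass_bc b) (hs.mass_E0 l) (hs.pos_E0 l).mass_nonneg hs.beta_nonneg
    push_cast [List.length_cons]
    linarith

lemma mass_R2 : ∀ l, mass (R2 P Vo Ub Vb l) ≤ ((l.length : ℝ) * β) ^ 2
  | [] => by simp [R2]
  | b :: l => by
    rw [R2, map_add, map_mul, map_mul]
    have h1 := mul_le_mul (hs.mass_cell b) (mass_R2 l) (hs.pos_R2 l).mass_nonneg zero_le_one
    have h2 := mul_le_mul (hs.mass_bc b) (hs.mass_E1 l) (hs.pos_E1 l).mass_nonneg hs.beta_nonneg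
    push_cast [List.length_cons]
    nlinarith [mul_nonneg (Nat.cast_nonneg (α := ℝ) l.length) (mul_self_nonneg β), mul_self_nonneg β]

lemma mass_R3 : ∀ l, mass (R3 P Vo Ub Vb l) ≤ ((l.length : ℝ) * β) ^ 3
  | [] => by simp [R3]
  | b :: l => by
    rw [R3, map_add, map_mul, map_mul]
    have e2 : mass (E2 P Vo Ub Vb l) ≤ ((l.length : ℝ) * β) ^ 2 := by
      have := hs.mass_R2 l
      rw [R2_eq, map_add] at this
      linarith [(hs.pos_R3 l).mass_nonneg]
    have h1 := mul_le_mul (hs.mass_cell b) (mass_R3 l) (hs.pos_R3 l).mass_nonneg zero_le_one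
    have h2 := mul_le_mul (hs.mass_bc b) e2 (hs.pos_E2 l).mass_nonneg hs.beta_nonneg
    push_cast [List.length_cons]
    have hn : (0 : ℝ) ≤ l.length := Nat.cast_nonneg _
    have hb := hs.beta_nonneg
    nlinarith [mul_nonneg (mul_nonneg hn hn) (pow_nonneg hb 3), mul_nonneg hn (pow_nonneg hb 3),
      pow_nonneg hb 3]

end Split

/-- The relative error of first order. -/
noncomputable def T1 (δ : ℝ) (k : ℕ) : ℝ := (1 + δ) ^ k - 1

/-- The relative error of second order. -/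
noncomputable def T2 (δ : ℝ) (k : ℕ) : ℝ := (1 + δ) ^ k - 1 - k * δ

lemma T1_step (δ : ℝ) (b : Bool) (k : ℕ) :
    T1 δ (bn b + k) = (1 + (bn b : ℝ) * δ) * T1 δ k + (bn b : ℝ) * δ := by
  cases b <;> simp [T1, bn, pow_add]; ring

lemma T2_step (δ : ℝ) (b : Bool) (k : ℕ) :
    T2 δ (bn b + k) = (1 + (bn b : ℝ) * δ) * T2 δ k + (bn b : ℝ) * δ * (k * δ) := by
  cases b <;> simp [T2, bn, pow_add]; ring

lemma T1_nonneg {δ : ℝ} (h : 0 ≤ δ) (k : ℕ) : 0 ≤ T1 δ k :=
  sub_nonneg.2 (one_le_pow₀ (by linarith))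

lemma T2_nonneg {δ : ℝ} (h : 0 ≤ δ) (k : ℕ) : 0 ≤ T2 δ k := by
  unfold T2; linarith [one_add_mul_le_pow (show (-2 : ℝ) ≤ δ by linarith) k]

lemma T1_le_T1 {δ : ℝ} (h : 0 ≤ δ) (b : Bool) (k : ℕ) : T1 δ k ≤ T1 δ (bn b + k) := by
  rw [T1_step]
  have := T1_nonneg h k
  nlinarith [mul_nonneg (Nat.cast_nonneg (α := ℝ) (bn b)) h,
    mul_nonneg (mul_nonneg (Nat.cast_nonneg (α := ℝ) (bn b)) h) this]

lemma T2_le_T2 {δ : ℝ} (h : 0 ≤ δ) (b : Bool) (k : ℕ) : T2 δ k ≤ T2 δ (bn b + k) := by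
  rw [T2_step]
  have := T2_nonneg h k
  nlinarith [mul_nonneg (mul_nonneg (Nat.cast_nonneg (α := ℝ) (bn b)) h)
      (mul_nonneg (Nat.cast_nonneg (α := ℝ) k) h),
    mul_nonneg (mul_nonneg (Nat.cast_nonneg (α := ℝ) (bn b)) h) this]

namespace Split

variable (hs : Split P Vo Ub Vb δ β)
include hs

/-- A step of the induction: the good cell meets the earlier error, the deviation the main part. -/
lemma step {Err Main G : Alg} {t c : ℝ} (b : Bool) (hE : Le1 Err (t • G)) (hM : Le1 Main (c • G)) :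
    Le1 (sel P Vo b * Err + dc P Vo b * Main)
      (((1 + (bn b : ℝ) * δ) * t + (bn b : ℝ) * δ * c) • (P * G)) := by
  have h1 := (hs.le1_co b).mul hE
  have h2 := (hs.le1_dc b).mul hM
  rw [smul_mul_smul_comm] at h1
  rw [dcBar_eq, smul_mul_smul_comm] at h2
  rw [add_smul]
  exact h1.add h2

omit hs in
lemma le1_self {G : Alg} (hG : Pos G) : Le1 G ((1 : ℝ) • G) := by
  rw [one_smul]; exact Le1.of_pos hG

lemma E0_sub : ∀ l, Le1 (E0 P Vo l - P ^ l.length) (T1 δ (cnt l) • P ^ l.length)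
  | [] => by simpa [E0, cnt, T1] using Le1.zero
  | b :: l => by
    have h := hs.step b (E0_sub l) (le1_self (pos_pow hs.posP l.length))
    rw [mul_one, ← T1_step, ← pow_succ'] at h
    convert h using 1
    · rw [E0, sel_eq, List.length_cons, pow_succ']; noncomm_ring
    · rfl

lemma E1_sub : ∀ l, Le1 (E1 P Vo Ub Vb l - M1 P (sel Ub Vb) l)
    (T1 δ (cnt l) • M1 P (sel Ub Vb) l)
  | [] => by simpa [E1, M1] using Le1.zero
  | b :: l => by
    have hM := pos_M1 hs.posP hs.pos_bc l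
    have h := hs.step b (E1_sub l) (le1_self hM)
    rw [mul_one, ← T1_step] at h
    have h' := (Le1.of_pos (hs.pos_bc b)).mul (hs.E0_sub l)
    rw [mul_smul_comm] at h'
    have h'' := le1_mono h' (T1_le_T1 hs.delta_nonneg b (cnt l))
      ((hs.pos_bc b).mul (pos_pow hs.posP _))
    convert h''.add h using 1
    · rw [E1, M1, sel_eq]; noncomm_ring
    · rw [M1, cnt, smul_add]

lemma E2_sub : ∀ l, Le1 (E2 P Vo Ub Vb l - M2 P (sel Ub Vb) (sel Ub Vb) l)
    (T1 δ (cnt l) • M2 P (sel Ub Vb) (sel Ub Vb) l)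
  | [] => by simpa [E2, M2] using Le1.zero
  | b :: l => by
    have hM := pos_M2 hs.posP hs.pos_bc hs.pos_bc l
    have h := hs.step b (E2_sub l) (le1_self hM)
    rw [mul_one, ← T1_step] at h
    have h' := (Le1.of_pos (hs.pos_bc b)).mul (hs.E1_sub l)
    rw [mul_smul_comm] at h'
    have h'' := le1_mono h' (T1_le_T1 hs.delta_nonneg b (cnt l))
      ((hs.pos_bc b).mul (pos_M1 hs.posP hs.pos_bc l))
    convert h''.add h using 1
    · rw [E2, M2, sel_eq]; noncomm_ring
    · rw [M2, cnt, smul_add]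

omit hs in
lemma M1_dcBar : ∀ l, M1 P (dcBar P δ) l = ((cnt l : ℝ) * δ) • P ^ l.length
  | [] => by simp [M1, cnt]
  | b :: l => by
    rw [M1, M1_dcBar l, dcBar_eq, cnt, List.length_cons, smul_mul_assoc, mul_smul_comm,
      ← pow_succ', ← add_smul]
    congr 1; push_cast; ring

/-- One exceptional cell and one good deviation, in either order. -/
lemma pair_dcBar : ∀ l, Pos (((cnt l : ℝ) * δ) • M1 P (sel Ub Vb) l -
    (M2 P (sel Ub Vb) (dcBar P δ) l + M2 P (dcBar P δ) (sel Ub Vb) l))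
  | [] => by simpa [M1, M2] using Pos.zero
  | b :: l => by
    have h := (hs.posP.mul (pair_dcBar l)).add (((hs.pos_bc b).mul (pos_pow hs.posP l.length)).smul
      (mul_nonneg (Nat.cast_nonneg (α := ℝ) (bn b)) hs.delta_nonneg))
    convert h using 1
    rw [M1, M2, M2, M1_dcBar, dcBar_eq, cnt]
    push_cast
    simp only [add_smul, smul_add, mul_add, mul_sub, mul_smul_comm, smul_mul_assoc, add_mul]
    abel

lemma M1_dc_le (l : List Bool) :
    Le1 (M1 P (dc P Vo) l) (((cnt l : ℝ) * δ) • P ^ l.length) := by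
  rw [← M1_dcBar]; exact le1_M1 hs.posP hs.le1_dc l

lemma pair_dc_le (l : List Bool) :
    Le1 (M2 P (sel Ub Vb) (dc P Vo) l + M2 P (dc P Vo) (sel Ub Vb) l)
      (((cnt l : ℝ) * δ) • M1 P (sel Ub Vb) l) :=
  ((le1_M2 hs.posP (fun b => Le1.of_pos (hs.pos_bc b)) hs.le1_dc l).add
    (le1_M2 hs.posP hs.le1_dc (fun b => Le1.of_pos (hs.pos_bc b)) l)).trans_pos (hs.pair_dcBar l)

lemma E0_sub2 : ∀ l, Le1 (E0 P Vo l - P ^ l.length - M1 P (dc P Vo) l)
    (T2 δ (cnt l) • P ^ l.length)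
  | [] => by simpa [E0, M1, cnt, T2] using Le1.zero
  | b :: l => by
    have h := hs.step b (E0_sub2 l) (hs.M1_dc_le l)
    rw [← T2_step, ← pow_succ'] at h
    convert h using 1
    · rw [E0, M1, sel_eq, List.length_cons, pow_succ']; noncomm_ring
    · rfl

lemma E1_sub2 : ∀ l, Le1 (E1 P Vo Ub Vb l - M1 P (sel Ub Vb) l -
      (M2 P (sel Ub Vb) (dc P Vo) l + M2 P (dc P Vo) (sel Ub Vb) l))
    (T2 δ (cnt l) • M1 P (sel Ub Vb) l)
  | [] => by simpa [E1, M1, M2] using Le1.zero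
  | b :: l => by
    have h := hs.step b (E1_sub2 l) (hs.pair_dc_le l)
    rw [← T2_step] at h
    have h' := (Le1.of_pos (hs.pos_bc b)).mul (hs.E0_sub2 l)
    rw [mul_smul_comm] at h'
    have h'' := le1_mono h' (T2_le_T2 hs.delta_nonneg b (cnt l))
      ((hs.pos_bc b).mul (pos_pow hs.posP _))
    convert h''.add h using 1
    · rw [E1, M1, M2, M2, sel_eq]; noncomm_ring
    · rw [M1, cnt, smul_add]

end Split

end Vale.Agent.P321.Ratio
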