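import Vale.Agent.P321.Super.Binom
import Vale.Agent.P321.Super.Pad
import Vale.Agent.P321.Super.RatioExpand

/-!
P321, superpolynomial bound: mixtures of the shifts of a window under binomial weights. For two
windows with equally many pairs of ones at every gap the one- and two-cell parts differ by a
relative `O(w 2^(-H))`, up to the binomial tail.
-/

open Finset

namespace Vale.Agent.P321.Ratio

/-- The window `a` after `t` of `h` shifts. -/
def pl (h : ℕ) (a : List Bool) (t : ℕ) : List Bool :=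
  List.replicate t false ++ a ++ List.replicate (h - t) false

/-- Binomial mixture over the shifts. -/
noncomputable def av (h : ℕ) (a : List Bool) (F : List Bool → Alg) : Alg :=
  ∑ t ∈ range (h + 1), bw h t • F (pl h a t)

lemma length_pl {h t : ℕ} (a : List Bool) (ht : t ≤ h) : (pl h a t).length = h + a.length := by
  simp [pl]; omega

lemma cnt_pl (h t : ℕ) (a : List Bool) : cnt (pl h a t) = cnt a := by
  simp [pl, cnt_append, cnt_replicate_false]

lemma wd_pl (U V : Alg) (h t : ℕ) (a : List Bool) :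
    wd U V (pl h a t) = U ^ t * wd U V a * U ^ (h - t) := by
  simp [pl, wd_append, mul_assoc]

lemma bit_pl (h t : ℕ) (a : List Bool) (i : ℕ) :
    bit (pl h a t) i = true ↔ t ≤ i ∧ bit a (i - t) = true := by
  unfold bit pl
  rcases lt_or_ge i t with hi | hi
  · rw [List.append_assoc, List.getD_append _ _ _ _ (by simpa), List.getD_replicate _ hi]
    simp [hi.not_ge]
  · rcases lt_or_ge (i - t) a.length with hj | hj
    · rw [List.getD_append _ _ _ _ (by simp; omega), List.getD_append_right _ _ _ _ (by simpa)]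
      simp [hi]
    · rw [List.getD_append_right _ _ _ _ (by simp; omega), List.getD_eq_default a _ hj]
      simp only [List.getD_eq_getElem?_getD, List.getElem?_replicate]
      split_ifs <;> simp

lemma sh_iterate_wd (U V : Alg) (h : ℕ) (a : List Bool) :
    (sh U)^[h] (wd U V a) = av h a (wd U V) := by
  rw [sh_iterate]
  exact sum_congr rfl fun t _ => by rw [bw_natCast, wd_pl]

section linear

variable {h : ℕ} {a : List Bool}

lemma av_congr {F G : List Bool → Alg}
    (hFG : ∀ l, l.length = h + a.length → cnt l = cnt a → F l = G l) : av h a F = av h a G :=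
  sum_congr rfl fun t ht => by
    rw [hFG _ (length_pl a (by simpa [Nat.lt_succ_iff] using ht)) (cnt_pl h t a)]

lemma av_add (F G : List Bool → Alg) : av h a (fun l => F l + G l) = av h a F + av h a G := by
  simp [av, sum_add_distrib]

lemma av_sub (F G : List Bool → Alg) : av h a (fun l => F l - G l) = av h a F - av h a G := by
  simp [av, sum_sub_distrib, smul_sub]

lemma av_smul (c : ℝ) (F : List Bool → Alg) : av h a (fun l => c • F l) = c • av h a F := by
  simp only [av, smul_sum]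
  exact sum_congr rfl fun t _ => smul_comm _ _ _

lemma av_const (h : ℕ) (a : List Bool) (Z : Alg) : av h a (fun _ => Z) = Z := by
  rw [av, ← sum_smul, sum_bw, one_smul]

lemma le1_av {F G : List Bool → Alg}
    (hFG : ∀ l, l.length = h + a.length → cnt l = cnt a → Le1 (F l) (G l)) :
    Le1 (av h a F) (av h a G) :=
  Le1.sum _ fun t ht => by
    have := (hFG _ (length_pl a (by simpa [Nat.lt_succ_iff] using ht)) (cnt_pl h t a)).smul
      (bw h t)
    rwa [abs_of_nonneg (bw_nonneg h t)] at this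

lemma pos_av {F : List Bool → Alg} (hF : ∀ l, Pos (F l)) : Pos (av h a F) :=
  Pos.sum _ fun t _ => (hF _).smul (bw_nonneg h t)

lemma mass_av {F : List Bool → Alg} {c : ℝ}
    (hF : ∀ l, l.length = h + a.length → mass (F l) ≤ c) : mass (av h a F) ≤ c := by
  rw [av, map_sum]
  calc ∑ t ∈ range (h + 1), mass (bw h t • F (pl h a t))
      ≤ ∑ t ∈ range (h + 1), bw h t * c := sum_le_sum fun t ht => by
        rw [map_smul, smul_eq_mul]
        exact mul_le_mul_of_nonneg_left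
          (hF _ (length_pl a (by simpa [Nat.lt_succ_iff] using ht))) (bw_nonneg h t)
    _ = c := by rw [← sum_mul, sum_bw, one_mul]

end linear

/-! ### Regrouping by colours -/

/-- The weight of the shifts of colour `c`. -/
noncomputable def coef {κ : Type*} [DecidableEq κ] (h : ℕ) (col : ℕ → κ) (c : κ) : ℝ :=
  ∑ t ∈ range (h + 1), if col t = c then bw h t else 0

lemma sum_coef {κ : Type*} [DecidableEq κ] [Fintype κ] (h : ℕ) (col : ℕ → κ) :
    ∑ c, coef h col c = 1 := by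
  simp only [coef]
  rw [sum_comm]
  simpa using sum_bw h

lemma regroup {ι κ : Type*} [DecidableEq κ] [Fintype κ] (h : ℕ) (I : Finset ι) (col : ι → ℕ → κ)
    (F : ι → κ → Alg) :
    ∑ t ∈ range (h + 1), bw h t • ∑ i ∈ I, F i (col i t) =
      ∑ i ∈ I, ∑ c, coef h (col i) c • F i c := by
  simp only [coef, smul_sum, sum_smul]
  rw [sum_comm]
  refine sum_congr rfl fun i _ => ?_
  rw [sum_comm]
  exact sum_congr rfl fun t _ => by simp [ite_smul]

lemma le1_coef {ι κ : Type*} [Fintype κ] (I : Finset ι) {fa fb : ι → κ → ℝ} {F G : ι → κ → Alg}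
    {v τ : ℝ} (hFG : ∀ i ∈ I, ∀ c, Le1 (F i c) (G i c))
    (hf : ∀ i ∈ I, ∀ c, |fa i c - fb i c| ≤ v * (fa i c + fb i c) + τ) :
    Le1 (∑ i ∈ I, ∑ c, fa i c • F i c - ∑ i ∈ I, ∑ c, fb i c • F i c)
      (v • (∑ i ∈ I, ∑ c, fa i c • G i c + ∑ i ∈ I, ∑ c, fb i c • G i c)
        + τ • ∑ i ∈ I, ∑ c, G i c) := by
  simp only [← sum_sub_distrib, ← sum_add_distrib, smul_sum]
  refine Le1.sum _ fun i hi => Le1.sum _ fun c _ => ?_
  rw [← sub_smul, smul_add, smul_smul, smul_smul, ← add_smul, ← add_smul, ← mul_add]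
  exact le1_mono ((hFG i hi c).smul _) (hf i hi c) (hFG i hi c).pos

/-- A shift condition as a sum of weights over a set. -/
lemma coef_eq {κ : Type*} [DecidableEq κ] {h : ℕ} {col : ℕ → κ} {c : κ} (S : Finset ℕ) (s : ℕ)
    (hp : ∀ t ≤ h, col t = c ↔ t ≤ s ∧ s - t ∈ S) :
    coef h col c = ∑ k ∈ S, bw h ((s : ℤ) - k) := by
  rw [coef, ← sum_filter]
  have hz : ∀ k ∈ S, k ∉ S.filter (fun k => k ≤ s ∧ s - k ≤ h) → bw h ((s : ℤ) - k) = 0 := by
    intro k hk hk'
    simp only [mem_filter, hk, true_and, not_and, not_le] at hk'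
    rcases lt_or_ge s k with hlt | hge
    · exact bw_of_lt h (by omega)
    · rw [show (s : ℤ) - k = ((s - k : ℕ) : ℤ) by omega, bw_natCast,
        Nat.choose_eq_zero_of_lt (hk' hge), Nat.cast_zero, zero_div]
  rw [← sum_subset (filter_subset _ S) hz]
  refine Finset.sum_nbij' (fun t => s - t) (fun k => s - k) ?_ ?_ ?_ ?_ ?_
  · intro t ht
    simp only [mem_filter, mem_range, Nat.lt_succ_iff] at ht ⊢
    obtain ⟨h1, h2⟩ := (hp t ht.1).1 ht.2
    exact ⟨h2, by omega, by omega⟩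
  · intro k hk
    simp only [mem_filter, mem_range, Nat.lt_succ_iff] at hk ⊢
    exact ⟨hk.2.2, (hp _ hk.2.2).2 ⟨by omega, by rw [show s - (s - k) = k by omega]; exact hk.1⟩⟩
  · intro t ht
    simp only [mem_filter, mem_range, Nat.lt_succ_iff] at ht
    have := ((hp t ht.1).1 ht.2).1
    omega
  · intro k hk
    simp only [mem_filter] at hk
    omega
  · intro t ht
    simp only [mem_filter, mem_range, Nat.lt_succ_iff] at ht
    have := ((hp t ht.1).1 ht.2).1
    rw [Nat.cast_sub this, sub_sub_cancel]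

/-! ### Colours of one and two positions -/

variable {m H : ℕ}

/-- The colour of one position. -/
def col1 (h : ℕ) (a : List Bool) (i t : ℕ) : Bool := bit (pl h a t) i

/-- The colours of two positions at gap `g`. -/
def col2 (h : ℕ) (a : List Bool) (i g t : ℕ) : Bool × Bool :=
  (bit (pl h a t) i, bit (pl h a t) (i + g))

lemma coef1_eq (h : ℕ) (a : List Bool) (i : ℕ) :
    coef h (col1 h a i) true = ∑ k ∈ ones a, bw h ((i : ℤ) - k) :=
  coef_eq _ _ fun t _ => by rw [col1, bit_pl, mem_ones]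

lemma coef11_eq (h : ℕ) (a : List Bool) (i g : ℕ) :
    coef h (col2 h a i g) (true, true) = ∑ k ∈ pairs11 a g, bw h ((i : ℤ) - k) :=
  coef_eq _ _ fun t _ => by
    rw [col2, Prod.mk.injEq, bit_pl, bit_pl, pairs11, mem_filter, mem_ones]
    constructor
    · rintro ⟨⟨h1, h2⟩, -, h3⟩
      exact ⟨h1, h2, by rwa [show i - t + g = i + g - t by omega]⟩
    · rintro ⟨h1, h2, h3⟩
      exact ⟨⟨h1, h2⟩, by omega, by rwa [show i + g - t = i - t + g by omega]⟩

lemma coef10_eq (h : ℕ) (a : List Bool) (i g : ℕ) :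
    coef h (col2 h a i g) (true, false) = ∑ k ∈ pairs10 a g, bw h ((i : ℤ) - k) :=
  coef_eq _ _ fun t _ => by
    rw [col2, Prod.mk.injEq, bit_pl, ← Bool.not_eq_true, bit_pl, pairs10, mem_filter, mem_ones]
    constructor
    · rintro ⟨⟨h1, h2⟩, h3⟩
      exact ⟨h1, h2, fun e => h3 ⟨by omega, by rwa [show i + g - t = i - t + g by omega]⟩⟩
    · rintro ⟨h1, h2, h3⟩
      exact ⟨⟨h1, h2⟩, fun e => h3 (by rw [show i - t + g = i + g - t by omega]; exact e.2)⟩

lemma coef01_eq (h : ℕ) (a : List Bool) (i g : ℕ) :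
    coef h (col2 h a i g) (false, true) = ∑ k ∈ pairs01 a g, bw h (((i + g : ℕ) : ℤ) - k) :=
  coef_eq _ _ fun t _ => by
    rw [col2, Prod.mk.injEq, bit_pl, ← Bool.not_eq_true, bit_pl, pairs01, mem_filter, mem_ones]
    constructor
    · rintro ⟨h3, h1, h2⟩
      exact ⟨h1, h2, fun e => h3 ⟨by omega, by rw [show i - t = i + g - t - g by omega]; exact e.2⟩⟩
    · rintro ⟨h1, h2, h3⟩
      exact ⟨fun e => h3 ⟨by omega, by rw [show i + g - t - g = i - t by omega]; exact e.2⟩, h1, h2⟩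

/-- The relative variation in a window. -/
noncomputable def var (H m : ℕ) : ℝ := 18 * 2 ^ m / 2 ^ H

/-- The additive variation in a window. -/
noncomputable def tail (H m : ℕ) : ℝ := 3 * 2 ^ m * bwTail H

lemma var_nonneg (H m : ℕ) : 0 ≤ var H m := by unfold var; positivity

lemma tail_nonneg (H m : ℕ) : 0 ≤ tail H m :=
  mul_nonneg (by positivity) (bwTail_nonneg H)

lemma sum_bw_small (hH : m + 7 ≤ H) {S : Finset ℕ} (hS : ∀ k ∈ S, k < 2 ^ m) (i : ℤ) :
    ∑ k ∈ S, bw (2 ^ (3 * H)) (i - k) ≤ 1 / 6 := by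
  refine (sum_le_sum fun k _ => bw_le_max _ _).trans ?_
  rw [sum_const, nsmul_eq_mul]
  have hc : (S.card : ℝ) ≤ 2 ^ m := by
    exact_mod_cast (card_le_card fun k hk => mem_range.2 (hS k hk)).trans_eq (card_range _)
  have hs : (2 : ℝ) ^ H ≤ Real.sqrt (((2 ^ (3 * H) : ℕ) : ℝ) + 1) := by
    refine Real.le_sqrt_of_sq_le ?_
    push_cast
    rw [← pow_mul]
    linarith [pow_le_pow_right₀ (show (1 : ℝ) ≤ 2 by norm_num) (show H * 2 ≤ 3 * H by omega)]
  have hH' : 6 * (2 : ℝ) ^ m ≤ 2 ^ H :=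
    le_trans (by rw [pow_add]; nlinarith [pow_pos (two_pos (α := ℝ)) m])
      (pow_le_pow_right₀ one_le_two hH)
  rw [mul_one_div, div_le_iff₀ (lt_of_lt_of_le (by positivity) hs)]
  linarith

lemma sum_win_diff (hH : m + 7 ≤ H) {S T : Finset ℕ} (hc : S.card = T.card)
    (hS : ∀ k ∈ S, k < 2 ^ m) (hT : ∀ k ∈ T, k < 2 ^ m) (i : ℤ) :
    |∑ k ∈ S, bw (2 ^ (3 * H)) (i - k) - ∑ k ∈ T, bw (2 ^ (3 * H)) (i - k)| ≤
      var H m * (∑ k ∈ S, bw (2 ^ (3 * H)) (i - k) + ∑ k ∈ T, bw (2 ^ (3 * H)) (i - k))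
        + tail H m / 3 := by
  have hw : 18 * 2 ^ m ≤ 2 ^ H := le_trans (by rw [pow_add]; omega)
    (Nat.pow_le_pow_right (by norm_num) hH)
  refine (sum_bw_diff (by omega) hw hc hS hT i).trans (le_of_eq ?_)
  rw [var, tail]; push_cast; ring

lemma coef1_diff (hm : Odd m) (hH : m + 7 ≤ H) (i : ℕ) (c : Bool) :
    |coef (2 ^ (3 * H)) (col1 (2 ^ (3 * H)) (winA m) i) c -
        coef (2 ^ (3 * H)) (col1 (2 ^ (3 * H)) (winB m) i) c| ≤
      var H m * (coef (2 ^ (3 * H)) (col1 (2 ^ (3 * H)) (winA m) i) c +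
        coef (2 ^ (3 * H)) (col1 (2 ^ (3 * H)) (winB m) i) c) + tail H m := by
  set h := 2 ^ (3 * H)
  have hA : ∀ k ∈ ones (winA m), k < 2 ^ m := fun k hk => length_winA m ▸ lt_of_mem_ones hk
  have hB : ∀ k ∈ ones (winB m), k < 2 ^ m := fun k hk => length_winB m ▸ lt_of_mem_ones hk
  have d := sum_win_diff hH (card_ones_winB hm).symm hA hB (i : ℤ)
  have sA := sum_bw_small hH hA (i : ℤ)
  have sB := sum_bw_small hH hB (i : ℤ)
  have oA := sum_coef h (col1 h (winA m) i)
  have oB := sum_coef h (col1 h (winB m) i)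
  rw [Fintype.sum_bool, coef1_eq] at oA oB
  have t0 := tail_nonneg H m
  have v0 := var_nonneg H m
  cases c
  · rw [abs_le] at d ⊢
    constructor <;> nlinarith
  · rw [coef1_eq, coef1_eq]
    linarith

lemma coef2_diff (hm : Odd m) (hH : m + 7 ≤ H) (i g : ℕ) (c : Bool × Bool) :
    |coef (2 ^ (3 * H)) (col2 (2 ^ (3 * H)) (winA m) i g) c -
        coef (2 ^ (3 * H)) (col2 (2 ^ (3 * H)) (winB m) i g) c| ≤
      var H m * (coef (2 ^ (3 * H)) (col2 (2 ^ (3 * H)) (winA m) i g) c +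
        coef (2 ^ (3 * H)) (col2 (2 ^ (3 * H)) (winB m) i g) c) + tail H m := by
  set h := 2 ^ (3 * H)
  have key : ∀ {p : List Bool → ℕ → Finset ℕ}, (∀ l, p l g ⊆ ones l) →
      (p (winB m) g).card = (p (winA m) g).card → ∀ s : ℤ,
      |∑ k ∈ p (winA m) g, bw h (s - k) - ∑ k ∈ p (winB m) g, bw h (s - k)| ≤
        var H m * (∑ k ∈ p (winA m) g, bw h (s - k) + ∑ k ∈ p (winB m) g, bw h (s - k))
          + tail H m / 3 ∧
      ∑ k ∈ p (winA m) g, bw h (s - k) ≤ 1 / 6 ∧ ∑ k ∈ p (winB m) g, bw h (s - k) ≤ 1 / 6 := by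
    intro p hp hc s
    have hA : ∀ k ∈ p (winA m) g, k < 2 ^ m :=
      fun k hk => length_winA m ▸ lt_of_mem_ones (hp _ hk)
    have hB : ∀ k ∈ p (winB m) g, k < 2 ^ m :=
      fun k hk => length_winB m ▸ lt_of_mem_ones (hp _ hk)
    exact ⟨sum_win_diff hH hc.symm hA hB s, sum_bw_small hH hA s, sum_bw_small hH hB s⟩
  obtain ⟨d1, a1, b1⟩ := key (p := pairs11) (fun l => filter_subset _ _)
    (card_pairs11_winB hm g) (i : ℤ)
  obtain ⟨d2, a2, b2⟩ := key (p := pairs10) (fun l => filter_subset _ _)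
    (card_pairs10_winB hm g) (i : ℤ)
  obtain ⟨d3, a3, b3⟩ := key (p := pairs01) (fun l => filter_subset _ _)
    (card_pairs01_winB hm g) ((i + g : ℕ) : ℤ)
  have oA := sum_coef h (col2 h (winA m) i g)
  have oB := sum_coef h (col2 h (winB m) i g)
  rw [Fintype.sum_prod_type, Fintype.sum_bool, Fintype.sum_bool, Fintype.sum_bool, coef11_eq,
    coef10_eq, coef01_eq] at oA oB
  have t0 := tail_nonneg H m
  have v0 := var_nonneg H m
  obtain ⟨c₁, c₂⟩ := c
  cases c₁ <;> cases c₂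
  · rw [abs_le] at d1 d2 d3 ⊢
    constructor <;> nlinarith
  · rw [coef01_eq, coef01_eq]; linarith
  · rw [coef10_eq, coef10_eq]; linarith
  · rw [coef11_eq, coef11_eq]; linarith

/-- All placements of one special cell. -/
noncomputable def Z1 (P : Alg) (X : Bool → Alg) (n : ℕ) : Alg :=
  ∑ i ∈ range n, ∑ c, P ^ i * X c * P ^ (n - 1 - i)

/-- All placements of two special cells. -/
noncomputable def Z2 (P : Alg) (X Y : Bool → Alg) (n : ℕ) : Alg :=
  ∑ x ∈ (range n).sigma (fun i => range (n - 1 - i)), ∑ c : Bool × Bool,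
    P ^ x.1 * X c.1 * P ^ x.2 * Y c.2 * P ^ (n - 2 - x.1 - x.2)

lemma av_M1 (h : ℕ) (a : List Bool) (P : Alg) (X : Bool → Alg) :
    av h a (M1 P X) = ∑ i ∈ range (h + a.length), ∑ c,
      coef h (col1 h a i) c • (P ^ i * X c * P ^ (h + a.length - 1 - i)) := by
  rw [← regroup]
  refine sum_congr rfl fun t ht => ?_
  rw [M1_eq_sum, length_pl a (by simpa [Nat.lt_succ_iff] using ht)]
  rfl

lemma av_M2 (h : ℕ) (a : List Bool) (P : Alg) (X Y : Bool → Alg) :
    av h a (M2 P X Y) =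
      ∑ x ∈ (range (h + a.length)).sigma (fun i => range (h + a.length - 1 - i)), ∑ c,
        coef h (col2 h a x.1 (x.2 + 1)) c •
          (P ^ x.1 * X c.1 * P ^ x.2 * Y c.2 * P ^ (h + a.length - 2 - x.1 - x.2)) := by
  rw [← regroup]
  refine sum_congr rfl fun t ht => ?_
  rw [M2_eq_sum, length_pl a (by simpa [Nat.lt_succ_iff] using ht), sum_sigma']
  refine congrArg _ (sum_congr rfl fun x _ => ?_)
  simp only [col2, show x.1 + (x.2 + 1) = x.1 + 1 + x.2 by omega]

variable {P : Alg}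

/-- One special cell: the two windows agree up to variation and tail. -/
theorem mix_M1 (hm : Odd m) (hH : m + 7 ≤ H) (hP : Pos P) {X X' : Bool → Alg}
    (hX : ∀ b, Le1 (X b) (X' b)) :
    Le1 (av (2 ^ (3 * H)) (winA m) (M1 P X) - av (2 ^ (3 * H)) (winB m) (M1 P X))
      (var H m • (av (2 ^ (3 * H)) (winA m) (M1 P X') + av (2 ^ (3 * H)) (winB m) (M1 P X'))
        + tail H m • Z1 P X' (2 ^ (3 * H) + 2 ^ m)) := by
  rw [av_M1, av_M1, av_M1, av_M1, length_winA, length_winB]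
  exact le1_coef _ (fun i _ c => ((Le1.of_pos (pos_pow hP _)).mul (hX c)).mul
    (Le1.of_pos (pos_pow hP _))) fun i _ c => coef1_diff hm hH i c

/-- Two special cells: the two windows agree up to variation and tail. -/
theorem mix_M2 (hm : Odd m) (hH : m + 7 ≤ H) (hP : Pos P) {X X' Y Y' : Bool → Alg}
    (hX : ∀ b, Le1 (X b) (X' b)) (hY : ∀ b, Le1 (Y b) (Y' b)) :
    Le1 (av (2 ^ (3 * H)) (winA m) (M2 P X Y) - av (2 ^ (3 * H)) (winB m) (M2 P X Y))
      (var H m • (av (2 ^ (3 * H)) (winA m) (M2 P X' Y') + av (2 ^ (3 * H)) (winB m) (M2 P X' Y'))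
        + tail H m • Z2 P X' Y' (2 ^ (3 * H) + 2 ^ m)) := by
  rw [av_M2, av_M2, av_M2, av_M2, length_winA, length_winB]
  exact le1_coef _ (fun x _ c => ((((Le1.of_pos (pos_pow hP _)).mul (hX c.1)).mul
    (Le1.of_pos (pos_pow hP _))).mul (hY c.2)).mul
    (Le1.of_pos (pos_pow hP _))) fun x _ c => coef2_diff hm hH x.1 (x.2 + 1) c

lemma mass_pow_le_one {P : Alg} (hP : Pos P) (h1 : mass P ≤ 1) : ∀ k : ℕ, mass (P ^ k) ≤ 1
  | 0 => by simp
  | k + 1 => by
    rw [pow_succ, map_mul]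
    exact mul_le_one₀ (mass_pow_le_one hP h1 k) hP.mass_nonneg h1

lemma mass_Z1 {P : Alg} {X : Bool → Alg} (hP : Pos P) (h1 : mass P ≤ 1) (hX : ∀ b, Pos (X b))
    (hX1 : ∀ b, mass (X b) ≤ 1) (n : ℕ) : Pos (Z1 P X n) ∧ mass (Z1 P X n) ≤ 2 * n := by
  refine ⟨Pos.sum _ fun i _ => Pos.sum _ fun c _ =>
    ((pos_pow hP _).mul (hX c)).mul (pos_pow hP _), ?_⟩
  simp only [Z1, map_sum, map_mul]
  calc ∑ i ∈ range n, ∑ c, mass (P ^ i) * mass (X c) * mass (P ^ (n - 1 - i))
      ≤ ∑ i ∈ range n, ∑ _c : Bool, (1 : ℝ) := sum_le_sum fun i _ => sum_le_sum fun c _ =>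
        mul_le_one₀ (mul_le_one₀ (mass_pow_le_one hP h1 _) (hX c).mass_nonneg (hX1 c))
          (pos_pow hP _).mass_nonneg (mass_pow_le_one hP h1 _)
    _ = 2 * n := by simp [mul_comm]

lemma mass_Z2 {P : Alg} {X Y : Bool → Alg} (hP : Pos P) (h1 : mass P ≤ 1) (hX : ∀ b, Pos (X b))
    (hX1 : ∀ b, mass (X b) ≤ 1) (hY : ∀ b, Pos (Y b)) (hY1 : ∀ b, mass (Y b) ≤ 1) (n : ℕ) :
    Pos (Z2 P X Y n) ∧ mass (Z2 P X Y n) ≤ 4 * (n : ℝ) ^ 2 := by
  refine ⟨Pos.sum _ fun x _ => Pos.sum _ fun c _ =>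
    ((((pos_pow hP _).mul (hX c.1)).mul (pos_pow hP _)).mul (hY c.2)).mul (pos_pow hP _), ?_⟩
  simp only [Z2, map_sum, map_mul]
  have m1 : ∀ k, mass (P ^ k) ≤ 1 := mass_pow_le_one hP h1
  have m0 : ∀ k, 0 ≤ mass (P ^ k) := fun k => (pos_pow hP k).mass_nonneg
  calc ∑ x ∈ (range n).sigma (fun i => range (n - 1 - i)), ∑ c : Bool × Bool,
        mass (P ^ x.1) * mass (X c.1) * mass (P ^ x.2) * mass (Y c.2) *
          mass (P ^ (n - 2 - x.1 - x.2))
      ≤ ∑ x ∈ (range n).sigma (fun i => range (n - 1 - i)), ∑ _c : Bool × Bool, (1 : ℝ) :=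
        sum_le_sum fun x _ => sum_le_sum fun c _ =>
          mul_le_one₀ (mul_le_one₀ (mul_le_one₀ (mul_le_one₀ (m1 _) (hX _).mass_nonneg (hX1 _))
            (m0 _) (m1 _)) (hY _).mass_nonneg (hY1 _)) (m0 _) (m1 _)
    _ ≤ 4 * (n : ℝ) ^ 2 := by
      simp only [sum_const, nsmul_eq_mul, card_univ, Fintype.card_prod, Fintype.card_bool]
      have h2 : ((range n).sigma fun i => range (n - 1 - i)).card ≤ n * n := by
        rw [card_sigma]
        exact (sum_le_sum fun i _ => (show (range (n - 1 - i)).card ≤ n by simp; omega)).trans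
          (by simp)
      have : (((range n).sigma fun i => range (n - 1 - i)).card : ℝ) ≤ (n : ℝ) * n := by
        exact_mod_cast h2
      push_cast
      nlinarith

end Vale.Agent.P321.Ratio
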